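import Claimed.Agent.R252.Fit.CaseA

/-!
# Row 252, unit FIT: glue of `fit_caseA` from the leaves of `Fit/CaseA.lean`      (helper9)
-/

set_option autoImplicit false

namespace Claimed.Agent.R252

open Finset Classical
open Claimed.Agent.R255 (ip nrm)

/-- numerics of case A.  `y = p^ω`, `ω = (1-d) t₀/48`. -/
theorem fitr_A_num (d t₀ p K L mE : ℝ) (hd : d < 1) (ht0 : 0 < t₀) (hp0 : 0 < p) (hp1 : p < 1)
    (hy : p ^ ((1 - d) * t₀ / 48) ≤ 1 / 6) (hK1 : 1 ≤ K) (hK : K ≤ p ^ (-((1 - d) * t₀ / 48)))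
    (hmE : p ^ ((1 - d) * t₀ / 4) / (16 * K) ≤ mE) (hL : p ^ t₀ ≤ L)
    (h : mE * (L / p ^ t₀) ^ (1 - d) ≤ 1000 * K ^ 5) : L ≤ p ^ (t₀ / 2) := by
  by_contra hcon
  push Not at hcon
  have hd1 : 0 < 1 - d := by linarith
  obtain ⟨y, hydef⟩ : ∃ y, y = p ^ ((1 - d) * t₀ / 48) := ⟨_, rfl⟩
  have hy0 : 0 < y := hydef ▸ Real.rpow_pos_of_pos hp0 _
  rw [← hydef] at hy
  have hKy : K ≤ y⁻¹ := by rw [hydef, ← Real.rpow_neg hp0.le]; exact hK
  have e12 : p ^ ((1 - d) * t₀ / 4) = y ^ 12 := by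
    rw [hydef, ← Real.rpow_natCast, ← Real.rpow_mul hp0.le]
    congr 1; push_cast; ring
  have hr0 : 0 < p ^ t₀ := Real.rpow_pos_of_pos hp0 _
  have e24 : (y ^ 24)⁻¹ < (L / p ^ t₀) ^ (1 - d) := by
    have h1 : p ^ (-(t₀ / 2)) < L / p ^ t₀ := by
      rw [lt_div_iff₀ hr0, ← Real.rpow_add hp0]
      have : -(t₀ / 2) + t₀ = t₀ / 2 := by ring
      rw [this]; exact hcon
    have h2 : (p ^ (-(t₀ / 2))) ^ (1 - d) < (L / p ^ t₀) ^ (1 - d) :=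
      Real.rpow_lt_rpow (Real.rpow_nonneg hp0.le _) h1 hd1
    have h3 : (p ^ (-(t₀ / 2))) ^ (1 - d) = (y ^ 24)⁻¹ := by
      rw [hydef, ← Real.rpow_natCast, ← Real.rpow_mul hp0.le, ← Real.rpow_mul hp0.le, ← Real.rpow_neg hp0.le]
      congr 1; push_cast; ring
    rw [← h3]; exact h2
  have hK0 : 0 < K := by linarith
  have hmE0 : 0 < mE := lt_of_lt_of_le (by rw [e12]; positivity) hmE
  have h4 : y ^ 12 / (16 * K) * (y ^ 24)⁻¹ < 1000 * K ^ 5 := by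
    calc y ^ 12 / (16 * K) * (y ^ 24)⁻¹ ≤ mE * (y ^ 24)⁻¹ := by
          rw [e12] at hmE
          exact mul_le_mul_of_nonneg_right hmE (by positivity)
      _ < mE * (L / p ^ t₀) ^ (1 - d) := mul_lt_mul_of_pos_left e24 hmE0
      _ ≤ 1000 * K ^ 5 := h
  have h5 : (y ^ 12)⁻¹ < 16000 * K ^ 6 := by
    have e : y ^ 12 / (16 * K) * (y ^ 24)⁻¹ = (y ^ 12)⁻¹ / (16 * K) := by field_simp
    rw [e, div_lt_iff₀ (by positivity)] at h4
    calc (y ^ 12)⁻¹ < 1000 * K ^ 5 * (16 * K) := h4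
      _ = 16000 * K ^ 6 := by ring
  have h6 : K ^ 6 ≤ (y ^ 6)⁻¹ := by
    calc K ^ 6 ≤ (y⁻¹) ^ 6 := pow_le_pow_left₀ hK0.le hKy 6
      _ = (y ^ 6)⁻¹ := by rw [inv_pow]
  have h7 : (y ^ 12)⁻¹ < 16000 * (y ^ 6)⁻¹ := lt_of_lt_of_le h5 (by linarith)
  have h8 : (1 : ℝ) < 16000 * y ^ 6 := by
    have e1 : (y ^ 12)⁻¹ * y ^ 12 = 1 := by field_simp
    have e2 : 16000 * (y ^ 6)⁻¹ * y ^ 12 = 16000 * y ^ 6 := by field_simp
    have := mul_lt_mul_of_pos_right h7 (show 0 < y ^ 12 by positivity)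
    rwa [e1, e2] at this
  have h9 : y ^ 6 ≤ (1 / 6 : ℝ) ^ 6 := pow_le_pow_left₀ hy0.le hy 6
  norm_num at h9
  linarith

/-- one half of case A: the strip variable sits in the slot described by `R`, `sg = ±1` -/
theorem fitr_caseA_half {I J : Type} [Fintype I] [Fintype J] (D : FitCore I J) (d t₀ p K : ℝ) (hd0 : 0 ≤ d) (hd : d < 1)
    (ht0 : 0 < t₀) (hp0 : 0 < p) (hp1 : p < 1) (hy : p ^ ((1 - d) * t₀ / 48) ≤ 1 / 6) (hK1 : 1 ≤ K)
    (hK : K ≤ p ^ (-((1 - d) * t₀ / 48))) (ht1 : t₀ ≤ 1) (hD : D.Ok p K d) (hm : 1 / K ≤ D.mass)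
    (S1 : Finset J) (s c : ℝ) (hs : |s| ≤ 4) (hS1 : ∀ j ∈ S1, |D.g j - s * D.v j - c| ≤ 4 * p ^ t₀)
    (hheavy : p ^ ((1 - d) * t₀ / 4) / 2 ≤ ∑ j ∈ S1, D.lam j)
    (R : I → J → J → Prop) (sg : ℝ) (hsg : |sg| = 1)
    (hRX : ∀ i j j', R i j j' → ∃ j₁ j₂, D.X i j₁ j₂)
    (hRn : ∀ i j j', R i j j' → ∃ σ ∈ D.S, |sg * (D.Λ * D.F i j j') - σ| ≤ K * p)
    (hpop : ∀ j ∈ S1, D.mass / 4 ≤ ∑ j', D.lam j' * ∑ i with R i j j', D.μ i) :
    D.mass / 8 ≤ ∑ i with ((∃ j j', D.X i j j') ∧ D.Λ * |D.b i - s * D.a i| ≤ p ^ (t₀ / 2)), D.μ i := by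
  have hK0 : 0 < K := by linarith
  have hm0 : 0 < D.mass := lt_of_lt_of_le (by positivity) hm
  have hκ0 : 0 < p ^ ((1 - d) * t₀ / 4) := Real.rpow_pos_of_pos hp0 _
  have hpos : 0 < ∑ j ∈ S1, D.lam j := lt_of_lt_of_le (by positivity) hheavy
  have hr0 : 0 < p ^ t₀ := Real.rpow_pos_of_pos hp0 _
  have hpr : p ≤ p ^ t₀ := by
    calc p = p ^ (1 : ℝ) := (Real.rpow_one p).symm
      _ ≤ p ^ t₀ := Real.rpow_le_rpow_of_exponent_ge hp0 hp1.le ht1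
  have hr1 : p ^ t₀ ≤ 1 := Real.rpow_le_one hp0.le hp1.le ht0.le
  have hrh : p ^ t₀ ≤ p ^ (t₀ / 2) := Real.rpow_le_rpow_of_exponent_ge hp0 hp1.le (by linarith)
  have h1 := fitr_pigeon D.μ D.lam hD.μ0 hD.lam0 hD.μ1 hD.lam1 S1 R (D.mass / 4) (by positivity) hpos (by
    rw [Finset.mul_sum]
    refine Finset.sum_le_sum fun j hj => ?_
    rw [mul_comm]
    exact mul_le_mul_of_nonneg_left (hpop j hj) (hD.lam0 j))
  have e8 : D.mass / 4 / 2 = D.mass / 8 := by ring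
  rw [e8] at h1
  refine h1.trans (Finset.sum_le_sum_of_subset_of_nonneg ?_ fun i _ _ => hD.μ0 i)
  intro i hi
  simp only [Finset.mem_filter, Finset.mem_univ, true_and] at hi ⊢
  obtain ⟨j', hj'⟩ := hi
  have hEpos : 0 < ∑ j ∈ S1 with R i j j', D.lam j := lt_of_lt_of_le (by positivity) hj'
  constructor
  · obtain ⟨j, hj, -⟩ := Finset.exists_ne_zero_of_sum_ne_zero hEpos.ne'
    exact hRX i j j' (Finset.mem_filter.1 hj).2
  · obtain ⟨α, hα⟩ : ∃ α, α = sg * (D.Λ * (D.a i * s - D.b i)) := ⟨_, rfl⟩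
    have hΛ0 : 0 < D.Λ := by linarith [hD.Λ1]
    have hαabs : |α| = D.Λ * |D.b i - s * D.a i| := by
      rw [hα, abs_mul, hsg, one_mul, abs_mul, abs_of_pos hΛ0, abs_sub_comm, mul_comm s]
    rw [← hαabs]
    by_cases hsmall : |α| < p ^ t₀
    · exact hsmall.le.trans hrh
    · push Not at hsmall
      have hαK : |α| ≤ 6 * K := by
        rw [hαabs]
        have h2 : |D.b i - s * D.a i| ≤ 6 := by
          calc |D.b i - s * D.a i| ≤ |D.b i| + |s * D.a i| := abs_sub _ _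
            _ ≤ 2 + 4 * 1 := by
                rw [abs_mul]
                have := hD.bb i
                have := hD.ab i
                gcongr
            _ = 6 := by norm_num
        calc D.Λ * |D.b i - s * D.a i| ≤ K * 6 := mul_le_mul hD.ΛK h2 (abs_nonneg _) hK0.le
          _ = 6 * K := by ring
      have h3 := fitr_lin D.lam D.v D.S p K d (p ^ t₀) α (sg * (D.Λ * (D.a i * (c - D.g j') + D.b i * D.v j')))
        hp0 hK1 hd0 hd hD.lam0 hD.vb hD.frl hD.her hpr hr1 hsmall hαK (S1.filter fun j => R i j j') (by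
          intro j hj
          obtain ⟨hjS, hjR⟩ := Finset.mem_filter.1 hj
          obtain ⟨σ, hσ, hσ2⟩ := hRn i j j' hjR
          refine ⟨σ, hσ, ?_⟩
          have e : α * D.v j + sg * (D.Λ * (D.a i * (c - D.g j') + D.b i * D.v j')) - σ =
              (sg * (D.Λ * D.F i j j') - σ) - sg * (D.Λ * (D.a i * (D.g j - s * D.v j - c))) := by
            rw [hα]; unfold FitCore.F; ring
          rw [e]
          have h5 : |sg * (D.Λ * (D.a i * (D.g j - s * D.v j - c)))| ≤ K * (1 * (4 * p ^ t₀)) := by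
            rw [abs_mul, hsg, one_mul, abs_mul, abs_mul, abs_of_pos hΛ0]
            have := hD.ab i
            have := hS1 j hjS
            have := hD.ΛK
            gcongr
          calc |(sg * (D.Λ * D.F i j j') - σ) - sg * (D.Λ * (D.a i * (D.g j - s * D.v j - c)))|
              ≤ |sg * (D.Λ * D.F i j j') - σ| + |sg * (D.Λ * (D.a i * (D.g j - s * D.v j - c)))| := abs_sub _ _
            _ ≤ K * p + K * (1 * (4 * p ^ t₀)) := add_le_add hσ2 h5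
            _ ≤ K * p ^ t₀ + K * (1 * (4 * p ^ t₀)) := by gcongr
            _ = 5 * K * p ^ t₀ := by ring)
      refine fitr_A_num d t₀ p K |α| _ hd ht0 hp0 hp1 hy hK1 hK ?_ hsmall h3
      refine le_trans ?_ hj'
      calc p ^ ((1 - d) * t₀ / 4) / (16 * K) = 1 / K / 8 * (p ^ ((1 - d) * t₀ / 4) / 2) := by field_simp; ring
        _ ≤ D.mass / 8 * ∑ j ∈ S1, D.lam j := by gcongr

theorem fitr_caseA (d : ℝ) (hd0 : 0 ≤ d) (hd : d < 1) (t₀ : ℝ) (ht0 : 0 < t₀) (ht1 : t₀ ≤ 1) :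
    ∃ η₂ p₂ : ℝ, 0 < η₂ ∧ 0 < p₂ ∧ ∀ p : ℝ, 0 < p → p < p₂ → ∀ K : ℝ, 1 ≤ K → K ≤ p ^ (-η₂) →
      ∀ (I J : Type) [Fintype I] [Fintype J] (D : FitCore I J), D.Ok p K d → 1 / K ≤ D.mass →
      ∀ W : Finset J, (∀ j ∈ W, D.mass / 4 ≤ D.m1 j ∨ D.mass / 4 ≤ D.m2 j) →
      ∀ (q₀ : ℝ × ℝ) (φ : ℝ), p ^ ((1 - d) * t₀ / 4) < ∑ j ∈ W with |ip (D.pos j - q₀) (nrm φ)| ≤ p ^ t₀, D.lam j →
      ∃ s : ℝ, |s| ≤ 4 ∧
        D.mass / 8 ≤ ∑ i with ((∃ j j', D.X i j j') ∧ D.Λ * |D.b i - s * D.a i| ≤ p ^ (t₀ / 2)), D.μ i := by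
  have hd1 : 0 < 1 - d := by linarith
  have hω : 0 < (1 - d) * t₀ / 48 := by positivity
  refine ⟨(1 - d) * t₀ / 48, min 1 ((1 / 6 : ℝ) ^ (48 / ((1 - d) * t₀))), hω, by positivity, ?_⟩
  intro p hp0 hp K hK1 hK I J _ _ D hD hm W hW q₀ φ hq
  have hp1 : p < 1 := lt_of_lt_of_le hp (min_le_left _ _)
  have hp6 : p < (1 / 6 : ℝ) ^ (48 / ((1 - d) * t₀)) := lt_of_lt_of_le hp (min_le_right _ _)
  have hy : p ^ ((1 - d) * t₀ / 48) ≤ 1 / 6 := by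
    calc p ^ ((1 - d) * t₀ / 48) ≤ ((1 / 6 : ℝ) ^ (48 / ((1 - d) * t₀))) ^ ((1 - d) * t₀ / 48) :=
          Real.rpow_le_rpow hp0.le hp6.le hω.le
      _ = 1 / 6 := by
          rw [← Real.rpow_mul (by norm_num)]
          have : 48 / ((1 - d) * t₀) * ((1 - d) * t₀ / 48) = 1 := by field_simp
          rw [this, Real.rpow_one]
  obtain ⟨y, hydef⟩ : ∃ y, y = p ^ ((1 - d) * t₀ / 48) := ⟨_, rfl⟩
  have hy0 : 0 < y := hydef ▸ Real.rpow_pos_of_pos hp0 _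
  have hy6 : y ≤ 1 / 6 := hydef ▸ hy
  have hKy : K ≤ y⁻¹ := by rw [hydef, ← Real.rpow_neg hp0.le]; exact hK
  have e12 : p ^ ((1 - d) * t₀ / 4) = y ^ 12 := by
    rw [hydef, ← Real.rpow_natCast, ← Real.rpow_mul hp0.le]
    congr 1; push_cast; ring
  have e48 : p ^ t₀ ≤ y ^ 48 := by
    have : y ^ 48 = p ^ ((1 - d) * t₀) := by
      rw [hydef, ← Real.rpow_natCast, ← Real.rpow_mul hp0.le]
      congr 1; push_cast; ring
    rw [this]
    exact Real.rpow_le_rpow_of_exponent_ge hp0 hp1.le (by nlinarith)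
  have hpr : p ≤ p ^ t₀ := by
    calc p = p ^ (1 : ℝ) := (Real.rpow_one p).symm
      _ ≤ p ^ t₀ := Real.rpow_le_rpow_of_exponent_ge hp0 hp1.le ht1
  have hK0 : 0 < K := by linarith
  obtain ⟨T, hTdef⟩ : ∃ T, T = W.filter fun j => |ip (D.pos j - q₀) (nrm φ)| ≤ p ^ t₀ := ⟨_, rfl⟩
  rw [← hTdef] at hq
  have hheavy : 4 * K * p ^ t₀ < ∑ j ∈ T, D.lam j := by
    refine lt_of_le_of_lt ?_ hq
    rw [e12]
    calc 4 * K * p ^ t₀ ≤ 4 * y⁻¹ * y ^ 48 := by gcongr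
      _ = 4 * y ^ 35 * y ^ 12 := by field_simp
      _ ≤ 1 * y ^ 12 := by
          refine mul_le_mul_of_nonneg_right ?_ (by positivity)
          have : y ^ 35 ≤ (1 / 6 : ℝ) ^ 35 := pow_le_pow_left₀ hy0.le hy6 35
          have h2 : (1 / 6 : ℝ) ^ 35 ≤ 1 / 4 := by norm_num
          linarith
      _ = y ^ 12 := one_mul _
  obtain ⟨s, c, hs, hsc⟩ := fitr_strip D.lam D.v D.g p K (p ^ t₀) hp0 hpr hK1 hD.lam0 hD.frl hD.lip T q₀ φ
    (fun j hj => by rw [hTdef] at hj; exact (Finset.mem_filter.1 hj).2) hheavy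
  refine ⟨s, hs, ?_⟩
  have hsplit : ∑ j ∈ T, D.lam j ≤ ∑ j ∈ T with D.mass / 4 ≤ D.m1 j, D.lam j + ∑ j ∈ T with D.mass / 4 ≤ D.m2 j, D.lam j := by
    rw [Finset.sum_filter, Finset.sum_filter, ← Finset.sum_add_distrib]
    refine Finset.sum_le_sum fun j hj => ?_
    have hjW : j ∈ W := by rw [hTdef] at hj; exact (Finset.mem_filter.1 hj).1
    have := hD.lam0 j
    rcases hW j hjW with h | h
    · rw [if_pos h]; split_ifs <;> linarith
    · rw [if_pos h]; split_ifs <;> linarith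
  by_cases hc1 : p ^ ((1 - d) * t₀ / 4) / 2 ≤ ∑ j ∈ T with D.mass / 4 ≤ D.m1 j, D.lam j
  · refine fitr_caseA_half D d t₀ p K hd0 hd ht0 hp0 hp1 hy hK1 hK ht1 hD hm _ s c hs
      (fun j hj => hsc j (Finset.mem_filter.1 hj).1) hc1 (fun i j j' => D.X i j j') 1 (by norm_num)
      (fun i j j' h => ⟨j, j', h⟩) (fun i j j' h => by rw [one_mul]; exact hD.near i j j' h)
      (fun j hj => (Finset.mem_filter.1 hj).2)
  · have hc2 : p ^ ((1 - d) * t₀ / 4) / 2 ≤ ∑ j ∈ T with D.mass / 4 ≤ D.m2 j, D.lam j := by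
      push Not at hc1
      linarith
    refine fitr_caseA_half D d t₀ p K hd0 hd ht0 hp0 hp1 hy hK1 hK ht1 hD hm _ s c hs
      (fun j hj => hsc j (Finset.mem_filter.1 hj).1) hc2 (fun i j j' => D.X i j' j) (-1) (by norm_num)
      (fun i j j' h => ⟨j', j, h⟩) (fun i j j' h => ?_) (fun j hj => (Finset.mem_filter.1 hj).2)
    obtain ⟨σ, hσ, hσ2⟩ := hD.near i j' j h
    refine ⟨σ, hσ, ?_⟩
    have e : -1 * (D.Λ * D.F i j j') = D.Λ * D.F i j' j := by unfold FitCore.F; ring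
    rw [e]; exact hσ2

end Claimed.Agent.R252
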