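import Claimed.Agent.R252.Fit.CaseB

/-!
# Row 252, unit FIT: glue of `fit_caseB` from the leaves of `Fit/CaseB.lean` and `RW.ex_K`      (helper9)
-/

set_option autoImplicit false

namespace Claimed.Agent.R252

open Finset Classical
open Claimed.Agent.RW (KfFrost KfCov kfProj ExTest ex_K)
open Claimed.Agent.R255 (RtThin ip nrm)

theorem fitr_frost_mono {ι Y : Type} [Fintype ι] [PseudoMetricSpace Y] {w : ι → ℝ} {pos : ι → Y} {C C' e ρ : ℝ}
    (hρ : 0 < ρ) (hC : C ≤ C') (h : KfFrost w pos C e ρ) : KfFrost w pos C' e ρ := by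
  intro z r hr hr1
  refine (h z r hr hr1).trans ?_
  have : 0 ≤ r ^ e := Real.rpow_nonneg (hρ.le.trans hr) _
  gcongr

/-- a pin carrying the average -/
theorem fitr_pin {J : Type} [Fintype J] (w s : J → ℝ) (hw0 : ∀ j, 0 ≤ w j) (hw1 : ∑ j, w j ≤ 1) (P : ℝ) (hP : 0 < P)
    (h : P ≤ ∑ j, w j * s j) : ∃ j₀, P ≤ s j₀ := by
  have hne : (univ : Finset J).Nonempty := by
    by_contra hcon
    rw [Finset.not_nonempty_iff_eq_empty] at hcon
    rw [hcon, Finset.sum_empty] at h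
    linarith
  obtain ⟨j₀, -, hj₀⟩ := Finset.exists_max_image univ s hne
  refine ⟨j₀, ?_⟩
  have h1 : ∑ j, w j * s j ≤ (∑ j, w j) * s j₀ := by
    rw [Finset.sum_mul]
    exact Finset.sum_le_sum fun j _ => mul_le_mul_of_nonneg_left (hj₀ j (Finset.mem_univ j)) (hw0 j)
  have h2 : 0 ≤ ∑ j, w j := Finset.sum_nonneg fun j _ => hw0 j
  by_contra hcon
  push Not at hcon
  by_cases hs : 0 ≤ s j₀
  · nlinarith
  · push Not at hs
    nlinarith

theorem fitr_caseB (d : ℝ) (hd0 : 0 ≤ d) (hd : d < 1) :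
    ∃ η' : ℝ, 0 < η' ∧ ∃ η₁ p₁ : ℝ, 0 < η₁ ∧ 0 < p₁ ∧ ∀ p : ℝ, 0 < p → p < p₁ → ∀ K : ℝ, 1 ≤ K → K ≤ p ^ (-η₁) →
      ∀ (I J : Type) [Fintype I] [Fintype J] (D : FitCore I J), D.Ok p K d →
      ∀ (lam' : J → ℝ) (𝒢 : J → J → Prop), (∀ j, 0 ≤ lam' j ∧ lam' j ≤ D.lam j) →
        p ^ η' ≤ ∑ j, ∑ j' with 𝒢 j j', lam' j * lam' j' * D.wt j j' →
        (∀ j j', 𝒢 j j' → p ^ η' ≤ dist (D.pos j) (D.pos j')) →
        RtThin lam' D.pos 𝒢 (p ^ (-η')) (1 - (1 - d) / 4) p → False := by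
  have hd1 : 0 < 1 - d := by linarith
  obtain ⟨ηK, hηK, ρK, hρK, HK⟩ := ex_K 1 (1 - (1 - d) / 4) ((1 - d) / 4) 2 (by norm_num) (by linarith) (by positivity)
    (by norm_num)
  have hω : 0 < (1 - d) / 24 := by positivity
  refine ⟨min ηK ((1 - d) / 8), by positivity, min ηK ((1 - d) / 24),
    min ρK (min (1 / 4) ((1 / 3 : ℝ) ^ (24 / (1 - d)))), by positivity, by positivity, ?_⟩
  intro p hp0 hp K hK1 hK I J _ _ D hD lam' 𝒢 hl hmass hsep hthin
  obtain ⟨η', hη'def⟩ : ∃ η', η' = min ηK ((1 - d) / 8) := ⟨_, rfl⟩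
  rw [← hη'def] at hmass hsep hthin
  have hη'0 : 0 < η' := by rw [hη'def]; positivity
  have hη'K : η' ≤ ηK := hη'def ▸ min_le_left _ _
  have hη'8 : η' ≤ (1 - d) / 8 := hη'def ▸ min_le_right _ _
  have hpρ : p < ρK := lt_of_lt_of_le hp (min_le_left _ _)
  have hp4 : p < 1 / 4 := lt_of_lt_of_le hp ((min_le_right _ _).trans (min_le_left _ _))
  have hp3 : p < (1 / 3 : ℝ) ^ (24 / (1 - d)) := lt_of_lt_of_le hp ((min_le_right _ _).trans (min_le_right _ _))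
  have hp1 : p < 1 := by linarith
  have hK0 : 0 < K := by linarith
  obtain ⟨z, hzdef⟩ : ∃ z, z = p ^ ((1 - d) / 24) := ⟨_, rfl⟩
  have hz0 : 0 < z := hzdef ▸ Real.rpow_pos_of_pos hp0 _
  have hz3 : z ≤ 1 / 3 := by
    rw [hzdef]
    calc p ^ ((1 - d) / 24) ≤ ((1 / 3 : ℝ) ^ (24 / (1 - d))) ^ ((1 - d) / 24) :=
          Real.rpow_le_rpow hp0.le hp3.le hω.le
      _ = 1 / 3 := by
          rw [← Real.rpow_mul (by norm_num)]
          have : 24 / (1 - d) * ((1 - d) / 24) = 1 := by field_simp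
          rw [this, Real.rpow_one]
  have hKz : K ≤ z⁻¹ := by
    rw [hzdef, ← Real.rpow_neg hp0.le]
    exact hK.trans (Real.rpow_le_rpow_of_exponent_ge hp0 hp1.le (by linarith [min_le_right ηK ((1 - d) / 24)]))
  have hKK : K ≤ p ^ (-ηK) :=
    hK.trans (Real.rpow_le_rpow_of_exponent_ge hp0 hp1.le (by linarith [min_le_left ηK ((1 - d) / 24)]))
  obtain ⟨P, hPdef⟩ : ∃ P, P = p ^ η' := ⟨_, rfl⟩
  rw [← hPdef] at hmass hsep
  have hP0 : 0 < P := hPdef ▸ Real.rpow_pos_of_pos hp0 _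
  have hP1 : P ≤ 1 := hPdef ▸ Real.rpow_le_one hp0.le hp1.le hη'0.le
  have hPz : z ^ 3 ≤ P := by
    rw [hPdef, hzdef, ← Real.rpow_natCast, ← Real.rpow_mul hp0.le]
    refine Real.rpow_le_rpow_of_exponent_ge hp0 hp1.le ?_
    push_cast; linarith
  have hPK : p ^ ηK ≤ P := hPdef ▸ Real.rpow_le_rpow_of_exponent_ge hp0 hp1.le hη'K
  -- `p ≤ P/2`
  have hpP : p ≤ P / 2 := by
    have h1 : p ^ (1 - η') ≤ 1 / 2 := by
      calc p ^ (1 - η') ≤ p ^ (1 / 2 : ℝ) := Real.rpow_le_rpow_of_exponent_ge hp0 hp1.le (by linarith)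
        _ ≤ (1 / 4 : ℝ) ^ (1 / 2 : ℝ) := Real.rpow_le_rpow hp0.le hp4.le (by norm_num)
        _ = 1 / 2 := by
            rw [show (1 / 4 : ℝ) = (1 / 2) ^ (2 : ℝ) by norm_num, ← Real.rpow_mul (by norm_num)]
            norm_num
    have h2 : p = P * p ^ (1 - η') := by
      rw [hPdef, ← Real.rpow_add hp0]
      have : η' + (1 - η') = 1 := by ring
      rw [this, Real.rpow_one]
    calc p = P * p ^ (1 - η') := h2
      _ ≤ P * (1 / 2) := mul_le_mul_of_nonneg_left h1 hP0.le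
      _ = P / 2 := by ring
  -- the pin
  have hl1 : ∑ j, lam' j ≤ 1 := le_trans (Finset.sum_le_sum fun j _ => (hl j).2) hD.lam1
  obtain ⟨j₀, hj₀⟩ := fitr_pin lam' (fun j => ∑ j' with 𝒢 j j', lam' j' * D.wt j j') (fun j => (hl j).1) hl1 P hP0 (by
    refine hmass.trans (le_of_eq ?_)
    refine Finset.sum_congr rfl fun j _ => ?_
    rw [Finset.mul_sum]
    exact Finset.sum_congr rfl fun j' _ => by ring)
  -- separation in `v`
  have hΔ : ∀ j, 𝒢 j₀ j → P / 2 ≤ |D.v j - D.v j₀| := by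
    intro j hj
    have h1 := hsep j₀ j hj
    rw [Prod.dist_eq, Real.dist_eq, Real.dist_eq] at h1
    have h2 := hD.lip j₀ j
    have h3 : |D.v j₀ - D.v j| = |D.v j - D.v j₀| := abs_sub_comm _ _
    rcases le_max_iff.1 h1 with h | h
    · have : |D.v j₀ - D.v j| = |(D.pos j₀).1 - (D.pos j).1| := rfl
      linarith
    · have : |D.g j₀ - D.g j| = |(D.pos j₀).2 - (D.pos j).2| := rfl
      linarith
  obtain ⟨ν, hν⟩ : ∃ ν : J → ℝ, ν = fun j => if 𝒢 j₀ j then lam' j else 0 := ⟨_, rfl⟩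
  obtain ⟨sl, hsl⟩ : ∃ sl : J → ℝ, sl = fun j => if 𝒢 j₀ j then
      ((D.pos j).2 - (D.pos j₀).2) / ((D.pos j).1 - (D.pos j₀).1) else 0 := ⟨_, rfl⟩
  obtain ⟨Gr, hGr⟩ : ∃ Gr : Finset (I × J), Gr = univ.filter fun q => 𝒢 j₀ q.2 ∧ D.X q.1 j₀ q.2 := ⟨_, rfl⟩
  obtain ⟨B, hB⟩ : ∃ B : ℝ, B = 100 * K ^ 3 * p ^ (-d) / (P / 2) := ⟨_, rfl⟩
  have hfrost : KfFrost ν sl (p ^ (-η')) (1 - (1 - d) / 4) p := by
    rw [hν, hsl]
    refine fitr_slope_frost lam' D.pos 𝒢 _ _ p (fun j => (hl j).1) hthin j₀ fun j hj h0 => ?_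
    have h1 := hΔ j hj
    have h2 : D.v j = D.v j₀ := h0
    rw [h2, sub_self, abs_zero] at h1
    linarith
  have hcov : ∀ j, ∃ cov : Finset ℝ, (cov.card : ℝ) ≤ B ∧
      KfCov cov p {t | ∃ x, (x, j) ∈ Gr ∧ t = kfProj (sl j) (D.a x, D.b x)} := by
    intro j
    by_cases hj : 𝒢 j₀ j
    · obtain ⟨cov, h1, h2⟩ := fitr_cover D p K d (P / 2) hp0 hp1.le hK1 hD j₀ j (by positivity) (by linarith) (hΔ j hj)
      refine ⟨cov, hB ▸ h1, fun t ht => h2 t ?_⟩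
      obtain ⟨x, hx, hxt⟩ := ht
      rw [hGr] at hx
      refine ⟨x, (Finset.mem_filter.1 hx).2.2, ?_⟩
      rw [hxt, hsl]
      simp only [if_pos hj]
      rfl
    · refine ⟨∅, ?_, fun t ht => ?_⟩
      · rw [hB]; simp only [Finset.card_empty, Nat.cast_zero]
        have : 0 < p ^ (-d) := Real.rpow_pos_of_pos hp0 _
        positivity
      · obtain ⟨x, hx, -⟩ := ht
        rw [hGr] at hx
        exact absurd (Finset.mem_filter.1 hx).2.1 hj
  choose cov hcov1 hcov2 using hcov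
  have hB0 : 0 ≤ B := by
    rw [hB]
    have : 0 < p ^ (-d) := Real.rpow_pos_of_pos hp0 _
    positivity
  have htest : ExTest p ηK 2 (1 - (1 - d) / 4) D.μ ν (fun i => (D.a i, D.b i)) sl Gr ⌊B⌋₊ := by
    refine ⟨hD.μ0, fun j => ?_, hD.μ1, ?_, fun i => ⟨(hD.ab i).trans (by norm_num), hD.bb i⟩, fun j => ?_, ?_, ?_,
      cov, fun j => ?_, hcov2⟩
    · rw [hν]; simp only; split_ifs
      · exact (hl j).1
      · exact le_rfl
    · refine le_trans (Finset.sum_le_sum fun j _ => ?_) hl1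
      rw [hν]; simp only; split_ifs
      · exact le_rfl
      · exact (hl j).1
    · rw [hsl]; simp only
      by_cases hj : 𝒢 j₀ j
      · rw [if_pos hj, abs_div]
        show |D.g j - D.g j₀| / |D.v j - D.v j₀| ≤ 2
        rw [div_le_iff₀ (lt_of_lt_of_le (by positivity) (hΔ j hj))]
        have h1 := hD.lip j j₀
        have h2 := hΔ j hj
        linarith
      · rw [if_neg hj, abs_zero]; norm_num
    · exact fitr_frost_mono hp0 (Real.rpow_le_rpow_of_exponent_ge hp0 hp1.le (by linarith)) hfrost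
    · refine hPK.trans (hj₀.trans (le_of_eq ?_))
      rw [hGr, Finset.sum_filter, Finset.sum_filter, Fintype.sum_prod_type_right]
      refine Finset.sum_congr rfl fun j _ => ?_
      by_cases hj : 𝒢 j₀ j
      · rw [if_pos hj]
        unfold FitCore.wt
        rw [Finset.mul_sum, Finset.sum_filter]
        refine Finset.sum_congr rfl fun i _ => ?_
        by_cases hx : D.X i j₀ j
        · rw [if_pos hx, if_pos ⟨hj, hx⟩, hν]; simp only [if_pos hj]; ring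
        · rw [if_neg hx, if_neg (fun h => hx h.2)]
      · rw [if_neg hj]
        exact (Finset.sum_eq_zero fun i _ => if_neg fun h => hj h.1).symm
    · exact Nat.le_floor (hcov1 j)
  have hμfr : KfFrost D.μ (fun i => (D.a i, D.b i)) (p ^ (-ηK)) 1 p := by
    intro w r hr hr1
    have hr0 : 0 ≤ r := hp0.le.trans hr
    calc ∑ i with dist (D.a i, D.b i) w ≤ r, D.μ i ≤ ∑ i with |D.a i - w.1| ≤ r, D.μ i := by
          refine Finset.sum_le_sum_of_subset_of_nonneg ?_ fun i _ _ => hD.μ0 i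
          intro i hi
          simp only [Finset.mem_filter, Finset.mem_univ, true_and] at hi ⊢
          rw [Prod.dist_eq, Real.dist_eq] at hi
          exact (le_max_left _ _).trans hi
      _ ≤ K * r := hD.frμ w.1 r hr
      _ ≤ p ^ (-ηK) * r ^ (1 : ℝ) := by rw [Real.rpow_one]; gcongr
  have hfin := HK p hp0 hpρ I J D.μ ν (fun i => (D.a i, D.b i)) sl Gr ⌊B⌋₊ htest hμfr
  have hfl : ((⌊B⌋₊ : ℕ) : ℝ) ≤ B := Nat.floor_le hB0
  have hmin : min (1 : ℝ) (1 - (1 - d) / 4) = 1 - (1 - d) / 4 := min_eq_right (by linarith)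
  rw [hmin] at hfin
  have h1 : p ^ (-(1 - (1 - d) / 4) + (1 - d) / 4) ≤ 100 * K ^ 3 * p ^ (-d) / (P / 2) := hB ▸ hfin.trans hfl
  -- `p^(-(1+d)/2) p^d = z^(-12)`
  have hpd : 0 < p ^ (-d) := Real.rpow_pos_of_pos hp0 _
  have e12 : p ^ (-(1 - (1 - d) / 4) + (1 - d) / 4) = (z ^ 12)⁻¹ * p ^ (-d) := by
    rw [hzdef, ← Real.rpow_natCast, ← Real.rpow_mul hp0.le, ← Real.rpow_neg hp0.le, ← Real.rpow_add hp0]
    congr 1; push_cast; ring
  rw [e12] at h1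
  have h2 : (z ^ 12)⁻¹ ≤ 200 * K ^ 3 / P := by
    have e : 100 * K ^ 3 * p ^ (-d) / (P / 2) = 200 * K ^ 3 / P * p ^ (-d) := by field_simp; ring
    rw [e] at h1
    exact le_of_mul_le_mul_right h1 hpd
  have h3 : K ^ 3 ≤ (z ^ 3)⁻¹ := by
    calc K ^ 3 ≤ (z⁻¹) ^ 3 := pow_le_pow_left₀ hK0.le hKz 3
      _ = (z ^ 3)⁻¹ := by rw [inv_pow]
  have h4 : 200 * K ^ 3 / P ≤ 200 * (z ^ 3)⁻¹ / z ^ 3 := by gcongr
  have h5 : (z ^ 12)⁻¹ ≤ 200 * (z ^ 3)⁻¹ / z ^ 3 := h2.trans h4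
  have h6 : (1 : ℝ) ≤ 200 * z ^ 6 := by
    have e1 : (z ^ 12)⁻¹ * z ^ 12 = 1 := by field_simp
    have e2 : 200 * (z ^ 3)⁻¹ / z ^ 3 * z ^ 12 = 200 * z ^ 6 := by field_simp
    have := mul_le_mul_of_nonneg_right h5 (show 0 ≤ z ^ 12 by positivity)
    rwa [e1, e2] at this
  have h7 : z ^ 6 ≤ (1 / 3 : ℝ) ^ 6 := pow_le_pow_left₀ hz0.le hz3 6
  norm_num at h7
  linarith

end Claimed.Agent.R252
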