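import Claimed.Agent.R252.Fit.Defs

/-!
# Row 252, unit FIT, file CASE A: CONTRACT leaves of `fit_caseA` (step 4 of `origin/helper9:notes/R252/fit.md`)      (architect: helper9)
PAPER-FREE.  Statements FROZEN (a defect: one line to helper9).  Helper lemmas: prefix `fitr_`, directly above the theorem.
-/

set_option autoImplicit false

namespace Claimed.Agent.R252

open Finset Classical
open Claimed.Agent.R255 (ip nrm)

/-- LEAF L-252-FIT-A1 (~150 l.).  A heavy strip of a 1-Lipschitz graph is not steep: the graph is affine on it.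
`ip x y = x.1 y.1 + x.2 y.2`, `nrm φ = (-sin φ, cos φ)`.
(i) `|cos φ| ≥ 1/4`: `s = sin φ/cos φ` (`|s| ≤ 4`), `c = q₀.2 - s q₀.1`: `g j - s v j - c = ip(..)/cos φ`, absolute value `≤ 4 wd`.
(ii) `|cos φ| < 1/4`: `sin² φ > 15/16`, `|sin φ| > 0.96`.  For `j, j₁ ∈ T`: `|sin φ||v j - v j₁| ≤ 2wd + |cos φ||g j - g j₁| ≤ 2wd + (|v j - v j₁| + wd)/4`, so `|v j - v j₁| ≤ 4wd`.
`T` is nonempty (its mass is `> 0`); fix `j₁ ∈ T`: `∑_T lam ≤ ∑_{|v j - v j₁| ≤ 4wd} lam ≤ K·4wd` by `hfr`: contradiction with `hheavy`. -/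
theorem fitr_strip {J : Type} [Fintype J] (lam v g : J → ℝ) (p K wd : ℝ) (hp : 0 < p) (hpw : p ≤ wd) (hK : 1 ≤ K)
    (hl0 : ∀ j, 0 ≤ lam j) (hfr : FitFr lam v K p) (hlip : ∀ j j', |g j - g j'| ≤ |v j - v j'| + p)
    (T : Finset J) (q₀ : ℝ × ℝ) (φ : ℝ) (hT : ∀ j ∈ T, |ip ((v j, g j) - q₀) (nrm φ)| ≤ wd)
    (hheavy : 4 * K * wd < ∑ j ∈ T, lam j) :
    ∃ s c : ℝ, |s| ≤ 4 ∧ ∀ j ∈ T, |g j - s * v j - c| ≤ 4 * wd := by
  have hwd : 0 < wd := lt_of_lt_of_le hp hpw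
  obtain ⟨cφ, hc⟩ : ∃ c, c = Real.cos φ := ⟨_, rfl⟩
  obtain ⟨sφ, hs⟩ : ∃ s, s = Real.sin φ := ⟨_, rfl⟩
  have hcs : sφ ^ 2 + cφ ^ 2 = 1 := by rw [hc, hs]; exact Real.sin_sq_add_cos_sq φ
  have hip : ∀ j, ip ((v j, g j) - q₀) (nrm φ) = -(v j - q₀.1) * sφ + (g j - q₀.2) * cφ := by
    intro j
    unfold ip nrm
    rw [hc, hs]
    simp only [Prod.fst_sub, Prod.snd_sub]
    ring
  by_cases h : 1 / 4 ≤ |cφ|
  · have hc0 : 0 < |cφ| := by linarith
    have hc1 : cφ ≠ 0 := abs_pos.1 hc0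
    refine ⟨sφ / cφ, q₀.2 - sφ / cφ * q₀.1, ?_, ?_⟩
    · rw [abs_div, div_le_iff₀ hc0]
      have : |sφ| ≤ 1 := by rw [hs]; exact Real.abs_sin_le_one φ
      linarith
    · intro j hj
      have h1 := hT j hj
      rw [hip] at h1
      have e : g j - sφ / cφ * v j - (q₀.2 - sφ / cφ * q₀.1) = (-(v j - q₀.1) * sφ + (g j - q₀.2) * cφ) / cφ := by
        field_simp
        ring
      rw [e, abs_div, div_le_iff₀ hc0]
      nlinarith
  · exfalso
    push Not at h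
    have hs1 : (96 / 100 : ℝ) < |sφ| := by
      have h2 : cφ ^ 2 < 1 / 16 := by
        have := sq_abs cφ
        nlinarith [abs_nonneg cφ]
      have h3 : (96 / 100 : ℝ) ^ 2 < |sφ| ^ 2 := by
        rw [sq_abs]
        nlinarith
      exact lt_of_pow_lt_pow_left₀ 2 (abs_nonneg _) h3
    have hne : T.Nonempty := by
      by_contra hne
      rw [Finset.not_nonempty_iff_eq_empty] at hne
      rw [hne, Finset.sum_empty] at hheavy
      have : 0 < 4 * K * wd := by positivity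
      linarith
    obtain ⟨j₁, hj₁⟩ := hne
    have hclose : ∀ j ∈ T, |v j - v j₁| ≤ 4 * wd := by
      intro j hj
      have a1 := hT j hj
      have a2 := hT j₁ hj₁
      rw [hip] at a1 a2
      have e : sφ * (v j - v j₁) = cφ * (g j - g j₁)
          - ((-(v j - q₀.1) * sφ + (g j - q₀.2) * cφ) - (-(v j₁ - q₀.1) * sφ + (g j₁ - q₀.2) * cφ)) := by ring
      have b1 : |sφ| * |v j - v j₁| ≤ |cφ| * |g j - g j₁| + (wd + wd) := by
        rw [← abs_mul, e, ← abs_mul]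
        refine (abs_sub _ _).trans (add_le_add le_rfl ((abs_sub _ _).trans (add_le_add a1 a2)))
      have b2 := hlip j j₁
      have b3 : |cφ| * |g j - g j₁| ≤ 1 / 4 * (|v j - v j₁| + p) :=
        mul_le_mul h.le b2 (abs_nonneg _) (by norm_num)
      have b4 : (96 / 100 : ℝ) * |v j - v j₁| ≤ |sφ| * |v j - v j₁| := mul_le_mul_of_nonneg_right hs1.le (abs_nonneg _)
      linarith
    have hsub : ∑ j ∈ T, lam j ≤ ∑ j with |v j - v j₁| ≤ 4 * wd, lam j := by
      refine Finset.sum_le_sum_of_subset_of_nonneg ?_ fun j _ _ => hl0 j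
      intro j hj
      rw [Finset.mem_filter]
      exact ⟨Finset.mem_univ _, hclose j hj⟩
    have := hfr (v j₁) (4 * wd) (by linarith)
    linarith

/-- LEAF L-252-FIT-A2 (~300 l.).  THE ANALYTIC CORE: an affine image `α v + γ` of a set of `v`'s of positive Lebesgue-like mass cannot stay near a `d`-dimensional set unless `α` is small.
`L = |α|`, `R = 5Kr`.  The `y_j = α v j + γ` lie in an interval of length `L`; the `σ_j` lie in `J₁` of length `L + 2R ≤ 11KL`.  `L' = min L 1 ∈ [r,1]`.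
`J₁` is covered by `≤ 11KL/L' + 1 ≤ 67K²` intervals `[c,c+L']`; `hS c r L'` covers `S ∩ [c,c+L']` by `≤ K (L'/r)^d ≤ K (L/r)^d` intervals `[e,e+r]`.  In total `N ≤ 67 K³ (L/r)^d` intervals.
If `σ_j ∈ [e,e+r]` then `α v j ∈ [e - R - γ, e + r + R - γ]` (length `≤ 11Kr`), so `|v j - z| ≤ 6Kr/L` for the midpoint `z`; `6Kr/L ≥ r ≥ p` as `L ≤ 6K`; `hfr` gives mass `≤ 6K² r/L`.
`∑_E lam ≤ N · 6K² r/L ≤ 402 K⁵ (L/r)^(d-1)`. -/
theorem fitr_lin {J : Type} [Fintype J] (lam v : J → ℝ) (S : Set ℝ) (p K d r α γ : ℝ) (hp : 0 < p) (hK : 1 ≤ K)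
    (hd0 : 0 ≤ d) (hd : d < 1) (hl0 : ∀ j, 0 ≤ lam j) (hv : ∀ j, 0 ≤ v j ∧ v j ≤ 1) (hfr : FitFr lam v K p)
    (hS : FitHer S K d p) (hpr : p ≤ r) (hr1 : r ≤ 1) (hα : r ≤ |α|) (hαK : |α| ≤ 6 * K) (E : Finset J)
    (hE : ∀ j ∈ E, ∃ σ ∈ S, |α * v j + γ - σ| ≤ 5 * K * r) :
    (∑ j ∈ E, lam j) * (|α| / r) ^ (1 - d) ≤ 1000 * K ^ 5 := by
  have hr0 : 0 < r := lt_of_lt_of_le hp hpr
  have hK0 : 0 < K := by linarith
  obtain ⟨L, hL⟩ : ∃ L, L = |α| := ⟨_, rfl⟩
  rw [← hL] at hα hαK ⊢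
  have hL0 : 0 < L := lt_of_lt_of_le hr0 hα
  have hα0 : α ≠ 0 := by
    intro h
    rw [h, abs_zero] at hL
    linarith
  obtain ⟨L', hL'⟩ : ∃ L', L' = min L 1 := ⟨_, rfl⟩
  have hL'r : r ≤ L' := by rw [hL']; exact le_min hα hr1
  have hL'1 : L' ≤ 1 := by rw [hL']; exact min_le_right _ _
  have hL'L : L' ≤ L := by rw [hL']; exact min_le_left _ _
  have hL'0 : 0 < L' := lt_of_lt_of_le hr0 hL'r
  obtain ⟨y0, hy0⟩ : ∃ y0, y0 = γ + min α 0 := ⟨_, rfl⟩
  obtain ⟨n, hn⟩ : ∃ n : ℕ, n = ⌊(L + 10 * K * r) / L'⌋₊ + 1 := ⟨_, rfl⟩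
  have hKr : 0 < K * r := mul_pos hK0 hr0
  have hq0 : 0 ≤ (L + 10 * K * r) / L' := by positivity
  have hq : (L + 10 * K * r) / L' ≤ 66 * K ^ 2 := by
    rw [div_le_iff₀ hL'0]
    have h1 : L + 10 * K * r ≤ 11 * K * L := by nlinarith
    rcases le_total L 1 with h | h
    · have : L' = L := by rw [hL', min_eq_left h]
      rw [this]
      nlinarith [mul_pos hK0 hL0]
    · have : L' = 1 := by rw [hL', min_eq_right h]
      rw [this]
      nlinarith
  have hnle : (n : ℝ) ≤ 67 * K ^ 2 := by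
    rw [hn]
    push_cast
    have := Nat.floor_le hq0
    nlinarith
  choose cov hcard hcov using fun k : ℕ => hS (y0 - 5 * K * r + k * L') r L' hpr hL'r hL'1
  obtain ⟨C, hC⟩ : ∃ C : Finset ℝ, C = (Finset.range n).biUnion cov := ⟨_, rfl⟩
  have hpow : (L' / r) ^ d ≤ (L / r) ^ d :=
    Real.rpow_le_rpow (by positivity) (div_le_div_of_nonneg_right hL'L hr0.le) hd0
  have hCcard : (C.card : ℝ) ≤ n * (K * (L / r) ^ d) := by
    have h1 : C.card ≤ ∑ k ∈ Finset.range n, (cov k).card := by rw [hC]; exact Finset.card_biUnion_le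
    have h2 : (C.card : ℝ) ≤ ∑ k ∈ Finset.range n, ((cov k).card : ℝ) := by exact_mod_cast h1
    refine h2.trans ?_
    have h3 : ∑ k ∈ Finset.range n, ((cov k).card : ℝ) ≤ ∑ _k ∈ Finset.range n, K * (L / r) ^ d :=
      Finset.sum_le_sum fun k _ => (hcard k).trans (mul_le_mul_of_nonneg_left hpow hK0.le)
    refine h3.trans ?_
    rw [Finset.sum_const, Finset.card_range, nsmul_eq_mul]
  have hassign : ∀ j ∈ E, ∃ e ∈ C, |v j - (e + r / 2 - γ) / α| ≤ 6 * K * r / L := by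
    intro j hj
    obtain ⟨σ, hσS, hσ⟩ := hE j hj
    obtain ⟨hv0, hv1⟩ := hv j
    have hlo : min α 0 ≤ α * v j := by
      rcases le_total α 0 with h | h
      · rw [min_eq_left h]; nlinarith
      · rw [min_eq_right h]; exact mul_nonneg h hv0
    have hhi : α * v j ≤ min α 0 + L := by
      rcases le_total α 0 with h | h
      · rw [min_eq_left h, hL, abs_of_nonpos h]; nlinarith
      · rw [min_eq_right h, hL, abs_of_nonneg h]; nlinarith
    obtain ⟨h1, h2⟩ := abs_le.1 hσ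
    have hx0 : 0 ≤ (σ - (y0 - 5 * K * r)) / L' := by
      apply div_nonneg _ hL'0.le
      rw [hy0]; linarith
    have hxle : (σ - (y0 - 5 * K * r)) / L' ≤ (L + 10 * K * r) / L' := by
      apply div_le_div_of_nonneg_right _ hL'0.le
      rw [hy0]; linarith
    obtain ⟨k, hk⟩ : ∃ k : ℕ, k = ⌊(σ - (y0 - 5 * K * r)) / L'⌋₊ := ⟨_, rfl⟩
    have hkn : k < n := by
      rw [hk, hn]
      exact Nat.lt_succ_of_le (Nat.floor_le_floor hxle)
    have hk1 : (k : ℝ) ≤ (σ - (y0 - 5 * K * r)) / L' := by rw [hk]; exact Nat.floor_le hx0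
    have hk2 : (σ - (y0 - 5 * K * r)) / L' < k + 1 := by rw [hk]; exact Nat.lt_floor_add_one _
    rw [le_div_iff₀ hL'0] at hk1
    rw [div_lt_iff₀ hL'0] at hk2
    obtain ⟨e, he, he1, he2⟩ := hcov k σ hσS (by linarith) (by linarith)
    refine ⟨e, by rw [hC]; exact Finset.mem_biUnion.2 ⟨k, Finset.mem_range.2 hkn, he⟩, ?_⟩
    have e1 : v j - (e + r / 2 - γ) / α = (α * v j - (e + r / 2 - γ)) / α := by
      field_simp
    rw [e1, abs_div, ← hL, div_le_div_iff_of_pos_right hL0, abs_le]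
    have hrK : r ≤ K * r := by nlinarith
    constructor <;> linarith
  choose! ef hef1 hef2 using hassign
  have hρ : p ≤ 6 * K * r / L := by
    rw [le_div_iff₀ hL0]
    nlinarith
  have hsum : ∑ j ∈ E, lam j ≤ (C.card : ℝ) * (K * (6 * K * r / L)) := by
    rw [← Finset.sum_fiberwise_of_maps_to (t := C) (g := ef) hef1]
    have h1 : ∀ e ∈ C, ∑ j ∈ E with ef j = e, lam j ≤ K * (6 * K * r / L) := by
      intro e _
      refine le_trans ?_ (hfr ((e + r / 2 - γ) / α) (6 * K * r / L) hρ)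
      apply Finset.sum_le_sum_of_subset_of_nonneg
      · intro j hj
        obtain ⟨hjE, hje⟩ := Finset.mem_filter.1 hj
        refine Finset.mem_filter.2 ⟨Finset.mem_univ _, ?_⟩
        rw [← hje]
        exact hef2 j hjE
      · intro j _ _
        exact hl0 j
    refine (Finset.sum_le_sum h1).trans ?_
    rw [Finset.sum_const, nsmul_eq_mul]
  have hLr : 0 < L / r := by positivity
  have hpw0 : 0 ≤ (L / r) ^ (1 - d) := by positivity
  have hmul : (L / r) ^ d * (L / r) ^ (1 - d) = L / r := by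
    rw [← Real.rpow_add hLr]
    simp
  have hKρ : 0 ≤ K * (6 * K * r / L) := by positivity
  calc (∑ j ∈ E, lam j) * (L / r) ^ (1 - d)
      ≤ ((n * (K * (L / r) ^ d)) * (K * (6 * K * r / L))) * (L / r) ^ (1 - d) :=
        mul_le_mul_of_nonneg_right (hsum.trans (mul_le_mul_of_nonneg_right hCcard hKρ)) hpw0
    _ = n * (6 * K ^ 3) * (((L / r) ^ d * (L / r) ^ (1 - d)) * (r / L)) := by ring
    _ = n * (6 * K ^ 3) := by
        rw [hmul]
        field_simp
    _ ≤ 67 * K ^ 2 * (6 * K ^ 3) := mul_le_mul_of_nonneg_right hnle (by positivity)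
    _ ≤ 1000 * K ^ 5 := by nlinarith [pow_pos hK0 5]

/-- LEAF L-252-FIT-A3 (~120 l.).  PIGEONHOLE.  `h(i,j') = ∑_{j∈S1, R i j j'} lam j ≤ λ1 := ∑_{S1} lam`.  Exchange the sums: the right side of `h` is `∑_{i,j'} μ i lam j' h(i,j')`.
Split `(i,j')` into Good `= {h ≥ (q/2) λ1}` and the rest: `q λ1 ≤ λ1 (μ×lam)(Good) + (q/2) λ1`.  If `λ1 > 0`: `(μ×lam)(Good) ≥ q/2`, and `(μ×lam)(Good) ≤ μ{i : ∃ j', (i,j') ∈ Good}` as `∑ lam ≤ 1`.
If `λ1 = 0` every `i` (with any `j'`; if `J` is empty then .. see below) is good.  CARE: for `λ1 = 0` and `J` nonempty the filter is everything and one needs `q/2 ≤ ∑ μ`, which may FAIL; therefore `hpos : 0 < λ1` is a hypothesis. -/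
theorem fitr_pigeon {I J : Type} [Fintype I] [Fintype J] (μ : I → ℝ) (lam : J → ℝ) (hμ0 : ∀ i, 0 ≤ μ i)
    (hl0 : ∀ j, 0 ≤ lam j) (hμ1 : ∑ i, μ i ≤ 1) (hl1 : ∑ j, lam j ≤ 1) (S1 : Finset J) (R : I → J → J → Prop) (q : ℝ)
    (hq : 0 ≤ q) (hpos : 0 < ∑ j ∈ S1, lam j)
    (h : q * ∑ j ∈ S1, lam j ≤ ∑ j ∈ S1, lam j * ∑ j', lam j' * ∑ i with R i j j', μ i) :
    q / 2 ≤ ∑ i with (∃ j', q / 2 * ∑ j ∈ S1, lam j ≤ ∑ j ∈ S1 with R i j j', lam j), μ i := by
  obtain ⟨l1, hl1def⟩ : ∃ l1, l1 = ∑ j ∈ S1, lam j := ⟨_, rfl⟩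
  rw [← hl1def] at h hpos ⊢
  obtain ⟨H, hH⟩ : ∃ H : I → J → ℝ, H = fun i j' => ∑ j ∈ S1 with R i j j', lam j := ⟨_, rfl⟩
  have hHle : ∀ i j', H i j' ≤ l1 := fun i j' => by
    rw [hH, hl1def]
    exact Finset.sum_le_sum_of_subset_of_nonneg (Finset.filter_subset _ _) (fun j _ _ => hl0 j)
  have hH0 : ∀ i j', 0 ≤ H i j' := fun i j' => by
    rw [hH]
    exact Finset.sum_nonneg fun j _ => hl0 j
  have hex : ∑ j ∈ S1, lam j * ∑ j', lam j' * ∑ i with R i j j', μ i = ∑ i, μ i * ∑ j', lam j' * H i j' := by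
    calc ∑ j ∈ S1, lam j * ∑ j', lam j' * ∑ i with R i j j', μ i
        = ∑ j ∈ S1, ∑ i, ∑ j', (if R i j j' then lam j * lam j' * μ i else 0) := by
          refine Finset.sum_congr rfl fun j _ => ?_
          rw [Finset.mul_sum, Finset.sum_comm]
          refine Finset.sum_congr rfl fun j' _ => ?_
          rw [Finset.sum_filter, Finset.mul_sum, Finset.mul_sum]
          refine Finset.sum_congr rfl fun i _ => ?_
          split_ifs <;> ring
      _ = ∑ i, ∑ j ∈ S1, ∑ j', (if R i j j' then lam j * lam j' * μ i else 0) := Finset.sum_comm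
      _ = ∑ i, μ i * ∑ j', lam j' * H i j' := by
          refine Finset.sum_congr rfl fun i _ => ?_
          rw [Finset.sum_comm, Finset.mul_sum]
          refine Finset.sum_congr rfl fun j' _ => ?_
          rw [hH]
          simp only
          rw [Finset.sum_filter, Finset.mul_sum, Finset.mul_sum]
          refine Finset.sum_congr rfl fun j _ => ?_
          split_ifs <;> ring
  rw [hex] at h
  obtain ⟨P, hP⟩ : ∃ P : I → Prop, P = fun i => ∃ j', q / 2 * l1 ≤ H i j' := ⟨_, rfl⟩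
  have hgoal : (∑ i with (∃ j', q / 2 * l1 ≤ ∑ j ∈ S1 with R i j j', lam j), μ i) = ∑ i with P i, μ i := by
    refine Finset.sum_congr ?_ (fun _ _ => rfl)
    ext i
    simp only [Finset.mem_filter, Finset.mem_univ, true_and, hP, hH]
  rw [hgoal]
  have hql : 0 ≤ q / 2 * l1 := by positivity
  have hgood : ∀ i, ∑ j', lam j' * H i j' ≤ l1 := fun i => by
    calc ∑ j', lam j' * H i j' ≤ ∑ j', lam j' * l1 :=
          Finset.sum_le_sum fun j' _ => mul_le_mul_of_nonneg_left (hHle i j') (hl0 j')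
      _ = (∑ j', lam j') * l1 := by rw [Finset.sum_mul]
      _ ≤ 1 * l1 := mul_le_mul_of_nonneg_right hl1 hpos.le
      _ = l1 := one_mul _
  have hbad : ∀ i, ¬ P i → ∑ j', lam j' * H i j' ≤ q / 2 * l1 := fun i hi => by
    have hi' : ∀ j', H i j' ≤ q / 2 * l1 := fun j' => by
      by_contra hc
      exact hi (by rw [hP]; exact ⟨j', (not_le.1 hc).le⟩)
    calc ∑ j', lam j' * H i j' ≤ ∑ j', lam j' * (q / 2 * l1) :=
          Finset.sum_le_sum fun j' _ => mul_le_mul_of_nonneg_left (hi' j') (hl0 j')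
      _ = (∑ j', lam j') * (q / 2 * l1) := by rw [Finset.sum_mul]
      _ ≤ 1 * (q / 2 * l1) := mul_le_mul_of_nonneg_right hl1 hql
      _ = q / 2 * l1 := one_mul _
  have hsplit : ∑ i, μ i * ∑ j', lam j' * H i j' ≤ (∑ i with P i, μ i) * l1 + q / 2 * l1 := by
    rw [← Finset.sum_filter_add_sum_filter_not Finset.univ P]
    refine add_le_add ?_ ?_
    · rw [Finset.sum_mul]
      exact Finset.sum_le_sum fun i _ => mul_le_mul_of_nonneg_left (hgood i) (hμ0 i)
    · calc ∑ i with ¬ P i, μ i * ∑ j', lam j' * H i j' ≤ ∑ i with ¬ P i, μ i * (q / 2 * l1) :=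
            Finset.sum_le_sum fun i hi => mul_le_mul_of_nonneg_left (hbad i (Finset.mem_filter.1 hi).2) (hμ0 i)
        _ = (∑ i with ¬ P i, μ i) * (q / 2 * l1) := by rw [Finset.sum_mul]
        _ ≤ 1 * (q / 2 * l1) := by
            refine mul_le_mul_of_nonneg_right ?_ hql
            exact (Finset.sum_le_sum_of_subset_of_nonneg (Finset.filter_subset _ _) (fun i _ _ => hμ0 i)).trans hμ1
        _ = q / 2 * l1 := one_mul _
  have h2 : q / 2 * l1 ≤ (∑ i with P i, μ i) * l1 := by linarith [h.trans hsplit]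
  exact le_of_mul_le_mul_right h2 hpos

end Claimed.Agent.R252
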