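import Claimed.Agent.R252.Fit.Defs

/-!
# Row 252, unit FIT, file CASE B: CONTRACT leaves of `fit_caseB` (step 3 of `origin/helper9:notes/R252/fit.md`)      (architect: helper9)
PAPER-FREE.  Statements FROZEN (a defect: one line to helper9).  Helper lemmas: prefix `fitr_`, directly above the theorem.
-/

set_option autoImplicit false

namespace Claimed.Agent.R252

open Finset Classical
open Claimed.Agent.RW (KfFrost KfCov kfProj)
open Claimed.Agent.R255 (RtThin ip nrm)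

/-- LEAF L-252-FIT-B1 (~80 l.).  thin cones at the pin `j₀` ⟹ the chord slopes are Frostman.  Model: `R255.rq2_slope1` (Rate/Q2Tool.lean l.128).
For `z r`: take `φ = Real.arctan z`: `nrm φ = (-sin φ, cos φ) = cos φ · (-z, 1)`, `|cos φ| ≤ 1`; with `Δ = pos j - pos j₀`, `Δ.1 ≠ 0`:
`|ip Δ (nrm φ)| = |cos φ| |Δ.2 - z Δ.1| ≤ |Δ.1| |Δ.2/Δ.1 - z| ≤ r dist (pos j) (pos j₀)` (sup metric).  Then `hT j₀ φ r` and monotonicity of the sum; indices with `¬ 𝒢 j₀ j` have weight `0`. -/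
theorem fitr_slope_frost {J : Type} [Fintype J] (lam' : J → ℝ) (pos : J → ℝ × ℝ) (𝒢 : J → J → Prop) (C t p : ℝ)
    (hl : ∀ j, 0 ≤ lam' j) (hT : RtThin lam' pos 𝒢 C t p) (j₀ : J) (hne : ∀ j, 𝒢 j₀ j → (pos j).1 ≠ (pos j₀).1) :
    KfFrost (fun j => if 𝒢 j₀ j then lam' j else 0)
      (fun j => if 𝒢 j₀ j then ((pos j).2 - (pos j₀).2) / ((pos j).1 - (pos j₀).1) else 0) C t p := by
  intro z r hr hr1
  rw [← Finset.sum_filter]
  refine le_trans (Finset.sum_le_sum_of_subset_of_nonneg ?_ fun i _ _ => hl i) (hT j₀ (Real.arctan z) r hr hr1)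
  intro j hj
  simp only [Finset.mem_filter, Finset.mem_univ, true_and] at hj ⊢
  obtain ⟨h1, hG⟩ := hj
  refine ⟨hG, ?_⟩
  rw [if_pos hG, Real.dist_eq] at h1
  have hd : (pos j).1 - (pos j₀).1 ≠ 0 := sub_ne_zero.2 (hne j hG)
  have hs : Real.sin (Real.arctan z) = z * Real.cos (Real.arctan z) := by
    rw [Real.sin_arctan, Real.cos_arctan]; ring
  have e : ip (pos j - pos j₀) (nrm (Real.arctan z)) =
      Real.cos (Real.arctan z) * ((((pos j).2 - (pos j₀).2) / ((pos j).1 - (pos j₀).1) - z) * ((pos j).1 - (pos j₀).1)) := by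
    simp only [ip, nrm, Prod.fst_sub, Prod.snd_sub, hs]
    field_simp
    ring
  rw [e, abs_mul, abs_mul]
  calc |Real.cos (Real.arctan z)| * (|((pos j).2 - (pos j₀).2) / ((pos j).1 - (pos j₀).1) - z| * |(pos j).1 - (pos j₀).1|)
      ≤ 1 * (r * |(pos j).1 - (pos j₀).1|) :=
        mul_le_mul (Real.abs_cos_le_one _) (mul_le_mul_of_nonneg_right h1 (abs_nonneg _))
          (mul_nonneg (abs_nonneg _) (abs_nonneg _)) zero_le_one
    _ = r * |(pos j).1 - (pos j₀).1| := one_mul _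
    _ ≤ r * dist (pos j) (pos j₀) := by
        refine mul_le_mul_of_nonneg_left ?_ ((abs_nonneg _).trans h1)
        rw [Prod.dist_eq, Real.dist_eq]
        exact le_max_left _ _

/-- an interval `[x, x+ℓ]` is covered by `≤ ℓ/p + 1` intervals `[e, e+p]` -/
theorem fitr_cov_interval (x ℓ p : ℝ) (hp : 0 < p) (hℓ : 0 ≤ ℓ) :
    ∃ cov : Finset ℝ, (cov.card : ℝ) ≤ ℓ / p + 1 ∧ ∀ t, x ≤ t → t ≤ x + ℓ → ∃ e ∈ cov, e ≤ t ∧ t ≤ e + p := by
  refine ⟨(Finset.range (⌊ℓ / p⌋₊ + 1)).image (fun k : ℕ => x + k * p), ?_, ?_⟩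
  · have h1 : ((Finset.range (⌊ℓ / p⌋₊ + 1)).image (fun k : ℕ => x + k * p)).card ≤ ⌊ℓ / p⌋₊ + 1 :=
      Finset.card_image_le.trans (by rw [Finset.card_range])
    have h2 : ((⌊ℓ / p⌋₊ : ℕ) : ℝ) ≤ ℓ / p := Nat.floor_le (by positivity)
    have h3 : (((Finset.range (⌊ℓ / p⌋₊ + 1)).image (fun k : ℕ => x + k * p)).card : ℝ) ≤ ((⌊ℓ / p⌋₊ + 1 : ℕ) : ℝ) := by
      exact_mod_cast h1
    push_cast at h3
    linarith
  · intro t h1 h2
    have h0 : 0 ≤ (t - x) / p := div_nonneg (by linarith) hp.le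
    refine ⟨x + (⌊(t - x) / p⌋₊ : ℕ) * p, ?_, ?_, ?_⟩
    · rw [Finset.mem_image]
      refine ⟨⌊(t - x) / p⌋₊, ?_, rfl⟩
      rw [Finset.mem_range, Nat.lt_succ_iff]
      exact Nat.floor_le_floor (div_le_div_of_nonneg_right (by linarith) hp.le)
    · have := Nat.floor_le h0
      rw [le_div_iff₀ hp] at this
      linarith
    · have := Nat.lt_floor_add_one ((t - x) / p)
      rw [div_lt_iff₀ hp] at this
      linarith

theorem fitr_card_biUnion (s : Finset ℝ) (t : ℝ → Finset ℝ) (A B : ℝ) (hs : (s.card : ℝ) ≤ A) (ht : ∀ a ∈ s, ((t a).card : ℝ) ≤ B)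
    (hB : 0 ≤ B) : ((s.biUnion t).card : ℝ) ≤ A * B := by
  have h1 : ((s.biUnion t).card : ℝ) ≤ ∑ a ∈ s, ((t a).card : ℝ) := by exact_mod_cast Finset.card_biUnion_le
  have h2 : ∑ a ∈ s, ((t a).card : ℝ) ≤ ∑ _a ∈ s, B := Finset.sum_le_sum ht
  rw [Finset.sum_const, nsmul_eq_mul] at h2
  exact h1.trans (h2.trans (mul_le_mul_of_nonneg_right hs hB))

/-- LEAF L-252-FIT-B2 (~250 l.).  THE COVER of the projection of the neighbours of one tag.
`Δ = v j₀ - v j`, `sl = (g j - g j₀)/(v j - v j₀)`.  IDENTITY: `kfProj sl (a i, b i) = b i - sl a i = - F i j₀ j / Δ = -(Λ F i j₀ j)/(Λ Δ)`.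
`|F| ≤ |a||g j₀ - g j| + |b||Δ| ≤ 4 + 2 = 6`, so `|Λ F| ≤ 6K` and the point `σ ∈ S` of `hD.near` lies in `[-7K, 7K]` (`K p ≤ K`).
Cover `[-7K,7K]` by `≤ 15K` unit intervals `[c,c+1]`; `hD.her c p 1` covers `S ∩ [c,c+1]` by `≤ K p^-d` intervals `[e,e+p]`  (`(1/p)^d = p^(-d)`).
If `σ ∈ [e,e+p]` then `Λ F ∈ [e - Kp, e + p + Kp]` (length `≤ 3Kp`), so `kfProj ..` lies in an interval of length `≤ 3Kp/(Λ|Δ|) ≤ 3Kp/δ`, which is covered by `≤ 4K/δ` intervals of length `p`.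
Total `≤ 15K · K p^-d · 4K/δ = 60 K³ p^-d/δ`.  Suggestion: first a generic lemma "an interval `[x, x+ℓ]` is covered by `⌈ℓ/p⌉₊` intervals `[e,e+p]`", then `Finset.biUnion` + `Finset.card_biUnion_le`. -/
theorem fitr_cover {I J : Type} [Fintype I] [Fintype J] (D : FitCore I J) (p K d δ : ℝ) (hp : 0 < p) (hp1 : p ≤ 1)
    (hK : 1 ≤ K) (hD : D.Ok p K d) (j₀ j : J) (hδ0 : 0 < δ) (hδ1 : δ ≤ 1) (hδ : δ ≤ |D.v j - D.v j₀|) :
    ∃ cov : Finset ℝ, (cov.card : ℝ) ≤ 100 * K ^ 3 * p ^ (-d) / δ ∧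
      KfCov cov p {t | ∃ i, D.X i j₀ j ∧ t = kfProj ((D.g j - D.g j₀) / (D.v j - D.v j₀)) (D.a i, D.b i)} := by
  have hK0 : 0 < K := by linarith
  obtain ⟨Δ, hΔ⟩ : ∃ Δ : ℝ, Δ = D.v j - D.v j₀ := ⟨_, rfl⟩
  rw [← hΔ] at hδ ⊢
  have hΔ0 : 0 < |Δ| := lt_of_lt_of_le hδ0 hδ
  have hΔne : Δ ≠ 0 := abs_pos.1 hΔ0
  have hΛ0 : 0 < D.Λ := by linarith [hD.Λ1]
  obtain ⟨M, hM⟩ : ∃ M : ℝ, M = D.Λ * Δ := ⟨_, rfl⟩
  have hMabs : δ ≤ |M| := by
    rw [hM, abs_mul, abs_of_pos hΛ0]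
    nlinarith [hD.Λ1]
  have hM0 : 0 < |M| := lt_of_lt_of_le hδ0 hMabs
  have hMne : M ≠ 0 := abs_pos.1 hM0
  -- the three covers
  obtain ⟨cov₁, hc₁, hcov₁⟩ := fitr_cov_interval (-(7 * K)) (14 * K) 1 one_pos (by positivity)
  have H := fun c : ℝ => hD.her c p 1 le_rfl hp1 le_rfl
  choose cov₂ hc₂ hcov₂ using H
  have H3 := fun e : ℝ => fitr_cov_interval ((e + p / 2) / M - 3 * K * p / δ / 2) (3 * K * p / δ) p hp (by positivity)
  choose cov₃ hc₃ hcov₃ using H3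
  refine ⟨cov₁.biUnion fun c => (cov₂ c).biUnion cov₃, ?_, ?_⟩
  · have hpd : (1 / p) ^ d = p ^ (-d) := by
      rw [one_div, Real.inv_rpow hp.le, Real.rpow_neg hp.le]
    have hpd0 : 0 < p ^ (-d) := Real.rpow_pos_of_pos hp _
    have e3 : 3 * K * p / δ / p + 1 = 3 * K / δ + 1 := by
      field_simp
    have hB3 : 0 ≤ 3 * K / δ + 1 := by positivity
    have h2 : ∀ c ∈ cov₁, (((cov₂ c).biUnion cov₃).card : ℝ) ≤ K * p ^ (-d) * (3 * K / δ + 1) := by
      intro c _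
      refine fitr_card_biUnion _ _ _ _ ?_ (fun e _ => ?_) hB3
      · rw [← hpd]; exact hc₂ c
      · rw [← e3]; exact hc₃ e
    have h1 := fitr_card_biUnion cov₁ (fun c => (cov₂ c).biUnion cov₃) (14 * K / 1 + 1) _ hc₁ h2 (by positivity)
    refine h1.trans ?_
    have hKδ : 1 ≤ K / δ := by
      rw [le_div_iff₀ hδ0]
      linarith
    have a1 : 14 * K / 1 + 1 ≤ 15 * K := by linarith
    have a2 : 3 * K / δ + 1 ≤ 4 * (K / δ) := by
      have : 3 * K / δ = 3 * (K / δ) := by ring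
      linarith
    calc (14 * K / 1 + 1) * (K * p ^ (-d) * (3 * K / δ + 1))
        ≤ (15 * K) * (K * p ^ (-d) * (4 * (K / δ))) := by
          refine mul_le_mul a1 (mul_le_mul_of_nonneg_left a2 (by positivity)) (by positivity) (by positivity)
      _ = 60 * K ^ 3 * p ^ (-d) / δ := by ring
      _ ≤ 100 * K ^ 3 * p ^ (-d) / δ := by
          refine div_le_div_of_nonneg_right ?_ hδ0.le
          have : 0 ≤ K ^ 3 * p ^ (-d) := by positivity
          nlinarith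
  · rintro t ⟨i, hX, rfl⟩
    obtain ⟨σ, hσS, hσ⟩ := hD.near i j₀ j hX
    -- the identity
    have hid : kfProj ((D.g j - D.g j₀) / Δ) (D.a i, D.b i) = D.Λ * D.F i j₀ j / M := by
      unfold kfProj FitCore.F
      rw [hM]
      have e : D.v j₀ - D.v j = -Δ := by rw [hΔ]; ring
      rw [e]
      field_simp
      ring
    -- the size of `F`
    have hF : |D.F i j₀ j| ≤ 6 := by
      unfold FitCore.F
      have b1 := hD.ab i
      have b2 := hD.bb i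
      have b3 := hD.gb j₀
      have b4 := hD.gb j
      have b5 := hD.vb j₀
      have b6 := hD.vb j
      have c1 : |D.g j₀ - D.g j| ≤ 4 := (abs_sub _ _).trans (by linarith)
      have c2 : |D.v j₀ - D.v j| ≤ 1 := by rw [abs_le]; constructor <;> linarith [b5.1, b5.2, b6.1, b6.2]
      calc |D.a i * (D.g j₀ - D.g j) - D.b i * (D.v j₀ - D.v j)|
          ≤ |D.a i * (D.g j₀ - D.g j)| + |D.b i * (D.v j₀ - D.v j)| := abs_sub _ _
        _ = |D.a i| * |D.g j₀ - D.g j| + |D.b i| * |D.v j₀ - D.v j| := by rw [abs_mul, abs_mul]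
        _ ≤ 1 * 4 + 2 * 1 := add_le_add (mul_le_mul b1 c1 (abs_nonneg _) (by norm_num)) (mul_le_mul b2 c2 (abs_nonneg _) (by norm_num))
        _ = 6 := by norm_num
    have hΛF : |D.Λ * D.F i j₀ j| ≤ 6 * K := by
      rw [abs_mul, abs_of_pos hΛ0]
      calc D.Λ * |D.F i j₀ j| ≤ K * 6 := mul_le_mul hD.ΛK hF (abs_nonneg _) hK0.le
        _ = 6 * K := by ring
    have hKp : K * p ≤ K := by nlinarith
    rw [abs_le] at hσ hΛF
    obtain ⟨c, hc, hc1, hc2⟩ := hcov₁ σ (by linarith [hσ.1, hσ.2, hΛF.1, hΛF.2]) (by linarith [hσ.1, hσ.2, hΛF.1, hΛF.2])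
    obtain ⟨e, he, he1, he2⟩ := hcov₂ c σ hσS hc1 hc2
    have hdist : |D.Λ * D.F i j₀ j / M - (e + p / 2) / M| ≤ 3 * K * p / δ / 2 := by
      rw [← sub_div, abs_div, div_le_iff₀ hM0]
      have d1 : |D.Λ * D.F i j₀ j - (e + p / 2)| ≤ p / 2 + K * p := by
        rw [abs_le]
        constructor <;> linarith [hσ.1, hσ.2]
      have d2 : p / 2 + K * p ≤ 3 * K * p / 2 := by nlinarith
      have d3 : 3 * K * p / 2 ≤ 3 * K * p / δ / 2 * |M| := by
        have : 3 * K * p / δ / 2 * |M| = 3 * K * p / 2 * (|M| / δ) := by ring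
        rw [this]
        have h1 : 1 ≤ |M| / δ := by rw [le_div_iff₀ hδ0]; linarith
        have h2 : 0 ≤ 3 * K * p / 2 := by positivity
        nlinarith
      linarith
    rw [abs_le] at hdist
    obtain ⟨e', he', h1, h2⟩ := hcov₃ e (D.Λ * D.F i j₀ j / M) (by linarith [hdist.1]) (by linarith [hdist.2])
    refine ⟨e', ?_, ?_, ?_⟩
    · rw [Finset.mem_biUnion]
      exact ⟨c, hc, Finset.mem_biUnion.2 ⟨e, he, he'⟩⟩
    · rw [hid]; exact h1
    · rw [hid]; exact h2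

end Claimed.Agent.R252
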