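import Claimed.Agent.R252.Fit.PrepGlue
import Claimed.Agent.R252.Fit.AGlue
import Claimed.Agent.R252.Fit.BGlue

/-!
# Row 252, unit FIT: the three contracts (now PROVED from the leaves of `Fit/{Prune,CaseA,CaseB}.lean`) and the GLUE `fit_core`      (architect: helper9)
Written proof: `git show origin/helper9:notes/R252/fit.md`.
-/

set_option autoImplicit false

namespace Claimed.Agent.R252

open Finset Classical
open Claimed.Agent.R255 (RtTreeHer RtNoStrip RtThin ip nrm rp_main)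

/-- CONTRACT PREP (steps 1, 2): popular indices + pruning to a hereditary tree -/
theorem fit_prep (ηR : ℝ) (hηR : 0 < ηR) :
    ∃ η₃ p₃ : ℝ, 0 < η₃ ∧ 0 < p₃ ∧ ∀ p : ℝ, 0 < p → p < p₃ → ∀ K d : ℝ, 1 ≤ K → K ≤ p ^ (-η₃) →
      ∀ (I J : Type) [Fintype I] [Fintype J] (D : FitCore I J), D.Ok p K d → 1 / K ≤ D.mass →
      ∃ W : Finset J, (∀ j ∈ W, D.mass / 4 ≤ D.m1 j ∨ D.mass / 4 ≤ D.m2 j) ∧
        RtTreeHer (fun j => if j ∈ W then D.lam j else 0) D.pos (p ^ (-ηR)) 1 p ∧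
        p ^ ηR ≤ ∑ j, ∑ j', (if j ∈ W then D.lam j else 0) * (if j' ∈ W then D.lam j' else 0) * D.wt j j' :=
  fitr_prep ηR hηR

/-- CONTRACT CASE B (step 3): thin cones of exponent `1 - (1-d)/4 > d` contradict Kaufman -/
theorem fit_caseB (d : ℝ) (hd0 : 0 ≤ d) (hd : d < 1) :
    ∃ η' : ℝ, 0 < η' ∧ ∃ η₁ p₁ : ℝ, 0 < η₁ ∧ 0 < p₁ ∧ ∀ p : ℝ, 0 < p → p < p₁ → ∀ K : ℝ, 1 ≤ K → K ≤ p ^ (-η₁) →
      ∀ (I J : Type) [Fintype I] [Fintype J] (D : FitCore I J), D.Ok p K d →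
      ∀ (lam' : J → ℝ) (𝒢 : J → J → Prop), (∀ j, 0 ≤ lam' j ∧ lam' j ≤ D.lam j) →
        p ^ η' ≤ ∑ j, ∑ j' with 𝒢 j j', lam' j * lam' j' * D.wt j j' →
        (∀ j j', 𝒢 j j' → p ^ η' ≤ dist (D.pos j) (D.pos j')) →
        RtThin lam' D.pos 𝒢 (p ^ (-η')) (1 - (1 - d) / 4) p → False :=
  fitr_caseB d hd0 hd

/-- CONTRACT CASE A (step 4): a heavy strip of popular indices forces the affine fit -/
theorem fit_caseA (d : ℝ) (hd0 : 0 ≤ d) (hd : d < 1) (t₀ : ℝ) (ht0 : 0 < t₀) (ht1 : t₀ ≤ 1) :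
    ∃ η₂ p₂ : ℝ, 0 < η₂ ∧ 0 < p₂ ∧ ∀ p : ℝ, 0 < p → p < p₂ → ∀ K : ℝ, 1 ≤ K → K ≤ p ^ (-η₂) →
      ∀ (I J : Type) [Fintype I] [Fintype J] (D : FitCore I J), D.Ok p K d → 1 / K ≤ D.mass →
      ∀ W : Finset J, (∀ j ∈ W, D.mass / 4 ≤ D.m1 j ∨ D.mass / 4 ≤ D.m2 j) →
      ∀ (q₀ : ℝ × ℝ) (φ : ℝ), p ^ ((1 - d) * t₀ / 4) < ∑ j ∈ W with |ip (D.pos j - q₀) (nrm φ)| ≤ p ^ t₀, D.lam j →
      ∃ s : ℝ, |s| ≤ 4 ∧
        D.mass / 8 ≤ ∑ i with ((∃ j j', D.X i j j') ∧ D.Λ * |D.b i - s * D.a i| ≤ p ^ (t₀ / 2)), D.μ i :=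
  fitr_caseA d hd0 hd t₀ ht0 ht1

/-- **FIT, normalised core form** -/
theorem fit_core (d : ℝ) (hd0 : 0 ≤ d) (hd : d < 1) :
    ∃ θ : ℝ, 0 < θ ∧ ∃ η p₀ : ℝ, 0 < η ∧ 0 < p₀ ∧ ∀ p : ℝ, 0 < p → p < p₀ → ∀ K : ℝ, 1 ≤ K → K ≤ p ^ (-η) →
      ∀ (I J : Type) [Fintype I] [Fintype J] (D : FitCore I J), D.Ok p K d → 1 / K ≤ D.mass →
      ∃ s : ℝ, |s| ≤ 4 ∧
        D.mass / 8 ≤ ∑ i with ((∃ j j', D.X i j j') ∧ D.Λ * |D.b i - s * D.a i| ≤ p ^ θ), D.μ i := by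
  obtain ⟨η', hη', η₁, p₁, hη₁, hp₁, HB⟩ := fit_caseB d hd0 hd
  obtain ⟨t₀, ht0, ht1, Hrp⟩ := rp_main 2 1 ((1 - d) / 4) η' (by norm_num) one_pos le_rfl (by linarith) hη'
  have hd1 : 0 < 1 - d := by linarith
  obtain ⟨ηR, ρ₁, hηR, hρ₁, Hrp⟩ := Hrp ((1 - d) * t₀ / 4) (by positivity)
  obtain ⟨η₂, p₂, hη₂, hp₂, HA⟩ := fit_caseA d hd0 hd t₀ ht0 ht1
  obtain ⟨η₃, p₃, hη₃, hp₃, HP⟩ := fit_prep ηR hηR
  refine ⟨t₀ / 2, by positivity, min η₁ (min η₂ η₃), min (min p₁ ρ₁) (min (min p₂ p₃) 1), by positivity, by positivity, ?_⟩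
  intro p hp0 hp K hK1 hK I J _ _ D hD hm
  have hp1 : p < p₁ := lt_of_lt_of_le hp ((min_le_left _ _).trans (min_le_left _ _))
  have hpρ : p < ρ₁ := lt_of_lt_of_le hp ((min_le_left _ _).trans (min_le_right _ _))
  have hp2 : p < p₂ := lt_of_lt_of_le hp ((min_le_right _ _).trans ((min_le_left _ _).trans (min_le_left _ _)))
  have hp3 : p < p₃ := lt_of_lt_of_le hp ((min_le_right _ _).trans ((min_le_left _ _).trans (min_le_right _ _)))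
  have hpl1 : p < 1 := lt_of_lt_of_le hp ((min_le_right _ _).trans (min_le_right _ _))
  have mono : ∀ e : ℝ, min η₁ (min η₂ η₃) ≤ e → K ≤ p ^ (-e) := fun e he =>
    hK.trans (Real.rpow_le_rpow_of_exponent_ge hp0 hpl1.le (by linarith))
  have hK1' := mono η₁ (min_le_left _ _)
  have hK2' := mono η₂ ((min_le_right _ _).trans (min_le_left _ _))
  have hK3' := mono η₃ ((min_le_right _ _).trans (min_le_right _ _))
  obtain ⟨W, hW, hher, hmass⟩ := HP p hp0 hp3 K d hK1 hK3' I J D hD hm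
  by_cases hns : RtNoStrip (fun j => if j ∈ W then D.lam j else 0) D.pos (p ^ t₀) (p ^ ((1 - d) * t₀ / 4))
  · exfalso
    have hl0 : ∀ j, 0 ≤ (if j ∈ W then D.lam j else 0) ∧ (if j ∈ W then D.lam j else 0) ≤ D.lam j := by
      intro j
      by_cases hj : j ∈ W
      · simp only [if_pos hj]; exact ⟨hD.lam0 j, le_rfl⟩
      · simp only [if_neg hj]; exact ⟨le_rfl, hD.lam0 j⟩
    have hwt : ∀ j j', 0 ≤ D.wt j j' ∧ D.wt j j' ≤ 1 := by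
      intro j j'
      refine ⟨Finset.sum_nonneg fun i _ => hD.μ0 i, le_trans ?_ hD.μ1⟩
      exact Finset.sum_le_sum_of_subset_of_nonneg (Finset.filter_subset _ _) fun i _ _ => hD.μ0 i
    obtain ⟨𝒢, h1, h2, h3⟩ := Hrp p hp0 hpρ J (fun j => if j ∈ W then D.lam j else 0) D.pos D.wt (fun j => (hl0 j).1)
      (le_trans (Finset.sum_le_sum fun j _ => (hl0 j).2) hD.lam1)
      (fun j => ⟨by
        have := hD.vb j
        show |D.v j| ≤ 2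
        rw [abs_le]; constructor <;> linarith, hD.gb j⟩) hher hns hwt hmass
    exact HB p hp0 hp1 K hK1 hK1' I J D hD _ 𝒢 hl0 h1 h2 h3
  · unfold RtNoStrip at hns
    push Not at hns
    obtain ⟨q₀, φ, hq⟩ := hns
    refine HA p hp0 hp2 K hK1 hK2' I J D hD hm W hW q₀ φ (lt_of_lt_of_le hq (le_of_eq ?_))
    rw [Finset.sum_filter, Finset.sum_filter, ← Finset.sum_subset (Finset.subset_univ W)]
    · refine Finset.sum_congr rfl fun j hj => ?_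
      simp only [if_pos hj]
    · intro j _ hj
      simp only [if_neg hj, ite_self]

end Claimed.Agent.R252
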