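import Claimed.Agent.R255.Rate.RpFinal

/-!
# Row 252, unit FIT (T1 = box 3, replaces Wang-Zahl sticky Thm 5.2 in 05-scalar-tools.tex l.367-634).  DEFINITIONS      (architect: helper9)

Written proof: `git show origin/helper9:notes/R252/fit.md`.  Prefix `fit_` / `Fit`.
`F(u,v,v') = (u-u0)(G(v)-G(v')) - (φ(u)-φ(u0))(v-v') = (P_u - P_u0) ∧ (Q_v - Q_v')`: for a fixed chord of graph(G) the map `u ↦ F` is the projection of graph(φ) along the chord.
Either graph(G) is concentrated near a line (CASE A: `F` is linear in `v`, and `d < 1` forces the coefficient to vanish, i.e. `φ` is affine),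
or the chords through a typical pin have directions of dimension `> d` (`R255.rp_main`, radial projections, `s = 1`) and Kaufman (`RW.ex_K`) gives a contradiction (CASE B).

NORMALISED CORE DATA `FitCore`: `a i = u_i - u0`, `b i = (φ(u_i) - φ(u0))/K`, `g j = (G(v_j) - G(v_j1))/K` (1-Lipschitz up to `+p`), `Λ = K` the factor that was divided out.
All measures are finite weighted populations (sub-probabilities).
-/

set_option autoImplicit false

namespace Claimed.Agent.R252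

open Finset Classical

/-- hereditary covering: `N_s(S ∩ [c,c+L]) ≤ K (L/s)^d` for `p ≤ s ≤ L ≤ 1` (intervals `[e,e+s]`) -/
def FitHer (S : Set ℝ) (K d p : ℝ) : Prop :=
  ∀ c s L : ℝ, p ≤ s → s ≤ L → L ≤ 1 →
    ∃ cov : Finset ℝ, (cov.card : ℝ) ≤ K * (L / s) ^ d ∧ ∀ t ∈ S, c ≤ t → t ≤ c + L → ∃ e ∈ cov, e ≤ t ∧ t ≤ e + s

/-- Frostman exponent 1 on the line, all radii `≥ p` -/
def FitFr {ι : Type} [Fintype ι] (w : ι → ℝ) (x : ι → ℝ) (K p : ℝ) : Prop :=
  ∀ z r : ℝ, p ≤ r → ∑ i with |x i - z| ≤ r, w i ≤ K * r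

/-- normalised data -/
structure FitCore (I J : Type) where
  μ : I → ℝ
  lam : J → ℝ
  a : I → ℝ
  b : I → ℝ
  v : J → ℝ
  g : J → ℝ
  X : I → J → J → Prop
  S : Set ℝ
  Λ : ℝ

namespace FitCore

variable {I J : Type} [Fintype I] [Fintype J] (D : FitCore I J)

/-- the wedge product -/
def F (i : I) (j j' : J) : ℝ := D.a i * (D.g j - D.g j') - D.b i * (D.v j - D.v j')

/-- the point of graph(g) -/
def pos (j : J) : ℝ × ℝ := (D.v j, D.g j)

/-- density of the triple set over a pair -/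
noncomputable def wt (j j' : J) : ℝ := ∑ i with D.X i j j', D.μ i

noncomputable def m1 (j : J) : ℝ := ∑ j', D.lam j' * D.wt j j'

noncomputable def m2 (j' : J) : ℝ := ∑ j, D.lam j * D.wt j j'

noncomputable def mass : ℝ := ∑ j, ∑ j', D.lam j * D.lam j' * D.wt j j'

structure Ok (p K d : ℝ) : Prop where
  μ0 : ∀ i, 0 ≤ D.μ i
  lam0 : ∀ j, 0 ≤ D.lam j
  μ1 : ∑ i, D.μ i ≤ 1
  lam1 : ∑ j, D.lam j ≤ 1
  ab : ∀ i, |D.a i| ≤ 1
  bb : ∀ i, |D.b i| ≤ 2
  vb : ∀ j, 0 ≤ D.v j ∧ D.v j ≤ 1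
  gb : ∀ j, |D.g j| ≤ 2
  frμ : FitFr D.μ D.a K p
  frl : FitFr D.lam D.v K p
  lip : ∀ j j', |D.g j - D.g j'| ≤ |D.v j - D.v j'| + p
  Λ1 : 1 ≤ D.Λ
  ΛK : D.Λ ≤ K
  her : FitHer D.S K d p
  near : ∀ i j j', D.X i j j' → ∃ σ ∈ D.S, |D.Λ * D.F i j j' - σ| ≤ K * p

end FitCore

end Claimed.Agent.R252
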