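import Claimed.Agent.R252.Fit.FjMeas

/-!
# Row 252, unit FIT, adaptor `k5_FJ`: CONTRACT leaves, file COMB (consequences of `FitjOk`; siblings and `FjMeas.lean` are black boxes)      (architect: helper9)
PAPER-FREE.  Definitions: `Fit/FjDefs.lean` (`FitjOk`, `fitjA`, `fitjAs`, `fitjB`, `fitjPair`, `FitjWit`), `k5_bin q s = ⌊s/q⌋`, `k5_sec`, `k5_mass` (S5/Defs.lean), `FitHer`, `FitFr` (Fit/Defs.lean).
Statements FROZEN (a defect: one line to helper9).  Helper lemmas: prefix `fitj_`, directly above the theorem.  Splice only your theorem on a fresh pull.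
-/

set_option autoImplicit false

namespace Claimed.Agent.R252

open MeasureTheory Set Classical

variable {Λ : Type} [MeasurableSpace Λ] {ν : Measure Λ} {z v g : Λ → ℝ} {U : Set (Λ × ℝ)} {φ : ℝ → ℝ} {L : Λ × ℝ → ℝ}
  {p K d : ℝ}

theorem fitj_bin_same {p x y : ℝ} (hp : 0 < p) (h : k5_bin p x = k5_bin p y) : |x - y| ≤ p := by
  unfold k5_bin at h
  have h1 := Int.abs_sub_lt_one_of_floor_eq_floor h
  have h2 : x / p - y / p = (x - y) / p := by ring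
  rw [h2, abs_div, abs_of_pos hp, div_lt_one hp] at h1
  exact h1.le

theorem fitj_bin_val {p x : ℝ} {β : ℤ} (hp : 0 < p) (h : k5_bin p x = β) : |x - β * p| ≤ p := by
  unfold k5_bin at h
  rw [Int.floor_eq_iff] at h
  have h1 : (β : ℝ) * p ≤ x := (le_div_iff₀ hp).1 h.1
  have h2 : x < ((β : ℝ) + 1) * p := (div_lt_iff₀ hp).1 h.2
  rw [abs_le]
  constructor <;> nlinarith

/-- LEAF L-252-FJ-C1 (~80 l.).  `|L| ≤ Kp + |z| + |u||g| + |φ||v| ≤ 4K²`;  `⌊x/p⌋ ∈ [-4K²/p - 1, 4K²/p]` and `K²/p ≥ 1`. -/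
theorem fitj_val (h : FitjOk ν z v g U φ L p K d) (hp : 0 < p) (hp1 : p ≤ 1) (hK : 1 ≤ K) (l : Λ) (u : ℝ)
    (hl : (l, u) ∈ U) : |L (l, u)| ≤ 4 * K ^ 2 ∧ k5_bin p (L (l, u)) ∈ fitjB p K := by
  obtain ⟨hu0, hu1, hz, hv, hg, hφ⟩ := h.bd l u hl
  have hm := h.model l u hl
  have hK0 : 0 ≤ K := by linarith
  have h1 : |u * g l| ≤ K := by
    rw [abs_mul, abs_of_nonneg hu0]
    calc u * |g l| ≤ 1 * K := mul_le_mul hu1 hg (abs_nonneg _) (by norm_num)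
      _ = K := one_mul _
  have h2 : |φ u * v l| ≤ K * K := by
    rw [abs_mul]
    exact mul_le_mul hφ hv (abs_nonneg _) hK0
  have h3 : K * p ≤ K := by nlinarith
  have hKK : K ≤ K * K := by nlinarith
  have habs : |L (l, u)| ≤ 4 * K ^ 2 := by
    rw [abs_le] at hm hz h1 h2 ⊢
    constructor <;> nlinarith [hm.1, hm.2, hz.1, hz.2, h1.1, h1.2, h2.1, h2.2]
  refine ⟨habs, ?_⟩
  rw [abs_le] at habs
  have hK2 : 0 ≤ K ^ 2 := by positivity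
  unfold fitjB k5_bin
  rw [Finset.mem_Icc, ← Int.floor_neg]
  constructor
  · apply Int.floor_le_floor
    rw [← neg_div]
    exact div_le_div_of_nonneg_right (by linarith [habs.1]) hp.le
  · refine le_trans (Int.floor_le_ceil _) (Int.ceil_le_ceil ?_)
    exact div_le_div_of_nonneg_right (by linarith [habs.2]) hp.le

/-- LEAF L-252-FJ-C2 (~150 l.).  OCCUPIED BINS at one time.  Cover `[-4K²,4K²]` by the unit intervals `[a,a+1]`, `a = -⌈4K²⌉ + i`, `i < 2⌈4K²⌉` (`≤ 10K²` of them);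
`h.cnt u p 1 a` gives `≤ K (1/p)^d = K p^(-d)` bins each;  `Finset.biUnion`, then intersect with `fitjB p K` (`fitj_val`). -/
theorem fitj_bincount (h : FitjOk ν z v g U φ L p K d) (hp : 0 < p) (hp1 : p ≤ 1) (hK : 1 ≤ K) (u : ℝ) :
    ∃ Z : Finset ℤ, (Z.card : ℝ) ≤ 10 * K ^ 3 * p ^ (-d) ∧ Z ⊆ fitjB p K ∧ ∀ l, (l, u) ∈ U → k5_bin p (L (l, u)) ∈ Z := by
  set n : ℕ := ⌈4 * K ^ 2⌉₊ with hn
  have hK2 : (1 : ℝ) ≤ K ^ 2 := one_le_pow₀ hK
  have hn1 : 4 * K ^ 2 ≤ n := Nat.le_ceil _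
  have hn2 : (n : ℝ) < 4 * K ^ 2 + 1 := Nat.ceil_lt_add_one (by positivity)
  have hnpos : 1 ≤ n := by
    have : (1 : ℝ) ≤ n := by linarith
    exact_mod_cast this
  have hc := fun i : ℕ => h.cnt u p 1 (-(n : ℝ) + i) le_rfl hp1 le_rfl
  choose Zf hZc hZm using hc
  refine ⟨((Finset.range (2 * n)).biUnion Zf) ∩ fitjB p K, ?_, Finset.inter_subset_right, ?_⟩
  · have h1 : ((((Finset.range (2 * n)).biUnion Zf) ∩ fitjB p K).card : ℝ)
        ≤ ∑ i ∈ Finset.range (2 * n), ((Zf i).card : ℝ) := by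
      have : (((Finset.range (2 * n)).biUnion Zf) ∩ fitjB p K).card
          ≤ ∑ i ∈ Finset.range (2 * n), (Zf i).card :=
        le_trans (Finset.card_le_card Finset.inter_subset_left) Finset.card_biUnion_le
      exact_mod_cast this
    have h2 : ∑ i ∈ Finset.range (2 * n), ((Zf i).card : ℝ)
        ≤ ∑ _i ∈ Finset.range (2 * n), K * (1 / p) ^ d := Finset.sum_le_sum fun i _ => hZc i
    rw [Finset.sum_const, Finset.card_range, nsmul_eq_mul] at h2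
    have h3 : (1 / p) ^ d = p ^ (-d) := by
      rw [one_div, Real.inv_rpow hp.le, Real.rpow_neg hp.le]
    rw [h3] at h2
    have hpd : 0 ≤ p ^ (-d) := Real.rpow_nonneg hp.le _
    refine le_trans h1 (le_trans h2 ?_)
    have h4 : ((2 * n : ℕ) : ℝ) ≤ 10 * K ^ 2 := by
      push_cast
      linarith
    calc ((2 * n : ℕ) : ℝ) * (K * p ^ (-d)) ≤ 10 * K ^ 2 * (K * p ^ (-d)) :=
          mul_le_mul_of_nonneg_right h4 (by positivity)
      _ = 10 * K ^ 3 * p ^ (-d) := by ring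
  · intro l hl
    obtain ⟨habs, hB⟩ := fitj_val h hp hp1 hK l u hl
    rw [Finset.mem_inter]
    refine ⟨?_, hB⟩
    rw [abs_le] at habs
    set y : ℝ := L (l, u) + n with hy
    have hy0 : 0 ≤ y := by linarith [habs.1]
    have hy1 : y ≤ ((2 * n : ℕ) : ℝ) := by
      push_cast
      linarith [habs.2]
    have hc1 : ⌈y⌉₊ ≤ 2 * n := Nat.ceil_le.2 hy1
    have hc2 : y ≤ ⌈y⌉₊ := Nat.le_ceil _
    have hc3 : (⌈y⌉₊ : ℝ) < y + 1 := Nat.ceil_lt_add_one hy0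
    rw [Finset.mem_biUnion]
    refine ⟨⌈y⌉₊ - 1, Finset.mem_range.2 (by omega), hZm _ l hl ?_ ?_⟩
    · rcases Nat.eq_zero_or_pos ⌈y⌉₊ with h0 | h0
      · rw [h0]
        simp only [zero_tsub, Nat.cast_zero, add_zero]
        linarith
      · have : ((⌈y⌉₊ - 1 : ℕ) : ℝ) = (⌈y⌉₊ : ℝ) - 1 := by
          rw [Nat.cast_sub h0]; simp
        rw [this]
        linarith
    · have : (⌈y⌉₊ : ℝ) ≤ ((⌈y⌉₊ - 1 : ℕ) : ℝ) + 1 := by
        have : ⌈y⌉₊ ≤ (⌈y⌉₊ - 1) + 1 := by omega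
        exact_mod_cast this
      linarith

/-- a point lies in its bin -/
theorem fitj_bin_bounds {p : ℝ} (hp : 0 < p) {x : ℝ} {j : ℤ} (h : k5_bin p x = j) : (j : ℝ) * p ≤ x ∧ x ≤ (j : ℝ) * p + p := by
  unfold k5_bin at h
  rw [Int.floor_eq_iff] at h
  obtain ⟨h1, h2⟩ := h
  rw [le_div_iff₀ hp] at h1
  rw [div_lt_iff₀ hp] at h2
  exact ⟨h1, by nlinarith⟩

/-- the bin map is measurable -/
theorem fitj_bin_meas (p : ℝ) : Measurable (k5_bin p) := by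
  unfold k5_bin
  exact Int.measurable_floor.comp (measurable_id.div_const p)

/-- the bin of the value at a fixed time is measurable -/
theorem fitj_binL_meas (h : FitjOk ν z v g U φ L p K d) (u : ℝ) : Measurable fun l => k5_bin p (L (l, u)) :=
  (fitj_bin_meas p).comp (h.mL.comp measurable_prodMk_right)

/-- sections of the labels are measurable -/
theorem fitj_secU_meas (h : FitjOk ν z v g U φ L p K d) (u : ℝ) : MeasurableSet {l | (l, u) ∈ U} :=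
  measurable_prodMk_right h.mU

/-- the level sets of the bin of the value are measurable -/
theorem fitj_lev_meas (h : FitjOk ν z v g U φ L p K d) (u : ℝ) (b : ℤ) : MeasurableSet {l | k5_bin p (L (l, u)) = b} :=
  fitj_binL_meas h u (measurableSet_singleton b)

/-- LEAF L-252-FJ-C3 (~150 l.).  ROW CAP.  `v l ∈ [-K,K]`: the `v`-bins `j ∈ Icc ⌊-K/p⌋ ⌊K/p⌋` (`≤ 4K/p`);  `fitj_part` with the label `k5_bin p (v l)`;
each piece lies in the set of `h.cap u (j p) (b p)` (`⌊x/p⌋ = j ⟹ j p ≤ x ≤ j p + p`), mass `≤ K p^(1+d)`.  `(4K/p) K p^(1+d) = 4K² p^d`.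
Measurability of `{l | (l,u) ∈ U ∧ ..}`: `h.mU`, `h.mL`, `measurable_prodMk_right`, `Int.measurable_floor`. -/
theorem fitj_rowcap [IsFiniteMeasure ν] (h : FitjOk ν z v g U φ L p K d) (hp : 0 < p) (hp1 : p ≤ 1) (hK : 1 ≤ K)
    (u : ℝ) (b : ℤ) : ν.real {l | (l, u) ∈ U ∧ k5_bin p (L (l, u)) = b} ≤ 4 * K ^ 2 * p ^ d := by
  have hK0 : 0 < K := by linarith
  have hA : MeasurableSet {l | (l, u) ∈ U ∧ k5_bin p (L (l, u)) = b} := (fitj_secU_meas h u).inter (fitj_lev_meas h u b)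
  have hlab : ∀ l ∈ {l | (l, u) ∈ U ∧ k5_bin p (L (l, u)) = b}, k5_bin p (v l) ∈ Finset.Icc ⌊-K / p⌋ ⌊K / p⌋ := by
    intro l hl
    have hv := (h.bd l u hl.1).2.2.2.1
    rw [abs_le] at hv
    rw [Finset.mem_Icc]
    unfold k5_bin
    exact ⟨Int.floor_le_floor (by gcongr; exact hv.1), Int.floor_le_floor (by gcongr; exact hv.2)⟩
  rw [fitj_part ν _ hA (fun l => k5_bin p (v l)) ((fitj_bin_meas p).comp h.mv) _ hlab]
  have hpiece : ∀ j ∈ Finset.Icc ⌊-K / p⌋ ⌊K / p⌋,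
      ν.real {l | l ∈ {l | (l, u) ∈ U ∧ k5_bin p (L (l, u)) = b} ∧ k5_bin p (v l) = j} ≤ K * p ^ (1 + d) := by
    intro j _
    refine le_trans (measureReal_mono ?_) (h.cap u (j * p) (b * p))
    rintro l ⟨⟨h1, h2⟩, h3⟩
    have b1 := fitj_bin_bounds hp h2
    have b2 := fitj_bin_bounds hp h3
    exact ⟨h1, b2.1, b2.2, b1.1, b1.2⟩
  refine (Finset.sum_le_sum hpiece).trans ?_
  rw [Finset.sum_const, nsmul_eq_mul]
  have hKp : 1 ≤ K / p := by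
    rw [le_div_iff₀ hp]
    linarith
  have hcard : ((Finset.Icc ⌊-K / p⌋ ⌊K / p⌋).card : ℝ) ≤ 4 * K / p := by
    rw [Int.card_Icc]
    have h1 : (⌊K / p⌋ : ℝ) ≤ K / p := Int.floor_le _
    have h2 : -K / p - 1 < (⌊-K / p⌋ : ℝ) := Int.sub_one_lt_floor _
    have h3 : ⌊-K / p⌋ ≤ ⌊K / p⌋ + 1 := by
      have : ⌊-K / p⌋ ≤ ⌊K / p⌋ := Int.floor_le_floor (by gcongr; linarith)
      omega
    have h4 : (((⌊K / p⌋ + 1 - ⌊-K / p⌋).toNat : ℕ) : ℝ) = ((⌊K / p⌋ + 1 - ⌊-K / p⌋ : ℤ) : ℝ) := by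
      have : ((⌊K / p⌋ + 1 - ⌊-K / p⌋).toNat : ℤ) = ⌊K / p⌋ + 1 - ⌊-K / p⌋ := Int.toNat_of_nonneg (by omega)
      exact_mod_cast this
    rw [h4]
    push_cast
    have h5 : -K / p = -(K / p) := by ring
    have h6 : 4 * K / p = 4 * (K / p) := by ring
    rw [h6]
    linarith
  have hpd : 0 < p ^ d := Real.rpow_pos_of_pos hp d
  calc ((Finset.Icc ⌊-K / p⌋ ⌊K / p⌋).card : ℝ) * (K * p ^ (1 + d)) ≤ 4 * K / p * (K * p ^ (1 + d)) := by
        gcongr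
    _ = 4 * K ^ 2 * p ^ d := by
        rw [Real.rpow_add hp, Real.rpow_one]
        field_simp

/-- `fitjA` is measurable -/
theorem fitj_A_meas (h : FitjOk ν z v g U φ L p K d) (u₀ u : ℝ) (b : ℤ) : MeasurableSet (fitjA U L p u₀ u b) :=
  (fitj_secU_meas h u₀).inter ((fitj_secU_meas h u).inter (fitj_lev_meas h u b))

/-- summing `fitjAs` over the starting bins gives `fitjA` -/
theorem fitj_sum_As [IsFiniteMeasure ν] (h : FitjOk ν z v g U φ L p K d) (u₀ u : ℝ) (Z₀ : Finset ℤ)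
    (hZ₀ : ∀ l, (l, u₀) ∈ U → k5_bin p (L (l, u₀)) ∈ Z₀) (b : ℤ) :
    ∑ β ∈ Z₀, ν.real (fitjAs U L p u₀ u β b) = ν.real (fitjA U L p u₀ u b) := by
  rw [fitj_part ν _ (fitj_A_meas h u₀ u b) (fun l => k5_bin p (L (l, u₀))) (fitj_binL_meas h u₀) Z₀
    (fun l hl => hZ₀ l hl.1)]
  refine Finset.sum_congr rfl fun β _ => ?_
  congr 1
  ext l
  simp only [fitjAs, fitjA, mem_ofPred_eq]
  tauto

/-- LEAF L-252-FJ-C4 (~150 l.).  LOWER BOUND of the total collision mass.  `A = {l | (l,u) ∈ U ∧ (l,u₀) ∈ U}`.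
(i) `∑_{β∈Z₀} ν.real (fitjAs .. β b) = ν.real (fitjA .. b)` (`fitj_part`, label `k5_bin p (L (l,u₀))`), so `∑_{β∈Z₀} fitjPair = ∑_{b∈fitjB} ν.real (fitjA .. b)²` (`Finset.sum_comm`);
(ii) `fitj_bincount` at the time `u` gives `Z ⊆ fitjB p K`, `#Z ≤ 10K³p^(-d)`;  `fitj_cs` with the label `k5_bin p (L (l,u))`. -/
theorem fitj_pair_lower [IsFiniteMeasure ν] (h : FitjOk ν z v g U φ L p K d) (hp : 0 < p) (hp1 : p ≤ 1) (hK : 1 ≤ K)
    (u₀ u : ℝ) (Z₀ : Finset ℤ) (hZ₀ : ∀ l, (l, u₀) ∈ U → k5_bin p (L (l, u₀)) ∈ Z₀) :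
    ν.real (k5_sec {x | x ∈ U ∧ (x.1, u₀) ∈ U} u) ^ 2
      ≤ 10 * K ^ 3 * p ^ (-d) * ∑ β ∈ Z₀, fitjPair ν U L p K u₀ β u := by
  obtain ⟨Z, hcard, hZB, hZ⟩ := fitj_bincount h hp hp1 hK u
  have hA : MeasurableSet (k5_sec {x | x ∈ U ∧ (x.1, u₀) ∈ U} u) := (fitj_secU_meas h u).inter (fitj_secU_meas h u₀)
  have h1 := fitj_cs ν _ hA (fun l => k5_bin p (L (l, u))) (fitj_binL_meas h u) Z (fitjB p K) hZB (fun l hl => hZ l hl.1)
  have h2 : ∑ β ∈ Z₀, fitjPair ν U L p K u₀ β u = ∑ c ∈ fitjB p K,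
      ν.real {l | l ∈ k5_sec {x | x ∈ U ∧ (x.1, u₀) ∈ U} u ∧ k5_bin p (L (l, u)) = c} ^ 2 := by
    unfold fitjPair
    rw [Finset.sum_comm]
    refine Finset.sum_congr rfl fun c _ => ?_
    rw [← Finset.sum_mul, fitj_sum_As h u₀ u Z₀ hZ₀ c, sq]
    have e : fitjA U L p u₀ u c = {l | l ∈ k5_sec {x | x ∈ U ∧ (x.1, u₀) ∈ U} u ∧ k5_bin p (L (l, u)) = c} := by
      ext l
      simp only [fitjA, k5_sec, mem_ofPred_eq]
      tauto
    rw [e]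
  rw [h2]
  refine h1.trans (mul_le_mul_of_nonneg_right hcard (Finset.sum_nonneg fun c _ => sq_nonneg _))

/-- LEAF L-252-FJ-C5 (~100 l.).  UPPER BOUND.  `ν.real (fitjA .. b) ≤ 4K²p^d` (`fitj_rowcap` at `u`, monotonicity);
`∑_b ν.real (fitjAs .. β b) ≤ ν.real {l | (l,u₀) ∈ U ∧ k5_bin p (L (l,u₀)) = β} ≤ 4K²p^d` (disjoint pieces: `fitj_part`, `fitj_val`; `fitj_rowcap` at `u₀`). -/
theorem fitj_pair_le [IsFiniteMeasure ν] (h : FitjOk ν z v g U φ L p K d) (hp : 0 < p) (hp1 : p ≤ 1) (hK : 1 ≤ K)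
    (u₀ u : ℝ) (β : ℤ) : fitjPair ν U L p K u₀ β u ≤ 16 * K ^ 4 * p ^ (2 * d) := by
  have hpd : 0 < p ^ d := Real.rpow_pos_of_pos hp d
  have hA : ∀ b, ν.real (fitjA U L p u₀ u b) ≤ 4 * K ^ 2 * p ^ d := fun b =>
    le_trans (measureReal_mono (show fitjA U L p u₀ u b ⊆ {l | (l, u) ∈ U ∧ k5_bin p (L (l, u)) = b} from
      fun l hl => ⟨hl.2.1, hl.2.2⟩)) (fitj_rowcap h hp hp1 hK u b)
  have hm : MeasurableSet {l | (l, u₀) ∈ U ∧ (l, u) ∈ U ∧ k5_bin p (L (l, u₀)) = β} :=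
    (fitj_secU_meas h u₀).inter ((fitj_secU_meas h u).inter (fitj_lev_meas h u₀ β))
  have hsum : ∑ b ∈ fitjB p K, ν.real (fitjAs U L p u₀ u β b) ≤ 4 * K ^ 2 * p ^ d := by
    have h1 := fitj_part ν _ hm (fun l => k5_bin p (L (l, u))) (fitj_binL_meas h u) (fitjB p K)
      (fun l hl => (fitj_val h hp hp1 hK l u hl.2.1).2)
    have h2 : ∑ b ∈ fitjB p K, ν.real (fitjAs U L p u₀ u β b) =
        ∑ c ∈ fitjB p K, ν.real {l | l ∈ {l | (l, u₀) ∈ U ∧ (l, u) ∈ U ∧ k5_bin p (L (l, u₀)) = β} ∧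
          k5_bin p (L (l, u)) = c} := by
      refine Finset.sum_congr rfl fun b _ => ?_
      congr 1
      ext l
      simp only [fitjAs, mem_ofPred_eq]
      tauto
    rw [h2, ← h1]
    exact le_trans (measureReal_mono (show {l | (l, u₀) ∈ U ∧ (l, u) ∈ U ∧ k5_bin p (L (l, u₀)) = β} ⊆
      {l | (l, u₀) ∈ U ∧ k5_bin p (L (l, u₀)) = β} from fun l hl => ⟨hl.1, hl.2.2⟩)) (fitj_rowcap h hp hp1 hK u₀ β)
  unfold fitjPair
  calc ∑ b ∈ fitjB p K, ν.real (fitjAs U L p u₀ u β b) * ν.real (fitjA U L p u₀ u b)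
      ≤ ∑ b ∈ fitjB p K, ν.real (fitjAs U L p u₀ u β b) * (4 * K ^ 2 * p ^ d) :=
        Finset.sum_le_sum fun b _ => mul_le_mul_of_nonneg_left (hA b) measureReal_nonneg
    _ = (∑ b ∈ fitjB p K, ν.real (fitjAs U L p u₀ u β b)) * (4 * K ^ 2 * p ^ d) := by rw [Finset.sum_mul]
    _ ≤ (4 * K ^ 2 * p ^ d) * (4 * K ^ 2 * p ^ d) := mul_le_mul_of_nonneg_right hsum (by positivity)
    _ = 16 * K ^ 4 * p ^ (2 * d) := by
        rw [two_mul, Real.rpow_add hp]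
        ring

/-- LEAF L-252-FJ-C6 (~100 l.).  `fitjA U L p u₀ u b = k5_sec E u` for the measurable set `E = {x | (x.1,u₀) ∈ U ∧ x ∈ U ∧ k5_bin p (L x) = b}`, the same for `fitjAs`;  `fitj_sec_meas`;
finite sums and products of measurable functions. -/
theorem fitj_pair_meas [IsFiniteMeasure ν] (h : FitjOk ν z v g U φ L p K d) (u₀ : ℝ) (β : ℤ) :
    Measurable fun u => fitjPair ν U L p K u₀ β u := by
  have m0 : MeasurableSet {x : Λ × ℝ | (x.1, u₀) ∈ U} := (measurable_fst.prodMk measurable_const) h.mU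
  have mL : ∀ b : ℤ, MeasurableSet {x : Λ × ℝ | k5_bin p (L x) = b} := fun b =>
    ((fitj_bin_meas p).comp h.mL) (measurableSet_singleton b)
  have mL0 : MeasurableSet {x : Λ × ℝ | k5_bin p (L (x.1, u₀)) = β} :=
    ((fitj_bin_meas p).comp (h.mL.comp (measurable_fst.prodMk measurable_const))) (measurableSet_singleton β)
  unfold fitjPair
  refine Finset.measurable_sum _ fun b _ => Measurable.mul ?_ ?_
  · exact fitj_sec_meas ν {x : Λ × ℝ | (x.1, u₀) ∈ U ∧ x ∈ U ∧ k5_bin p (L (x.1, u₀)) = β ∧ k5_bin p (L x) = b}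
      (m0.inter (h.mU.inter (mL0.inter (mL b))))
  · exact fitj_sec_meas ν {x : Λ × ℝ | (x.1, u₀) ∈ U ∧ x ∈ U ∧ k5_bin p (L x) = b} (m0.inter (h.mU.inter (mL b)))

/-- the `v`-bins of the labelled trajectories -/
theorem fitj_vbin_mem (h : FitjOk ν z v g U φ L p K d) (hp : 0 < p) {l : Λ} {u : ℝ} (hl : (l, u) ∈ U) :
    k5_bin p (v l) ∈ Finset.Icc ⌊-K / p⌋ ⌊K / p⌋ := by
  have hv := (h.bd l u hl).2.2.2.1
  rw [abs_le] at hv
  rw [Finset.mem_Icc]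
  unfold k5_bin
  exact ⟨Int.floor_le_floor (by gcongr; exact hv.1), Int.floor_le_floor (by gcongr; exact hv.2)⟩

/-- `fitjAs` is measurable -/
theorem fitj_As_meas (h : FitjOk ν z v g U φ L p K d) (u₀ u : ℝ) (β b : ℤ) : MeasurableSet (fitjAs U L p u₀ u β b) :=
  (fitj_secU_meas h u₀).inter ((fitj_secU_meas h u).inter ((fitj_lev_meas h u₀ β).inter (fitj_lev_meas h u b)))

/-- the pieces of `fitjA` in one `v`-bin are small -/
theorem fitj_cell_y [IsFiniteMeasure ν] (h : FitjOk ν z v g U φ L p K d) (hp : 0 < p) (u₀ u : ℝ) (b j : ℤ) :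
    ν.real {l | l ∈ fitjA U L p u₀ u b ∧ k5_bin p (v l) = j} ≤ K * p ^ (1 + d) := by
  refine le_trans (measureReal_mono ?_) (h.cap u (j * p) (b * p))
  rintro l ⟨⟨_, h1, h2⟩, h3⟩
  have b1 := fitj_bin_bounds hp h2
  have b2 := fitj_bin_bounds hp h3
  exact ⟨h1, b2.1, b2.2, b1.1, b1.2⟩

/-- the pieces of `fitjAs` in one `v`-bin, summed over the bins of the value -/
theorem fitj_cell_x [IsFiniteMeasure ν] (h : FitjOk ν z v g U φ L p K d) (hp : 0 < p) (hp1 : p ≤ 1) (hK : 1 ≤ K)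
    (u₀ u : ℝ) (β j : ℤ) :
    ∑ b ∈ fitjB p K, ν.real {l | l ∈ fitjAs U L p u₀ u β b ∧ k5_bin p (v l) = j} ≤ K * p ^ (1 + d) := by
  have mv : MeasurableSet {l | k5_bin p (v l) = j} := ((fitj_bin_meas p).comp h.mv) (measurableSet_singleton j)
  have hm : MeasurableSet {l | (l, u₀) ∈ U ∧ (l, u) ∈ U ∧ k5_bin p (L (l, u₀)) = β ∧ k5_bin p (v l) = j} :=
    (fitj_secU_meas h u₀).inter ((fitj_secU_meas h u).inter ((fitj_lev_meas h u₀ β).inter mv))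
  have h1 := fitj_part ν _ hm (fun l => k5_bin p (L (l, u))) (fitj_binL_meas h u) (fitjB p K)
    (fun l hl => (fitj_val h hp hp1 hK l u hl.2.1).2)
  have h2 : ∑ b ∈ fitjB p K, ν.real {l | l ∈ fitjAs U L p u₀ u β b ∧ k5_bin p (v l) = j} =
      ∑ c ∈ fitjB p K, ν.real {l | l ∈ {l | (l, u₀) ∈ U ∧ (l, u) ∈ U ∧ k5_bin p (L (l, u₀)) = β ∧ k5_bin p (v l) = j} ∧
        k5_bin p (L (l, u)) = c} := by
    refine Finset.sum_congr rfl fun b _ => ?_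
    congr 1
    ext l
    simp only [fitjAs, mem_ofPred_eq]
    tauto
  rw [h2, ← h1]
  refine le_trans (measureReal_mono ?_) (h.cap u₀ (j * p) (β * p))
  rintro l ⟨h1, _, h2, h3⟩
  have b1 := fitj_bin_bounds hp h2
  have b2 := fitj_bin_bounds hp h3
  exact ⟨h1, b2.1, b2.2, b1.1, b1.2⟩

/-- LEAF L-252-FJ-C7 (~300 l.).  OCCUPIED CELLS at a fixed time.  `𝒥 = Icc ⌊-K/p⌋ ⌊K/p⌋`.  With `x(b,j) = ν.real {l ∈ fitjAs .. β₀ b : k5_bin p (v l) = j}`, `y(b,j') = ν.real {l ∈ fitjA .. b : k5_bin p (v l) = j'}`: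
`fitjPair = ∑_{(j,j') ∈ 𝒥×𝒥} w(j,j')`, `w(j,j') = ∑_b x(b,j) y(b,j')` (`fitj_part` twice, `Finset.sum_comm`).
`y(b,j') ≤ K p^(1+d)` (`h.cap u (j'p) (bp)`), `∑_b x(b,j) ≤ ν.real {l | (l,u₀) ∈ U, v-bin j, starting bin β₀} ≤ K p^(1+d)` (`h.cap u₀ (jp) (β₀p)`), so `w ≤ K² p^(2+2d)`.
`Cs = {(j,j') : 0 < w(j,j')}`:  `c ≤ ∑_{Cs} w ≤ #Cs K²p^(2+2d)`.  If `w(j,j') > 0` some `b` has `x(b,j) > 0` and `y(b,j') > 0`: both sets are nonempty: a witness. -/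
theorem fitj_cells [IsFiniteMeasure ν] (h : FitjOk ν z v g U φ L p K d) (hp : 0 < p) (hp1 : p ≤ 1) (hK : 1 ≤ K)
    (u₀ u : ℝ) (β₀ : ℤ) (c : ℝ) (hc : c ≤ fitjPair ν U L p K u₀ β₀ u) :
    ∃ Cs : Finset (ℤ × ℤ), c / (K ^ 2 * p ^ (2 + 2 * d)) ≤ (Cs.card : ℝ) ∧
      ∀ x ∈ Cs, FitjWit U v L p u₀ β₀ u x.1 x.2 := by
  have hK0 : 0 < K := by linarith
  have hpd : 0 < p ^ (1 + d) := Real.rpow_pos_of_pos hp _
  have hpp : p ^ (2 + 2 * d) = p ^ (1 + d) * p ^ (1 + d) := by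
    rw [← Real.rpow_add hp]
    congr 1
    ring
  obtain ⟨X, hXdef⟩ : ∃ X : ℤ → ℤ → ℝ, ∀ b j, X b j = ν.real {l | l ∈ fitjAs U L p u₀ u β₀ b ∧ k5_bin p (v l) = j} :=
    ⟨_, fun _ _ => rfl⟩
  obtain ⟨Y, hYdef⟩ : ∃ Y : ℤ → ℤ → ℝ, ∀ b j, Y b j = ν.real {l | l ∈ fitjA U L p u₀ u b ∧ k5_bin p (v l) = j} :=
    ⟨_, fun _ _ => rfl⟩
  have hX0 : ∀ b j, 0 ≤ X b j := fun b j => by rw [hXdef]; exact measureReal_nonneg
  have hY0 : ∀ b j, 0 ≤ Y b j := fun b j => by rw [hYdef]; exact measureReal_nonneg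
  have mvb : Measurable fun l => k5_bin p (v l) := (fitj_bin_meas p).comp h.mv
  have hX : ∀ b, ν.real (fitjAs U L p u₀ u β₀ b) = ∑ j ∈ Finset.Icc ⌊-K / p⌋ ⌊K / p⌋, X b j := fun b => by
    simp only [hXdef]
    exact fitj_part ν _ (fitj_As_meas h u₀ u β₀ b) _ mvb _ (fun l hl => fitj_vbin_mem h hp hl.1)
  have hY : ∀ b, ν.real (fitjA U L p u₀ u b) = ∑ j ∈ Finset.Icc ⌊-K / p⌋ ⌊K / p⌋, Y b j := fun b => by
    simp only [hYdef]
    exact fitj_part ν _ (fitj_A_meas h u₀ u b) _ mvb _ (fun l hl => fitj_vbin_mem h hp hl.1)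
  have hYle : ∀ b j, Y b j ≤ K * p ^ (1 + d) := fun b j => by
    rw [hYdef]
    exact fitj_cell_y h hp u₀ u b j
  have hXsum : ∀ j, ∑ b ∈ fitjB p K, X b j ≤ K * p ^ (1 + d) := fun j => by
    simp only [hXdef]
    exact fitj_cell_x h hp hp1 hK u₀ u β₀ j
  have hpair : fitjPair ν U L p K u₀ β₀ u =
      ∑ x ∈ Finset.Icc ⌊-K / p⌋ ⌊K / p⌋ ×ˢ Finset.Icc ⌊-K / p⌋ ⌊K / p⌋, ∑ b ∈ fitjB p K, X b x.1 * Y b x.2 := by
    unfold fitjPair
    rw [Finset.sum_comm]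
    refine Finset.sum_congr rfl fun b _ => ?_
    rw [hX, hY, Finset.sum_mul_sum, Finset.sum_product]
  have hw0 : ∀ x : ℤ × ℤ, 0 ≤ ∑ b ∈ fitjB p K, X b x.1 * Y b x.2 := fun x =>
    Finset.sum_nonneg fun b _ => mul_nonneg (hX0 _ _) (hY0 _ _)
  have hwle : ∀ x : ℤ × ℤ, ∑ b ∈ fitjB p K, X b x.1 * Y b x.2 ≤ K ^ 2 * p ^ (2 + 2 * d) := fun x =>
    calc ∑ b ∈ fitjB p K, X b x.1 * Y b x.2 ≤ ∑ b ∈ fitjB p K, X b x.1 * (K * p ^ (1 + d)) :=
          Finset.sum_le_sum fun b _ => mul_le_mul_of_nonneg_left (hYle _ _) (hX0 _ _)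
      _ = (∑ b ∈ fitjB p K, X b x.1) * (K * p ^ (1 + d)) := by rw [Finset.sum_mul]
      _ ≤ (K * p ^ (1 + d)) * (K * p ^ (1 + d)) := mul_le_mul_of_nonneg_right (hXsum _) (by positivity)
      _ = K ^ 2 * p ^ (2 + 2 * d) := by
          rw [hpp]
          ring
  refine ⟨(Finset.Icc ⌊-K / p⌋ ⌊K / p⌋ ×ˢ Finset.Icc ⌊-K / p⌋ ⌊K / p⌋).filter
    (fun x => 0 < ∑ b ∈ fitjB p K, X b x.1 * Y b x.2), ?_, ?_⟩
  · rw [div_le_iff₀ (by rw [hpp]; positivity)]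
    refine hc.trans ?_
    rw [hpair, ← Finset.sum_filter_of_ne (p := fun x : ℤ × ℤ => 0 < ∑ b ∈ fitjB p K, X b x.1 * Y b x.2)
      (fun x _ hx => lt_of_le_of_ne (hw0 x) (Ne.symm hx))]
    refine (Finset.sum_le_sum fun x _ => hwle x).trans ?_
    rw [Finset.sum_const, nsmul_eq_mul]
  · intro x hx
    have hpos := (Finset.mem_filter.1 hx).2
    obtain ⟨b, _, hb⟩ : ∃ b ∈ fitjB p K, 0 < X b x.1 * Y b x.2 := by
      by_contra hcon
      push Not at hcon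
      exact absurd (Finset.sum_nonpos hcon) (not_le.2 hpos)
    have hne1 : {l | l ∈ fitjAs U L p u₀ u β₀ b ∧ k5_bin p (v l) = x.1}.Nonempty := by
      rw [Set.nonempty_iff_ne_empty]
      intro he
      rw [hXdef, he, measureReal_empty, zero_mul] at hb
      exact lt_irrefl _ hb
    have hne2 : {l | l ∈ fitjA U L p u₀ u b ∧ k5_bin p (v l) = x.2}.Nonempty := by
      rw [Set.nonempty_iff_ne_empty]
      intro he
      rw [hYdef b x.2, he, measureReal_empty, mul_zero] at hb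
      exact lt_irrefl _ hb
    obtain ⟨l, ⟨a1, a2, a3, a4⟩, a5⟩ := hne1
    obtain ⟨l', ⟨c1, c2, c3⟩, c4⟩ := hne2
    exact ⟨l, l', a1, a2, c1, c2, a5, c4, a3, a4.trans c3.symm⟩

/-- LEAF L-252-FJ-C8 (~150 l.).  THE COLLISION IDENTITY (05 (collision-dot)).  Witness `(l,l')`, representatives `l₁, l₂` of the two `v`-bins.
`|v l - v l₁| ≤ p`, `|g l - g l₁| ≤ 2Kp` (`h.lipg` at `u₀`), the same for `l', l₂`;  `|u - u₀| ≤ 1`, `|φ u - φ u₀| ≤ 2K`:  the expression with `(l₁,l₂)` differs from the one with `(l,l')` by `≤ 4Kp + 4Kp`.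
`h.model` at `(l,u), (l,u₀), (l',u), (l',u₀)`:  `(u-u₀)(g l - g l') - (φ u - φ u₀)(v l - v l') = [L(l,u) - L(l',u)] - [L(l,u₀) - L(l',u₀)] + O(4Kp)`;  same bin: `|L(l,u) - L(l',u)| ≤ p`;  `|L(l,u₀) - β₀p| ≤ p`.
`σ = L(l',u₀) - β₀p`.  Total `≤ 8Kp + 4Kp + 2p ≤ 14Kp`. -/
theorem fitj_near (h : FitjOk ν z v g U φ L p K d) (hp : 0 < p) (hK : 1 ≤ K) (u₀ u : ℝ) (β₀ j j' : ℤ)
    (hw : FitjWit U v L p u₀ β₀ u j j') (l₁ l₂ : Λ) (h1 : (l₁, u₀) ∈ U) (h2 : (l₂, u₀) ∈ U)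
    (hj : k5_bin p (v l₁) = j) (hj' : k5_bin p (v l₂) = j') :
    ∃ σ ∈ {s : ℝ | ∃ l', (l', u₀) ∈ U ∧ s = L (l', u₀) - β₀ * p},
      |(u - u₀) * (g l₁ - g l₂) - (φ u - φ u₀) * (v l₁ - v l₂) - σ| ≤ 14 * K * p := by
  obtain ⟨l, l', a0, a1, b0, b1, hvj, hvj', hβ, hsame⟩ := hw
  refine ⟨L (l', u₀) - β₀ * p, ⟨l', b0, rfl⟩, ?_⟩
  have hK0 : 0 ≤ K := by linarith
  have hKp : 0 ≤ K * p := by positivity
  obtain ⟨u00, u01, _, _, _, hφ0⟩ := h.bd l u₀ a0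
  obtain ⟨u10, u11, _, _, _, hφ1⟩ := h.bd l u a1
  have hv1 : |v l₁ - v l| ≤ p := fitj_bin_same hp (hj.trans hvj.symm)
  have hv2 : |v l₂ - v l'| ≤ p := fitj_bin_same hp (hj'.trans hvj'.symm)
  have hg1 : |g l₁ - g l| ≤ 2 * (K * p) := by
    refine le_trans (h.lipg l₁ u₀ l u₀ h1 a0) ?_
    nlinarith
  have hg2 : |g l₂ - g l'| ≤ 2 * (K * p) := by
    refine le_trans (h.lipg l₂ u₀ l' u₀ h2 b0) ?_
    nlinarith
  have ha : |u - u₀| ≤ 1 := by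
    rw [abs_le]; constructor <;> linarith
  have hb : |φ u - φ u₀| ≤ 2 * K := by
    have := abs_sub (φ u) (φ u₀)
    linarith
  set X := (g l₁ - g l) - (g l₂ - g l') with hX
  set Y := (v l₁ - v l) - (v l₂ - v l') with hY
  have hXb : |X| ≤ 4 * (K * p) := by
    have := abs_sub (g l₁ - g l) (g l₂ - g l')
    linarith
  have hYb : |Y| ≤ 2 * p := by
    have := abs_sub (v l₁ - v l) (v l₂ - v l')
    linarith
  have haX : |(u - u₀) * X| ≤ 4 * (K * p) := by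
    rw [abs_mul]
    calc |u - u₀| * |X| ≤ 1 * (4 * (K * p)) := mul_le_mul ha hXb (abs_nonneg _) (by norm_num)
      _ = 4 * (K * p) := one_mul _
  have hbY : |(φ u - φ u₀) * Y| ≤ 4 * (K * p) := by
    rw [abs_mul]
    calc |φ u - φ u₀| * |Y| ≤ 2 * K * (2 * p) := mul_le_mul hb hYb (abs_nonneg _) (by positivity)
      _ = 4 * (K * p) := by ring
  have e1 := h.model l u a1
  have e2 := h.model l u₀ a0
  have e3 := h.model l' u b1
  have e4 := h.model l' u₀ b0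
  have d1 : |L (l, u) - L (l', u)| ≤ p := fitj_bin_same hp hsame
  have d2 : |L (l, u₀) - β₀ * p| ≤ p := fitj_bin_val hp hβ
  have key : (u - u₀) * (g l₁ - g l₂) - (φ u - φ u₀) * (v l₁ - v l₂) - (L (l', u₀) - β₀ * p)
      = (u - u₀) * X - (φ u - φ u₀) * Y + (L (l, u) - L (l', u)) - (L (l, u₀) - β₀ * p)
        - (L (l, u) - (z l + u * g l - φ u * v l)) + (L (l, u₀) - (z l + u₀ * g l - φ u₀ * v l))
        + (L (l', u) - (z l' + u * g l' - φ u * v l')) - (L (l', u₀) - (z l' + u₀ * g l' - φ u₀ * v l')) := by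
    rw [hX, hY]; ring
  rw [key]
  have hpK : p ≤ K * p := by nlinarith
  rw [abs_le] at haX hbY e1 e2 e3 e4 d1 d2 ⊢
  constructor <;> linarith [haX.1, haX.2, hbY.1, hbY.2, e1.1, e1.2, e2.1, e2.2, e3.1, e3.2, e4.1, e4.2,
    d1.1, d1.2, d2.1, d2.2]

/-- LEAF L-252-FJ-C9 (~80 l.).  The translate of the starting support is hereditarily `d`-dimensional: `h.cnt u₀ s L (c + β₀p)` gives `Z`;  `cov = Z.image (fun n => n s - β₀p)`;
`k5_bin s x = n ⟹ n s ≤ x ≤ n s + s`. -/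
theorem fitj_her (h : FitjOk ν z v g U φ L p K d) (hp : 0 < p) (u₀ : ℝ) (β₀ : ℤ) :
    FitHer {s : ℝ | ∃ l', (l', u₀) ∈ U ∧ s = L (l', u₀) - β₀ * p} K d p := by
  intro c s R hps hsR hR1
  have hs : 0 < s := lt_of_lt_of_le hp hps
  obtain ⟨Z, hcard, hZ⟩ := h.cnt u₀ s R (c + β₀ * p) hps hsR hR1
  refine ⟨Z.image (fun n : ℤ => (n : ℝ) * s - β₀ * p), ?_, ?_⟩
  · refine le_trans ?_ hcard
    exact_mod_cast Finset.card_image_le
  · rintro t ⟨l', hl', rfl⟩ h1 h2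
    have hmem := hZ l' hl' (by linarith) (by linarith)
    have hb := fitj_bin_bounds hs (rfl : k5_bin s (L (l', u₀)) = k5_bin s (L (l', u₀)))
    refine ⟨_, Finset.mem_image.2 ⟨_, hmem, rfl⟩, ?_, ?_⟩
    · linarith [hb.1]
    · linarith [hb.2]

/-- LEAF L-252-FJ-C10 (~120 l.).  One point per `p`-bin is Frostman 1.  `|x k - z| ≤ r` forces `k ∈ Icc ⌊(z-r)/p⌋ ⌊(z+r)/p⌋` (`≤ 2r/p + 2 ≤ 4r/p` integers);  the map `k ↦ (k : ℤ)` is injective. -/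
theorem fitj_frost (𝒦 : Finset ℤ) (x : 𝒦 → ℝ) (p w : ℝ) (hp : 0 < p) (hw : 0 ≤ w)
    (hx : ∀ k : 𝒦, ((k : ℤ) : ℝ) * p ≤ x k ∧ x k < (((k : ℤ) : ℝ) + 1) * p) :
    FitFr (fun _ : 𝒦 => w) x (4 * w / p) p := by
  intro z r hr
  rw [Finset.sum_const, nsmul_eq_mul]
  have hrp : 1 ≤ r / p := by
    rw [le_div_iff₀ hp]
    linarith
  have hfl : ∀ k : 𝒦, ⌊x k / p⌋ = (k : ℤ) := by
    intro k
    rw [Int.floor_eq_iff, le_div_iff₀ hp, div_lt_iff₀ hp]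
    exact hx k
  have hcard : ((Finset.univ.filter fun i : 𝒦 => |x i - z| ≤ r).card : ℝ) ≤ 4 * (r / p) := by
    have h1 : (Finset.univ.filter fun i : 𝒦 => |x i - z| ≤ r).card ≤ (Finset.Icc ⌊(z - r) / p⌋ ⌊(z + r) / p⌋).card := by
      refine Finset.card_le_card_of_injOn (fun k : 𝒦 => (k : ℤ)) ?_ ?_
      · intro k hk
        have hk' : |x k - z| ≤ r := (Finset.mem_filter.1 hk).2
        rw [abs_le] at hk'
        rw [Finset.coe_Icc, Set.mem_Icc]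
        show ⌊(z - r) / p⌋ ≤ (k : ℤ) ∧ (k : ℤ) ≤ ⌊(z + r) / p⌋
        rw [← hfl k]
        exact ⟨Int.floor_le_floor (by gcongr; linarith [hk'.1]), Int.floor_le_floor (by gcongr; linarith [hk'.2])⟩
      · intro a _ b _ hab
        exact Subtype.ext hab
    have h2 : ((Finset.Icc ⌊(z - r) / p⌋ ⌊(z + r) / p⌋).card : ℝ) ≤ 4 * (r / p) := by
      rw [Int.card_Icc]
      have a1 : (⌊(z + r) / p⌋ : ℝ) ≤ (z + r) / p := Int.floor_le _
      have a2 : (z - r) / p - 1 < (⌊(z - r) / p⌋ : ℝ) := Int.sub_one_lt_floor _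
      have a3 : ⌊(z - r) / p⌋ ≤ ⌊(z + r) / p⌋ := Int.floor_le_floor (by gcongr; linarith)
      have a4 : (((⌊(z + r) / p⌋ + 1 - ⌊(z - r) / p⌋).toNat : ℕ) : ℝ) = ((⌊(z + r) / p⌋ + 1 - ⌊(z - r) / p⌋ : ℤ) : ℝ) := by
        have : ((⌊(z + r) / p⌋ + 1 - ⌊(z - r) / p⌋).toNat : ℤ) = ⌊(z + r) / p⌋ + 1 - ⌊(z - r) / p⌋ :=
          Int.toNat_of_nonneg (by omega)
        exact_mod_cast this
      rw [a4]
      push_cast
      have a5 : (z + r) / p - (z - r) / p = 2 * (r / p) := by ring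
      linarith
    exact le_trans (by exact_mod_cast h1) h2
  calc ((Finset.univ.filter fun i : 𝒦 => |x i - z| ≤ r).card : ℝ) * w ≤ 4 * (r / p) * w :=
        mul_le_mul_of_nonneg_right hcard hw
    _ = 4 * w / p * r := by ring

end Claimed.Agent.R252
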