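import Claimed.Agent.R252.Fit.Contract

/-!
# Row 252, unit FIT: EXIT `fit_main` = FIT(d) of report 822, weighted finite form, NOT normalised      (architect: helper9)

CONSUMER (Sec 5, P5.4 l.573-634).  Populations: times `i : I` (weights `μ`, position `u i`, value `φ i`), tangential samples `j : J` (weights `lam`, position `v j ∈ [0,1]`, value `G j`).
`K ≥ 1` is the slack (`K ≤ p^(-η)`).  Only BOUNDEDNESS of `φ` is used (`|φ i - φ₀| ≤ 2K`), not its Lipschitz comparison; `(u₀, φ₀)` is any base point with `|u i - u₀| ≤ 1`.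
`θ` depends only on `d`.  The density of the fitted times is `≥ 1/(8K)` (no `ε` is needed).
-/

set_option autoImplicit false

namespace Claimed.Agent.R252

open Finset Classical

theorem fit_main (d : ℝ) (hd0 : 0 ≤ d) (hd : d < 1) :
    ∃ θ : ℝ, 0 < θ ∧ ∃ η p₀ : ℝ, 0 < η ∧ 0 < p₀ ∧ ∀ p : ℝ, 0 < p → p < p₀ → ∀ K : ℝ, 1 ≤ K → K ≤ p ^ (-η) →
      ∀ (I J : Type) [Fintype I] [Fintype J] (μ : I → ℝ) (lam : J → ℝ) (u φ : I → ℝ) (v G : J → ℝ) (u₀ φ₀ : ℝ)
        (X : I → J → J → Prop) (S : Set ℝ),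
        (∀ i, 0 ≤ μ i) → (∀ j, 0 ≤ lam j) → ∑ i, μ i ≤ 1 → ∑ j, lam j ≤ 1 →
        (∀ i, |u i - u₀| ≤ 1) → (∀ i, |φ i - φ₀| ≤ 2 * K) → (∀ j, 0 ≤ v j ∧ v j ≤ 1) →
        FitFr μ u K p → FitFr lam v K p → (∀ j j', |G j - G j'| ≤ K * (|v j - v j'| + p)) → FitHer S K d p →
        (∀ i j j', X i j j' → ∃ σ ∈ S, |(u i - u₀) * (G j - G j') - (φ i - φ₀) * (v j - v j') - σ| ≤ K * p) →
        1 / K ≤ ∑ j, ∑ j', lam j * lam j' * ∑ i with X i j j', μ i →
        ∃ a : ℝ, |a| ≤ 4 * K ∧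
          1 / (8 * K) ≤ ∑ i with ((∃ j j', X i j j') ∧ |φ i - φ₀ - a * (u i - u₀)| ≤ p ^ θ), μ i := by
  obtain ⟨θ, hθ, η, p₀, hη, hp₀, H⟩ := fit_core d hd0 hd
  refine ⟨θ, hθ, η, min p₀ 1, hη, by positivity, ?_⟩
  intro p hp0 hp K hK1 hK I J _ _ μ lam u φ v G u₀ φ₀ X S hμ0 hl0 hμ1 hl1 hu hφ hv hfμ hfl hlip hS hnear hmass
  have hpp : p < p₀ := lt_of_lt_of_le hp (min_le_left _ _)
  have hp1 : p < 1 := lt_of_lt_of_le hp (min_le_right _ _)
  have hK0 : 0 < K := by linarith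
  -- `J` is nonempty
  have hJ : Nonempty J := by
    by_contra hcon
    rw [not_nonempty_iff] at hcon
    rw [Finset.univ_eq_empty, Finset.sum_empty] at hmass
    have : 0 < 1 / K := by positivity
    linarith
  obtain ⟨j₁⟩ := hJ
  obtain ⟨D, hDdef⟩ : ∃ D : FitCore I J, D = ⟨μ, lam, fun i => u i - u₀, fun i => (φ i - φ₀) / K, v,
    fun j => (G j - G j₁) / K, X, S, K⟩ := ⟨_, rfl⟩
  have hFe : ∀ i j j', D.Λ * D.F i j j' = (u i - u₀) * (G j - G j') - (φ i - φ₀) * (v j - v j') := by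
    intro i j j'
    rw [hDdef]
    simp only [FitCore.F]
    field_simp
    ring
  have hlip' : ∀ j j', |(G j - G j₁) / K - (G j' - G j₁) / K| ≤ |v j - v j'| + p := by
    intro j j'
    have e : (G j - G j₁) / K - (G j' - G j₁) / K = (G j - G j') / K := by ring
    rw [e, abs_div, abs_of_pos hK0, div_le_iff₀ hK0, mul_comm]
    exact hlip j j'
  have hOk : D.Ok p K d := by
    rw [hDdef]
    refine ⟨hμ0, hl0, hμ1, hl1, hu, fun i => ?_, hv, fun j => ?_, fun z r hr => ?_, hfl, hlip', hK1, le_rfl, hS,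
      fun i j j' hx => ?_⟩
    · show |(φ i - φ₀) / K| ≤ 2
      rw [abs_div, abs_of_pos hK0, div_le_iff₀ hK0]
      exact hφ i
    · show |(G j - G j₁) / K| ≤ 2
      have h1 := hlip' j j₁
      rw [sub_self, zero_div, sub_zero] at h1
      have h2 : |v j - v j₁| ≤ 1 := by
        rw [abs_le]
        constructor <;> linarith [(hv j).1, (hv j).2, (hv j₁).1, (hv j₁).2]
      linarith
    · refine le_trans (le_of_eq ?_) (hfμ (z + u₀) r hr)
      refine Finset.sum_congr ?_ fun _ _ => rfl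
      ext i
      simp only [Finset.mem_filter, Finset.mem_univ, true_and]
      rw [show u i - u₀ - z = u i - (z + u₀) by ring]
    · have := hFe i j j'
      rw [hDdef] at this
      rw [this]
      exact hnear i j j' hx
  have hmD : D.mass = ∑ j, ∑ j', lam j * lam j' * ∑ i with X i j j', μ i := by rw [hDdef]; rfl
  obtain ⟨s, hs, hfin⟩ := H p hp0 hpp K hK1 hK I J D hOk (hmD ▸ hmass)
  refine ⟨K * s, ?_, ?_⟩
  · rw [abs_mul, abs_of_pos hK0]; nlinarith
  · have h1 : 1 / (8 * K) ≤ D.mass / 8 := by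
      rw [hmD]
      calc 1 / (8 * K) = 1 / K / 8 := by field_simp
        _ ≤ _ := by gcongr
    refine h1.trans (hfin.trans (le_of_eq ?_))
    rw [hDdef]
    refine Finset.sum_congr ?_ fun _ _ => rfl
    ext i
    simp only [Finset.mem_filter, Finset.mem_univ, true_and]
    have e : K * |(φ i - φ₀) / K - s * (u i - u₀)| = |φ i - φ₀ - K * s * (u i - u₀)| := by
      rw [← abs_of_pos hK0, ← abs_mul, abs_of_pos hK0]
      congr 1
      field_simp
    rw [e]

end Claimed.Agent.R252
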