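import Claimed.Agent.R252.Fit.FjTimes
import Claimed.Agent.R252.Fit.Main

/-!
# Row 252, unit FIT, adaptor `k5_FJ`: glue `fitj_core` (discretisation + `fit_main` at one scale)      (helper9)
-/

set_option autoImplicit false

namespace Claimed.Agent.R252

open MeasureTheory Set Classical

/-- the conclusion of `fit_main` at one scale `p` and one slack `K` -/
def FitMainAt (d θ p K : ℝ) : Prop :=
  ∀ (I J : Type) [Fintype I] [Fintype J] (μ : I → ℝ) (lam : J → ℝ) (u φ : I → ℝ) (v G : J → ℝ) (u₀ φ₀ : ℝ)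
    (X : I → J → J → Prop) (S : Set ℝ),
    (∀ i, 0 ≤ μ i) → (∀ j, 0 ≤ lam j) → ∑ i, μ i ≤ 1 → ∑ j, lam j ≤ 1 →
    (∀ i, |u i - u₀| ≤ 1) → (∀ i, |φ i - φ₀| ≤ 2 * K) → (∀ j, 0 ≤ v j ∧ v j ≤ 1) →
    FitFr μ u K p → FitFr lam v K p → (∀ j j', |G j - G j'| ≤ K * (|v j - v j'| + p)) → FitHer S K d p →
    (∀ i j j', X i j j' → ∃ σ ∈ S, |(u i - u₀) * (G j - G j') - (φ i - φ₀) * (v j - v j') - σ| ≤ K * p) →
    1 / K ≤ ∑ j, ∑ j', lam j * lam j' * ∑ i with X i j j', μ i →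
    ∃ a : ℝ, |a| ≤ 4 * K ∧
      1 / (8 * K) ≤ ∑ i with ((∃ j j', X i j j') ∧ |φ i - φ₀ - a * (u i - u₀)| ≤ p ^ θ), μ i

variable {Λ : Type} [MeasurableSpace Λ] {ν : Measure Λ} {z v g : Λ → ℝ} {U : Set (Λ × ℝ)} {φ : ℝ → ℝ} {L : Λ × ℝ → ℝ}
  {p K d : ℝ}

theorem fitj_fr_mono {ι : Type} [Fintype ι] {w x : ι → ℝ} {C C' p : ℝ} (hp : 0 < p) (hC : C ≤ C')
    (h : FitFr w x C p) : FitFr w x C' p := by
  intro z r hr
  refine (h z r hr).trans ?_
  have : 0 ≤ r := hp.le.trans hr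
  gcongr

theorem fitj_her_mono {S : Set ℝ} {C C' d p : ℝ} (hp : 0 < p) (hC : C ≤ C') (h : FitHer S C d p) : FitHer S C' d p := by
  intro c s L hs hsL hL
  obtain ⟨cov, h1, h2⟩ := h c s L hs hsL hL
  refine ⟨cov, h1.trans ?_, h2⟩
  have hs0 : 0 < s := lt_of_lt_of_le hp hs
  have : 0 ≤ (L / s) ^ d := Real.rpow_nonneg (div_nonneg (hs0.le.trans hsL) hs0.le) _
  gcongr

/-- positive collision mass: the time is active with positive mass -/
theorem fitj_pos [IsFiniteMeasure ν] (u₀ u : ℝ) (β : ℤ) (h : 0 < fitjPair ν U L p K u₀ β u) :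
    0 < ν.real (k5_sec U u) ∧ ∃ l, (l, u₀) ∈ U ∧ (l, u) ∈ U := by
  unfold fitjPair at h
  obtain ⟨b, -, hb⟩ := Finset.exists_ne_zero_of_sum_ne_zero h.ne'
  have h2 : ν.real (fitjA U L p u₀ u b) ≠ 0 := right_ne_zero_of_mul hb
  have h3 : 0 < ν.real (fitjA U L p u₀ u b) := lt_of_le_of_ne measureReal_nonneg h2.symm
  have hsub : fitjA U L p u₀ u b ⊆ k5_sec U u := fun l hl => hl.2.1
  refine ⟨lt_of_lt_of_le h3 (measureReal_mono hsub), ?_⟩
  have hne : (fitjA U L p u₀ u b).Nonempty := by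
    by_contra hcon
    rw [Set.not_nonempty_iff_eq_empty] at hcon
    rw [hcon] at h2
    simp at h2
  obtain ⟨l, hl⟩ := hne
  exact ⟨l, hl.1, hl.2.1⟩

theorem fitj_bin_iff {p x : ℝ} {j : ℤ} (hp : 0 < p) (h : k5_bin p x = j) : (j : ℝ) * p ≤ x ∧ x < ((j : ℝ) + 1) * p := by
  unfold k5_bin at h
  rw [Int.floor_eq_iff] at h
  constructor
  · have := h.1
    rwa [le_div_iff₀ hp] at this
  · have := h.2
    rwa [div_lt_iff₀ hp] at this

theorem fitj_jcard {p K : ℝ} (hp : 0 < p) (hp1 : p ≤ 1) (hK : 1 ≤ K) :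
    ((Finset.Icc ⌊-K / p⌋ ⌊K / p⌋).card : ℝ) ≤ 4 * K / p := by
  rw [Int.card_Icc]
  have h1 : (1 : ℝ) ≤ K / p := by rw [le_div_iff₀ hp]; linarith
  have h2 : ((⌊K / p⌋ : ℤ) : ℝ) ≤ K / p := Int.floor_le _
  have h3 : -K / p < ((⌊-K / p⌋ : ℤ) : ℝ) + 1 := Int.lt_floor_add_one _
  have h4 : (0 : ℤ) ≤ ⌊K / p⌋ + 1 - ⌊-K / p⌋ := by
    have : ⌊-K / p⌋ ≤ ⌊K / p⌋ := Int.floor_le_floor (by gcongr; linarith)
    omega
  have h5 : (((⌊K / p⌋ + 1 - ⌊-K / p⌋).toNat : ℕ) : ℝ) = ((⌊K / p⌋ + 1 - ⌊-K / p⌋ : ℤ) : ℝ) := by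
    rw [← Int.cast_natCast, Int.toNat_of_nonneg h4]
  rw [h5]
  push_cast
  have e1 : -K / p = -(K / p) := by ring
  have e2 : 4 * K / p = 4 * (K / p) := by ring
  linarith

theorem fitj_mass_swap {I J : Type} [Fintype I] [Fintype J] (X : I → J → J → Prop) (a b N : ℝ) (ha : 0 ≤ a) (hb : 0 ≤ b)
    (hN : ∀ i, N ≤ (((Finset.univ : Finset (J × J)).filter fun x => X i x.1 x.2).card : ℝ)) :
    (Fintype.card I : ℝ) * N * (a * a * b) ≤ ∑ j, ∑ j', a * a * ∑ i with X i j j', b := by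
  have e : ∑ j, ∑ j', a * a * ∑ i with X i j j', b
      = ∑ i, (a * a * b) * (((Finset.univ : Finset (J × J)).filter fun x => X i x.1 x.2).card : ℝ) := by
    have e1 : ∀ i, (((Finset.univ : Finset (J × J)).filter fun x => X i x.1 x.2).card : ℝ)
        = ∑ j, ∑ j', if X i j j' then (1 : ℝ) else 0 := by
      intro i
      rw [Finset.card_filter, Fintype.sum_prod_type]
      push_cast
      rfl
    simp_rw [e1, Finset.sum_filter, Finset.mul_sum]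
    symm
    rw [Finset.sum_comm]
    refine Finset.sum_congr rfl fun j _ => ?_
    rw [Finset.sum_comm]
    refine Finset.sum_congr rfl fun j' _ => ?_
    refine Finset.sum_congr rfl fun i _ => ?_
    split_ifs <;> ring
  rw [e]
  have h1 : ∑ _i : I, (a * a * b) * N ≤ ∑ i, (a * a * b) * (((Finset.univ : Finset (J × J)).filter fun x => X i x.1 x.2).card : ℝ) := by
    refine Finset.sum_le_sum fun i _ => ?_
    have := hN i
    have h0 : 0 ≤ a * a * b := by positivity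
    gcongr
  refine le_trans (le_of_eq ?_) h1
  rw [Finset.sum_const, Finset.card_univ, nsmul_eq_mul]
  ring

/-- discretisation + `fit_main` at one scale -/
theorem fitj_core [IsFiniteMeasure ν] (h : FitjOk ν z v g U φ L p K d) (hp : 0 < p) (hp1 : p ≤ 1) (hK : 1 ≤ K)
    (θ Kn : ℝ) (hKn : 2 * 10 ^ 9 * K ^ 36 ≤ Kn) (hF : FitMainAt d θ p Kn) :
    ∃ c0 c1 : ℝ, |c0| ≤ 2 * Kn ∧
      1 / (16 * Kn ^ 2) ≤ volume.real {u | 0 < ν.real (k5_sec U u) ∧ |φ u - (c0 * u + c1)| ≤ p ^ θ + 4 * Kn * p} := by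
  have hK0 : 0 < K := by linarith
  have hK36 : 1 ≤ K ^ 36 := one_le_pow₀ hK
  have hK2 : K ^ 2 ≤ K ^ 36 := pow_le_pow_right₀ hK (by norm_num)
  have hK1 : K ≤ K ^ 36 := le_self_pow₀ hK (by norm_num)
  have hK20 : K ^ 20 ≤ K ^ 36 := pow_le_pow_right₀ hK (by norm_num)
  have hKn0 : 0 < Kn := by linarith
  obtain ⟨u₀, β₀, T, hTm, hTI, hTvol, hTpair⟩ := fitj_times h hp hp1 hK
  obtain ⟨τ, hτ⟩ : ∃ τ : ℝ, τ = 1 / (25600 * K ^ 20) := ⟨_, rfl⟩
  have hτ0 : 0 < τ := by rw [hτ]; positivity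
  rw [← hτ] at hTvol
  obtain ⟨𝒦, hc1, hc2, hbin⟩ := fitj_bins T hTm hTI p τ hp hp1 hτ0 hTvol
  have hact : ∀ u ∈ T, 0 < ν.real (k5_sec U u) ∧ ∃ l, (l, u₀) ∈ U ∧ (l, u) ∈ U := fun u hu =>
    fitj_pos u₀ u β₀ (lt_of_lt_of_le (by positivity) (hTpair u hu))
  -- one time per good bin
  have hne : ∀ k ∈ 𝒦, ∃ u, u ∈ T ∩ Ico ((k : ℝ) * p) (((k : ℝ) + 1) * p) := by
    intro k hk
    by_contra hcon
    have he : T ∩ Ico ((k : ℝ) * p) (((k : ℝ) + 1) * p) = ∅ := by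
      rw [Set.eq_empty_iff_forall_notMem]
      intro u hu
      exact hcon ⟨u, hu⟩
    have h1 := hbin k hk
    rw [he] at h1
    simp only [measureReal_empty] at h1
    have : 0 < τ * p / 4 := by positivity
    linarith
  have hne' : ∀ k : 𝒦, ∃ u, u ∈ T ∩ Ico (((k : ℤ) : ℝ) * p) ((((k : ℤ) : ℝ) + 1) * p) := fun k => hne k k.2
  choose uk huk using hne'
  -- one trajectory per occupied `v`-bin
  obtain ⟨𝒥, h𝒥⟩ : ∃ 𝒥 : Finset ℤ, 𝒥 = (Finset.Icc ⌊-K / p⌋ ⌊K / p⌋).filter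
      (fun j => ∃ l, (l, u₀) ∈ U ∧ k5_bin p (v l) = j) := ⟨_, rfl⟩
  have hJsub : ∀ j ∈ 𝒥, ∃ l, (l, u₀) ∈ U ∧ k5_bin p (v l) = j := by
    intro j hj
    rw [h𝒥, Finset.mem_filter] at hj
    exact hj.2
  have hJex : ∀ j : 𝒥, ∃ l, (l, u₀) ∈ U ∧ k5_bin p (v l) = (j : ℤ) := fun j => hJsub j j.2
  choose lj hlj using hJex
  have hJmem : ∀ l, (l, u₀) ∈ U → k5_bin p (v l) ∈ 𝒥 := by
    intro l hl
    rw [h𝒥, Finset.mem_filter, Finset.mem_Icc]
    have hv := (h.bd l u₀ hl).2.2.2.1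
    rw [abs_le] at hv
    refine ⟨⟨Int.floor_le_floor (by gcongr; linarith), Int.floor_le_floor (by gcongr; linarith)⟩, l, hl, rfl⟩
  have hJcard : (𝒥.card : ℝ) ≤ 4 * K / p := by
    refine le_trans ?_ (fitj_jcard hp hp1 hK)
    rw [h𝒥]
    exact_mod_cast Finset.card_filter_le _ _
  -- the hypotheses of `fit_main`
  have H3 : ∑ _i : 𝒦, p / 2 ≤ 1 := by
    rw [Finset.sum_const, Finset.card_univ, Fintype.card_coe, nsmul_eq_mul]
    calc (𝒦.card : ℝ) * (p / 2) ≤ 2 / p * (p / 2) := by gcongr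
      _ = 1 := by field_simp
  have H4 : ∑ _j : 𝒥, p / (4 * K) ≤ 1 := by
    rw [Finset.sum_const, Finset.card_univ, Fintype.card_coe, nsmul_eq_mul]
    calc (𝒥.card : ℝ) * (p / (4 * K)) ≤ 4 * K / p * (p / (4 * K)) := by gcongr
      _ = 1 := by field_simp
  have H5 : ∀ i : 𝒦, |uk i - u₀| ≤ 1 := by
    intro i
    obtain ⟨-, l, hl0, hl⟩ := hact (uk i) (huk i).1
    have h1 := h.bd l u₀ hl0
    have h2 := h.bd l (uk i) hl
    rw [abs_le]
    constructor <;> linarith [h1.1, h1.2.1, h2.1, h2.2.1]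
  have H6 : ∀ i : 𝒦, |2 * K * φ (uk i) - 2 * K * φ u₀| ≤ 2 * Kn := by
    intro i
    obtain ⟨-, l, hl0, hl⟩ := hact (uk i) (huk i).1
    have h1 := (h.bd l u₀ hl0).2.2.2.2.2
    have h2 := (h.bd l (uk i) hl).2.2.2.2.2
    rw [← mul_sub, abs_mul, abs_of_pos (by positivity : 0 < 2 * K)]
    have h3 : |φ (uk i) - φ u₀| ≤ 2 * K := by
      rw [abs_le] at h1 h2 ⊢
      constructor <;> linarith [h1.1, h1.2, h2.1, h2.2]
    calc 2 * K * |φ (uk i) - φ u₀| ≤ 2 * K * (2 * K) := by gcongr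
      _ = 4 * K ^ 2 := by ring
      _ ≤ 2 * Kn := by linarith
  have H7 : ∀ j : 𝒥, 0 ≤ (v (lj j) + K) / (2 * K) ∧ (v (lj j) + K) / (2 * K) ≤ 1 := by
    intro j
    have hv := (h.bd (lj j) u₀ (hlj j).1).2.2.2.1
    rw [abs_le] at hv
    constructor
    · apply div_nonneg <;> linarith
    · rw [div_le_one (by positivity)]; linarith
  have H8 : FitFr (fun _ : 𝒦 => p / 2) uk Kn p := by
    refine fitj_fr_mono hp ?_ (fitj_frost 𝒦 uk p (p / 2) hp (by positivity) fun k => ⟨(huk k).2.1, (huk k).2.2⟩)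
    have : 4 * (p / 2) / p = 2 := by field_simp; norm_num
    rw [this]; linarith
  have H9 : FitFr (fun _ : 𝒥 => p / (4 * K)) (fun j => (v (lj j) + K) / (2 * K)) Kn p := by
    intro z0 r hr
    have hr0 : 0 ≤ r := hp.le.trans hr
    have h1 := fitj_frost 𝒥 (fun j => v (lj j)) p (p / (4 * K)) hp (by positivity)
      (fun j => fitj_bin_iff hp (hlj j).2) (2 * K * z0 - K) (2 * K * r) (by nlinarith)
    refine le_trans (le_of_eq ?_) (h1.trans ?_)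
    · refine Finset.sum_congr ?_ fun _ _ => rfl
      ext j
      simp only [Finset.mem_filter, Finset.mem_univ, true_and]
      have e : v (lj j) - (2 * K * z0 - K) = 2 * K * ((v (lj j) + K) / (2 * K) - z0) := by field_simp; ring
      rw [e, abs_mul, abs_of_pos (by positivity : 0 < 2 * K)]
      constructor
      · intro h'; gcongr
      · intro h'; exact le_of_mul_le_mul_left h' (by positivity)
    · have e : 4 * (p / (4 * K)) / p * (2 * K * r) = 2 * r := by field_simp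
      rw [e]
      have : (2 : ℝ) ≤ Kn := by linarith
      gcongr
  have H10 : ∀ j j' : 𝒥, |g (lj j) - g (lj j')| ≤ Kn * (|(v (lj j) + K) / (2 * K) - (v (lj j') + K) / (2 * K)| + p) := by
    intro j j'
    have h1 := h.lipg (lj j) u₀ (lj j') u₀ (hlj j).1 (hlj j').1
    have e : v (lj j) - v (lj j') = 2 * K * ((v (lj j) + K) / (2 * K) - (v (lj j') + K) / (2 * K)) := by field_simp; ring
    rw [e, abs_mul, abs_of_pos (by positivity : 0 < 2 * K)] at h1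
    obtain ⟨w, hw⟩ : ∃ w, w = |(v (lj j) + K) / (2 * K) - (v (lj j') + K) / (2 * K)| := ⟨_, rfl⟩
    rw [← hw] at h1 ⊢
    have hw0 : 0 ≤ w := hw ▸ abs_nonneg _
    have h2 : 2 * K ^ 2 ≤ Kn := by linarith
    have h3 : K ≤ Kn := by linarith
    calc |g (lj j) - g (lj j')| ≤ K * (2 * K * w + p) := h1
      _ = 2 * K ^ 2 * w + K * p := by ring
      _ ≤ Kn * w + Kn * p := by gcongr
      _ = Kn * (w + p) := by ring
  have H11 : FitHer {s : ℝ | ∃ l', (l', u₀) ∈ U ∧ s = L (l', u₀) - β₀ * p} Kn d p :=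
    fitj_her_mono hp (by linarith) (fitj_her h hp u₀ β₀)
  have H12 : ∀ (i : 𝒦) (j j' : 𝒥), FitjWit U v L p u₀ β₀ (uk i) j j' →
      ∃ σ ∈ {s : ℝ | ∃ l', (l', u₀) ∈ U ∧ s = L (l', u₀) - β₀ * p},
        |(uk i - u₀) * (g (lj j) - g (lj j')) - (2 * K * φ (uk i) - 2 * K * φ u₀) *
          ((v (lj j) + K) / (2 * K) - (v (lj j') + K) / (2 * K)) - σ| ≤ Kn * p := by
    intro i j j' hX
    obtain ⟨σ, hσ, hb⟩ := fitj_near h hp hK u₀ (uk i) β₀ j j' hX (lj j) (lj j') (hlj j).1 (hlj j').1 (hlj j).2 (hlj j').2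
    refine ⟨σ, hσ, ?_⟩
    have e : (2 * K * φ (uk i) - 2 * K * φ u₀) * ((v (lj j) + K) / (2 * K) - (v (lj j') + K) / (2 * K))
        = (φ (uk i) - φ u₀) * (v (lj j) - v (lj j')) := by field_simp; ring
    rw [e]
    refine hb.trans ?_
    have : 14 * K ≤ Kn := by linarith
    gcongr
  have hN : ∀ i : 𝒦, 1 / (800 * K ^ 14 * p ^ 2) ≤
      (((Finset.univ : Finset (𝒥 × 𝒥)).filter fun x => FitjWit U v L p u₀ β₀ (uk i) x.1 x.2).card : ℝ) := by
    intro i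
    obtain ⟨Cs, hCs, hW⟩ := fitj_cells h hp hp1 hK u₀ (uk i) β₀ _ (hTpair (uk i) (huk i).1)
    have e : p ^ (2 * d) / (800 * K ^ 12) / (K ^ 2 * p ^ (2 + 2 * d)) = 1 / (800 * K ^ 14 * p ^ 2) := by
      rw [Real.rpow_add hp, Real.rpow_two]
      have : 0 < p ^ (2 * d) := Real.rpow_pos_of_pos hp _
      field_simp
    rw [e] at hCs
    refine hCs.trans ?_
    have hsub : Cs ⊆ ((Finset.univ : Finset (𝒥 × 𝒥)).filter fun x => FitjWit U v L p u₀ β₀ (uk i) x.1 x.2).image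
        (fun x => (((x.1 : ℤ)), ((x.2 : ℤ)))) := by
      intro x hx
      have hw := hW x hx
      obtain ⟨l, l', h1, -, h3, -, h5, h6, -, -⟩ := hw
      have m1 : x.1 ∈ 𝒥 := h5 ▸ hJmem l h1
      have m2 : x.2 ∈ 𝒥 := h6 ▸ hJmem l' h3
      rw [Finset.mem_image]
      refine ⟨(⟨x.1, m1⟩, ⟨x.2, m2⟩), ?_, rfl⟩
      rw [Finset.mem_filter]
      exact ⟨Finset.mem_univ _, hW x hx⟩
    exact_mod_cast (Finset.card_le_card hsub).trans Finset.card_image_le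
  have H13 : 1 / Kn ≤ ∑ j : 𝒥, ∑ j' : 𝒥, p / (4 * K) * (p / (4 * K)) *
      ∑ i : 𝒦 with FitjWit U v L p u₀ β₀ (uk i) j j', p / 2 := by
    refine le_trans ?_ (fitj_mass_swap (fun (i : 𝒦) (j j' : 𝒥) => FitjWit U v L p u₀ β₀ (uk i) j j') (p / (4 * K)) (p / 2)
      (1 / (800 * K ^ 14 * p ^ 2)) (by positivity) (by positivity) hN)
    rw [Fintype.card_coe]
    calc 1 / Kn ≤ 1 / (2 * 10 ^ 9 * K ^ 36) := by gcongr
      _ ≤ τ / (2 * p) * (1 / (800 * K ^ 14 * p ^ 2)) * (p / (4 * K) * (p / (4 * K)) * (p / 2)) := by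
        rw [hτ]
        have e : 1 / (25600 * K ^ 20) / (2 * p) * (1 / (800 * K ^ 14 * p ^ 2)) * (p / (4 * K) * (p / (4 * K)) * (p / 2))
            = 1 / (1310720000 * K ^ 36) := by field_simp; norm_num
        rw [e]
        gcongr
        norm_num
      _ ≤ _ := by gcongr
  obtain ⟨a, ha, hfit⟩ := hF 𝒦 𝒥 (fun _ => p / 2) (fun _ => p / (4 * K)) uk (fun k => 2 * K * φ (uk k))
    (fun j => (v (lj j) + K) / (2 * K)) (fun j => g (lj j)) u₀ (2 * K * φ u₀)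
    (fun i j j' => FitjWit U v L p u₀ β₀ (uk i) j j') {s : ℝ | ∃ l', (l', u₀) ∈ U ∧ s = L (l', u₀) - β₀ * p}
    (fun _ => by positivity) (fun _ => by positivity) H3 H4 H5 H6 H7 H8 H9 H10 H11 H12 H13
  obtain ⟨fit, hfitdef⟩ : ∃ fit : Finset 𝒦, fit = Finset.univ.filter (fun i : 𝒦 =>
      (∃ j j' : 𝒥, FitjWit U v L p u₀ β₀ (uk i) j j') ∧ |2 * K * φ (uk i) - 2 * K * φ u₀ - a * (uk i - u₀)| ≤ p ^ θ) :=
    ⟨_, rfl⟩
  have hfit' : 1 / (8 * Kn) ≤ ∑ _i ∈ fit, p / 2 := by rw [hfitdef]; exact hfit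
  rw [Finset.sum_const, nsmul_eq_mul] at hfit'
  have hc0 : |a / (2 * K)| ≤ 2 * Kn := by
    rw [abs_div, abs_of_pos (by positivity : 0 < 2 * K), div_le_iff₀ (by positivity)]
    nlinarith
  refine ⟨a / (2 * K), φ u₀ - a / (2 * K) * u₀, hc0, ?_⟩
  obtain ⟨c0, hc0def⟩ : ∃ c0, c0 = a / (2 * K) := ⟨_, rfl⟩
  rw [← hc0def] at hc0 ⊢
  obtain ⟨Sf, hSf⟩ : ∃ Sf : Set ℝ, Sf = {u | 0 < ν.real (k5_sec U u) ∧
      |φ u - (c0 * u + (φ u₀ - c0 * u₀))| ≤ p ^ θ + 4 * Kn * p} := ⟨_, rfl⟩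
  rw [← hSf]
  have hSfI : Sf ⊆ Icc 0 1 := by
    intro u hu
    rw [hSf] at hu
    have hpos := hu.1
    have hne2 : (k5_sec U u).Nonempty := by
      by_contra hcon
      rw [Set.not_nonempty_iff_eq_empty] at hcon
      rw [hcon] at hpos
      simp at hpos
    obtain ⟨l, hl⟩ := hne2
    exact ⟨(h.bd l u hl).1, (h.bd l u hl).2.1⟩
  have hSfin : volume Sf ≠ ⊤ := ne_top_of_le_ne_top (by simp) (measure_mono hSfI)
  have hS : ∀ k ∈ fit.map (Function.Embedding.subtype _), T ∩ Ico ((k : ℝ) * p) (((k : ℝ) + 1) * p) ⊆ Sf := by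
    intro k hk u hu
    rw [Finset.mem_map] at hk
    obtain ⟨i, hi, rfl⟩ := hk
    rw [hfitdef, Finset.mem_filter] at hi
    have hi2 := hi.2.2
    simp only [Function.Embedding.coe_subtype] at hu
    obtain ⟨hpos, l, -, hl⟩ := hact u hu.1
    obtain ⟨-, l', -, hl'⟩ := hact (uk i) (huk i).1
    have hd1 : |u - uk i| ≤ p := by
      have a1 := hu.2.1
      have a2 := hu.2.2
      have a3 := (huk i).2.1
      have a4 := (huk i).2.2
      rw [abs_le]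
      constructor <;> linarith
    have hφ1 : |φ u - φ (uk i)| ≤ 2 * K * p := by
      refine (h.lipφ l u l' (uk i) hl hl').trans ?_
      calc K * (|u - uk i| + p) ≤ K * (p + p) := by gcongr
        _ = 2 * K * p := by ring
    have hpθ : 0 ≤ p ^ θ := Real.rpow_nonneg hp.le _
    have hφ2 : |φ (uk i) - φ u₀ - c0 * (uk i - u₀)| ≤ p ^ θ := by
      have e : 2 * K * φ (uk i) - 2 * K * φ u₀ - a * (uk i - u₀) = 2 * K * (φ (uk i) - φ u₀ - c0 * (uk i - u₀)) := by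
        rw [hc0def]; field_simp
      rw [e, abs_mul, abs_of_pos (by positivity : 0 < 2 * K)] at hi2
      have := abs_nonneg (φ (uk i) - φ u₀ - c0 * (uk i - u₀))
      nlinarith
    have hφ3 : |c0 * (u - uk i)| ≤ 2 * Kn * p := by
      rw [abs_mul]
      gcongr
    rw [hSf]
    refine ⟨hpos, ?_⟩
    have e : φ u - (c0 * u + (φ u₀ - c0 * u₀))
        = (φ u - φ (uk i)) + (φ (uk i) - φ u₀ - c0 * (uk i - u₀)) - c0 * (u - uk i) := by ring
    rw [e]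
    have hKKn : K * p ≤ Kn * p := by
      have : K ≤ Kn := by linarith
      gcongr
    calc |(φ u - φ (uk i)) + (φ (uk i) - φ u₀ - c0 * (uk i - u₀)) - c0 * (u - uk i)|
        ≤ |φ u - φ (uk i)| + |φ (uk i) - φ u₀ - c0 * (uk i - u₀)| + |c0 * (u - uk i)| :=
          (abs_sub _ _).trans (add_le_add_left (abs_add_le _ _) _)
      _ ≤ p ^ θ + 4 * Kn * p := by linarith
  have h1 := fitj_union T Sf hTm p hp (fit.map (Function.Embedding.subtype _)) hS hSfin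
  have h2 : (fit.card : ℝ) * (τ * p / 4)
      ≤ ∑ k ∈ fit.map (Function.Embedding.subtype _), volume.real (T ∩ Ico ((k : ℝ) * p) (((k : ℝ) + 1) * p)) := by
    have h3 := Finset.card_nsmul_le_sum (fit.map (Function.Embedding.subtype _))
      (fun k : ℤ => volume.real (T ∩ Ico ((k : ℝ) * p) (((k : ℝ) + 1) * p))) (τ * p / 4) (by
        intro k hk
        rw [Finset.mem_map] at hk
        obtain ⟨i, -, rfl⟩ := hk
        exact hbin i i.2)
    rw [Finset.card_map, nsmul_eq_mul] at h3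
    exact h3
  have hτK : 1 / Kn ≤ τ := by
    rw [hτ]
    have : 25600 * K ^ 20 ≤ Kn := by linarith
    gcongr
  calc 1 / (16 * Kn ^ 2) = 1 / (8 * Kn) * (1 / Kn / 2) := by field_simp; norm_num
    _ ≤ (fit.card : ℝ) * (p / 2) * (τ / 2) := by gcongr
    _ = (fit.card : ℝ) * (τ * p / 4) := by ring
    _ ≤ _ := h2.trans h1

end Claimed.Agent.R252
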