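import Claimed.Agent.R252.S5.Defs
import Claimed.Agent.R252.Fit.Defs

/-!
# Row 252, unit FIT, ADAPTOR `k5_FJ` ⇐ `fit_main`: DEFINITIONS      (architect: helper9; prefix `fitj_` / `Fitj`)

`k5_FJ d θ` (S5/Defs.lean, consumer form, measure model, data of 05 l.518-545) is derived from `fit_main` (Fit/Main.lean, triples) by the collision argument of 05 l.546-571:
1. POPULAR BASE TIME `u₀` (Cauchy-Schwarz): the labels `U₀ = {(l,u) ∈ U : (l,u₀) ∈ U}` have mass `≥ 1/K³`.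
2. COLLISIONS at the time `u`: pairs `(l,l')` labelled at `u₀` and `u`, `L(l,u), L(l',u)` in the same `p`-bin, `L(l,u₀)` in the bin `β₀`.  NO product measure on `Λ × Λ`:
   the pair mass is the finite sum `fitjPair = ∑_b ν(A^β₀_b(u)) ν(A_b(u))` over the bins `b` of the value at `u`.
   lower bound `∑_β fitjPair ≥ M₀(u)²/N_b` (`N_b = 9K³p^(-d)` occupied bins), upper bound `fitjPair ≤ 9K⁴p^(2d)`  ⟹ a bin `β₀` and a DENSE set `T` of times with `fitjPair ≥ p^(2d)/(648K¹²)`.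
3. CELLS at a fixed time `u ∈ T`: a cell (`p`-bins `j, j'` of `v_l, v_l'`) carries pair mass `≤ K²p^(2+2d)`, so `≥ p^(-2)/(648K¹⁴)` cells are occupied (`FitjWit`).
4. On a witness:  `(u-u₀)(g_l-g_l') - (φ(u)-φ(u₀))(v_l-v_l') = L(l',u₀) - β₀p + O(6Kp)`:  near the translate `S` of the starting support, which is `FitHer S K d p`.
5. DISCRETISE: one time per good `p`-bin of `T`, one trajectory per occupied `v`-bin, `fit_main`, extension of the fit to all `u ∈ T` of the fitted bins by the Lipschitz comparison of `φ`.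
-/

set_option autoImplicit false

namespace Claimed.Agent.R252

open MeasureTheory Set

/-- the hypotheses of `k5_FJ`, bundled -/
structure FitjOk {Λ : Type} [MeasurableSpace Λ] (ν : Measure Λ) (z v g : Λ → ℝ) (U : Set (Λ × ℝ)) (φ : ℝ → ℝ)
    (L : Λ × ℝ → ℝ) (p K d : ℝ) : Prop where
  mz : Measurable z
  mv : Measurable v
  mg : Measurable g
  mU : MeasurableSet U
  mφ : Measurable φ
  mL : Measurable L
  bd : ∀ l u, (l, u) ∈ U → 0 ≤ u ∧ u ≤ 1 ∧ |z l| ≤ K ∧ |v l| ≤ K ∧ |g l| ≤ K ∧ |φ u| ≤ K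
  model : ∀ l u, (l, u) ∈ U → |L (l, u) - (z l + u * g l - φ u * v l)| ≤ K * p
  lipφ : ∀ l u l' u', (l, u) ∈ U → (l', u') ∈ U → |φ u - φ u'| ≤ K * (|u - u'| + p)
  lipg : ∀ l u l' u', (l, u) ∈ U → (l', u') ∈ U → |g l - g l'| ≤ K * (|v l - v l'| + p)
  tot : ν.real univ ≤ K
  mass : 1 / K ≤ k5_mass ν U
  cnt : ∀ u q r a : ℝ, p ≤ q → q ≤ r → r ≤ 1 → ∃ Z : Finset ℤ, (Z.card : ℝ) ≤ K * (r / q) ^ d ∧
    ∀ l, (l, u) ∈ U → a ≤ L (l, u) → L (l, u) ≤ a + r → k5_bin q (L (l, u)) ∈ Z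
  cap : ∀ u a b : ℝ, ν.real {l | (l, u) ∈ U ∧ a ≤ v l ∧ v l ≤ a + p ∧ b ≤ L (l, u) ∧ L (l, u) ≤ b + p} ≤ K * p ^ (1 + d)

/-- trajectories labelled at `u₀` and `u` with the value at `u` in the bin `b` -/
def fitjA {Λ : Type} (U : Set (Λ × ℝ)) (L : Λ × ℝ → ℝ) (p u₀ u : ℝ) (b : ℤ) : Set Λ :=
  {l | (l, u₀) ∈ U ∧ (l, u) ∈ U ∧ k5_bin p (L (l, u)) = b}

/-- ... and with the starting value in the bin `β` -/
def fitjAs {Λ : Type} (U : Set (Λ × ℝ)) (L : Λ × ℝ → ℝ) (p u₀ u : ℝ) (β b : ℤ) : Set Λ :=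
  {l | (l, u₀) ∈ U ∧ (l, u) ∈ U ∧ k5_bin p (L (l, u₀)) = β ∧ k5_bin p (L (l, u)) = b}

/-- all possible bins of the values (`|L| ≤ 4K²`) -/
noncomputable def fitjB (p K : ℝ) : Finset ℤ := Finset.Icc (-⌈5 * K ^ 2 / p⌉) ⌈5 * K ^ 2 / p⌉

/-- the collision mass at the time `u` with the first starting value in the bin `β` -/
noncomputable def fitjPair {Λ : Type} [MeasurableSpace Λ] (ν : Measure Λ) (U : Set (Λ × ℝ)) (L : Λ × ℝ → ℝ)
    (p K u₀ : ℝ) (β : ℤ) (u : ℝ) : ℝ :=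
  ∑ b ∈ fitjB p K, ν.real (fitjAs U L p u₀ u β b) * ν.real (fitjA U L p u₀ u b)

/-- an occupied cell: a collision pair with `v`-bins `j, j'` -/
def FitjWit {Λ : Type} (U : Set (Λ × ℝ)) (v : Λ → ℝ) (L : Λ × ℝ → ℝ) (p u₀ : ℝ) (β₀ : ℤ) (u : ℝ) (j j' : ℤ) : Prop :=
  ∃ l l', (l, u₀) ∈ U ∧ (l, u) ∈ U ∧ (l', u₀) ∈ U ∧ (l', u) ∈ U ∧ k5_bin p (v l) = j ∧ k5_bin p (v l') = j' ∧
    k5_bin p (L (l, u₀)) = β₀ ∧ k5_bin p (L (l, u)) = k5_bin p (L (l', u))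

end Claimed.Agent.R252
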