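import Claimed.Agent.R252.Fit.FjCore

/-!
# Row 252, unit FIT: EXIT `fit_fj : 0 ≤ d → d < 1 → ∃ θ > 0, k5_FJ d θ`  (the consumer form of S5/Defs.lean)      (helper9)
-/

set_option autoImplicit false

namespace Claimed.Agent.R252

open MeasureTheory Set Classical

/-- small scales: `p ^ ω ≤ c` for all `p < c ^ (1/ω)` -/
theorem fitj_small (c ω : ℝ) (hc : 0 < c) (hω : 0 < ω) : ∃ p₀ : ℝ, 0 < p₀ ∧ ∀ p : ℝ, 0 < p → p < p₀ → p ^ ω ≤ c := by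
  refine ⟨c ^ (1 / ω), Real.rpow_pos_of_pos hc _, fun p hp hpp => ?_⟩
  calc p ^ ω ≤ (c ^ (1 / ω)) ^ ω := Real.rpow_le_rpow hp.le hpp.le hω.le
    _ = c := by rw [← Real.rpow_mul hc.le, one_div, inv_mul_cancel₀ hω.ne', Real.rpow_one]

/-- the numerology of the adaptor -/
theorem fitj_num (p K e ε θF θ₁ Kn : ℝ) (hp : 0 < p) (hp1 : p < 1) (hK : 1 ≤ K) (he0 : 0 < e) (heε : e ≤ ε / 4) (he4 : e ≤ 1 / 4)
    (hθ0 : 0 < θ₁) (hθF : θ₁ ≤ θF) (hθ1 : θ₁ ≤ 1) (hKp : K ≤ p ^ (-(e / 72))) (hKn : Kn = 2 * 10 ^ 9 * K ^ 36)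
    (h1 : p ^ (e / 2) ≤ 1 / (2 * 10 ^ 9)) (h2 : p ^ (θ₁ / 2) ≤ 1 / 2) (h3 : p ^ (1 / 4 : ℝ) ≤ 1 / 8) :
    Kn ≤ p ^ (-e) ∧ 2 * Kn ≤ p ^ (-ε) ∧ p ^ ε ≤ 1 / (16 * Kn ^ 2) ∧ p ^ θF + 4 * Kn * p ≤ p ^ (θ₁ / 2) := by
  have hK36 : 1 ≤ K ^ 36 := one_le_pow₀ hK
  have hKnbig : 2 * 10 ^ 9 ≤ Kn := by rw [hKn]; linarith
  have hKn0 : 0 < Kn := by linarith
  have hQ : Kn ≤ p ^ (-e) := by
    obtain ⟨y, hy⟩ : ∃ y, y = p ^ (e / 72) := ⟨_, rfl⟩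
    have hy0 : 0 < y := hy ▸ Real.rpow_pos_of_pos hp _
    have e1 : p ^ (-(e / 72)) = y⁻¹ := by rw [hy, Real.rpow_neg hp.le]
    have e2 : p ^ (e / 2) = y ^ 36 := by
      rw [hy, ← Real.rpow_natCast, ← Real.rpow_mul hp.le]
      congr 1; push_cast; ring
    have e3 : p ^ (-e) = (y ^ 36)⁻¹ * (y ^ 36)⁻¹ := by
      rw [Real.rpow_neg hp.le, hy, ← mul_inv, ← pow_add, ← Real.rpow_natCast, ← Real.rpow_mul hp.le]
      congr 2; push_cast; ring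
    rw [e1] at hKp
    rw [e2] at h1
    rw [e3, hKn]
    have a1 : K ^ 36 ≤ (y ^ 36)⁻¹ := by
      rw [← inv_pow]
      exact pow_le_pow_left₀ (by linarith) hKp 36
    have a2 : 2 * 10 ^ 9 ≤ (y ^ 36)⁻¹ := by
      rw [le_inv_comm₀ (by positivity) (by positivity), ← one_div]
      exact h1
    exact mul_le_mul a2 a1 (by positivity) (by positivity)
  obtain ⟨Q, hQdef⟩ : ∃ Q, Q = p ^ (-e) := ⟨_, rfl⟩
  rw [← hQdef] at hQ
  have hQ0 : 0 < Q := by linarith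
  have hQ2 : Q ^ 2 ≤ p ^ (-ε) := by
    rw [hQdef, ← Real.rpow_natCast, ← Real.rpow_mul hp.le]
    refine Real.rpow_le_rpow_of_exponent_ge hp hp1.le ?_
    push_cast; linarith
  have hQ3 : Q ^ 3 ≤ p ^ (-ε) := by
    rw [hQdef, ← Real.rpow_natCast, ← Real.rpow_mul hp.le]
    refine Real.rpow_le_rpow_of_exponent_ge hp hp1.le ?_
    push_cast; linarith
  refine ⟨hQdef ▸ hQ, ?_, ?_, ?_⟩
  · refine le_trans ?_ hQ2
    nlinarith
  · have a1 : 16 * Kn ^ 2 ≤ p ^ (-ε) := by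
      refine le_trans ?_ hQ3
      have b1 : Kn ^ 2 ≤ Q ^ 2 := pow_le_pow_left₀ hKn0.le hQ 2
      have b2 : 16 ≤ Q := by linarith
      calc 16 * Kn ^ 2 ≤ Q * Q ^ 2 := mul_le_mul b2 b1 (by positivity) hQ0.le
        _ = Q ^ 3 := by ring
    rw [Real.rpow_neg hp.le] at a1
    have hpe : 0 < p ^ ε := Real.rpow_pos_of_pos hp _
    rw [le_div_iff₀ (by positivity)]
    have a2 : p ^ ε * (p ^ ε)⁻¹ = 1 := mul_inv_cancel₀ hpe.ne'
    calc p ^ ε * (16 * Kn ^ 2) ≤ p ^ ε * (p ^ ε)⁻¹ := by gcongr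
      _ = 1 := a2
  · obtain ⟨w, hw⟩ : ∃ w, w = p ^ (θ₁ / 2) := ⟨_, rfl⟩
    have hw0 : 0 < w := hw ▸ Real.rpow_pos_of_pos hp _
    rw [← hw] at h2 ⊢
    have c1 : p ^ θF ≤ w ^ 2 := by
      rw [hw, ← Real.rpow_natCast, ← Real.rpow_mul hp.le]
      refine Real.rpow_le_rpow_of_exponent_ge hp hp1.le ?_
      push_cast; linarith
    have c2 : w ^ 2 ≤ w / 2 := by nlinarith
    obtain ⟨x, hx⟩ : ∃ x, x = p ^ (1 / 4 : ℝ) := ⟨_, rfl⟩
    have hx0 : 0 < x := hx ▸ Real.rpow_pos_of_pos hp _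
    rw [← hx] at h3
    have c3 : Q ≤ x⁻¹ := by
      rw [hQdef, hx, ← Real.rpow_neg hp.le]
      exact Real.rpow_le_rpow_of_exponent_ge hp hp1.le (by linarith)
    have c4 : p = x ^ 4 := by
      rw [hx, ← Real.rpow_natCast, ← Real.rpow_mul hp.le]
      norm_num
    have c5 : x ^ 2 ≤ w := by
      rw [hx, hw, ← Real.rpow_natCast, ← Real.rpow_mul hp.le]
      refine Real.rpow_le_rpow_of_exponent_ge hp hp1.le ?_
      push_cast; linarith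
    have c6 : 4 * Kn * p ≤ w / 2 := by
      calc 4 * Kn * p ≤ 4 * x⁻¹ * x ^ 4 := by
            rw [← c4]
            have : Kn ≤ x⁻¹ := hQ.trans c3
            gcongr
        _ = 4 * x * x ^ 2 := by field_simp
        _ ≤ 4 * (1 / 8) * w := by gcongr
        _ = w / 2 := by ring
    linarith

theorem fit_fj (d : ℝ) (hd0 : 0 ≤ d) (hd : d < 1) : ∃ θ : ℝ, 0 < θ ∧ k5_FJ d θ := by
  obtain ⟨θF, hθF, ηF, pF, hηF, hpF, HF⟩ := fit_main d hd0 hd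
  obtain ⟨θ₁, hθ₁⟩ : ∃ t, t = min θF 1 := ⟨_, rfl⟩
  have hθ0 : 0 < θ₁ := by rw [hθ₁]; exact lt_min hθF one_pos
  refine ⟨θ₁ / 2, by positivity, ?_⟩
  intro ε hε
  obtain ⟨e, he⟩ : ∃ e, e = min ηF (min (ε / 4) (1 / 4)) := ⟨_, rfl⟩
  have he0 : 0 < e := by rw [he]; exact lt_min hηF (lt_min (by positivity) (by norm_num))
  have heη : e ≤ ηF := by rw [he]; exact min_le_left _ _
  have heε : e ≤ ε / 4 := by rw [he]; exact (min_le_right _ _).trans (min_le_left _ _)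
  have he4 : e ≤ 1 / 4 := by rw [he]; exact (min_le_right _ _).trans (min_le_right _ _)
  obtain ⟨p1, hp1pos, hp1⟩ := fitj_small (1 / (2 * 10 ^ 9)) (e / 2) (by positivity) (by positivity)
  obtain ⟨p2, hp2pos, hp2⟩ := fitj_small (1 / 2) (θ₁ / 2) (by positivity) (by positivity)
  obtain ⟨p3, hp3pos, hp3⟩ := fitj_small (1 / 8) (1 / 4) (by positivity) (by positivity)
  refine ⟨e / 72, min (min pF 1) (min p1 (min p2 p3)), by positivity, by positivity, ?_⟩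
  intro p K hp hpp hK hKp Λ _ ν _ z v g U φ L mz mv mg mU mφ mL bd model lipφ lipg tot mass cnt cap
  have hppF : p < pF := lt_of_lt_of_le hpp ((min_le_left _ _).trans (min_le_left _ _))
  have hpp1 : p < 1 := lt_of_lt_of_le hpp ((min_le_left _ _).trans (min_le_right _ _))
  have hq1 := hp1 p hp (lt_of_lt_of_le hpp ((min_le_right _ _).trans (min_le_left _ _)))
  have hq2 := hp2 p hp (lt_of_lt_of_le hpp ((min_le_right _ _).trans ((min_le_right _ _).trans (min_le_left _ _))))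
  have hq3 := hp3 p hp (lt_of_lt_of_le hpp ((min_le_right _ _).trans ((min_le_right _ _).trans (min_le_right _ _))))
  have hOk : FitjOk ν z v g U φ L p K d := ⟨mz, mv, mg, mU, mφ, mL, bd, model, lipφ, lipg, tot, mass, cnt, cap⟩
  obtain ⟨Kn, hKn⟩ : ∃ Kn : ℝ, Kn = 2 * 10 ^ 9 * K ^ 36 := ⟨_, rfl⟩
  obtain ⟨n1, n2, n3, n4⟩ := fitj_num p K e ε θF θ₁ Kn hp hpp1 hK he0 heε he4 hθ0 (hθ₁ ▸ min_le_left _ _)
    (hθ₁ ▸ min_le_right _ _) hKp hKn hq1 hq2 hq3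
  have hKn1 : 1 ≤ Kn := by
    have : 1 ≤ K ^ 36 := one_le_pow₀ hK
    rw [hKn]; linarith
  have hKnη : Kn ≤ p ^ (-ηF) := n1.trans (Real.rpow_le_rpow_of_exponent_ge hp hpp1.le (by linarith))
  have hF : FitMainAt d θF p Kn := HF p hp hppF Kn hKn1 hKnη
  obtain ⟨c0, c1, hc0, hvol⟩ := fitj_core hOk hp hpp1.le hK θF Kn hKn.ge hF
  refine ⟨c0, c1, hc0.trans n2, n3.trans (hvol.trans ?_)⟩
  have hI : {u | 0 < ν.real (k5_sec U u) ∧ |φ u - (c0 * u + c1)| ≤ p ^ (θ₁ / 2)} ⊆ Icc 0 1 := by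
    intro u hu
    have hpos := hu.1
    have hne2 : (k5_sec U u).Nonempty := by
      by_contra hcon
      rw [Set.not_nonempty_iff_eq_empty] at hcon
      rw [hcon] at hpos
      simp at hpos
    obtain ⟨l, hl⟩ := hne2
    exact ⟨(bd l u hl).1, (bd l u hl).2.1⟩
  refine measureReal_mono (fun u hu => ⟨hu.1, hu.2.trans n4⟩) (ne_top_of_le_ne_top (by simp) (measure_mono hI))

end Claimed.Agent.R252
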