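import Claimed.Agent.R252.Fit.FjDefs

/-!
# Row 252, unit FIT, adaptor `k5_FJ`: CONTRACT leaves, file MEAS (abstract measure lemmas)      (architect: helper9)
PAPER-FREE, Mathlib only (+ the definitions `k5_mass ν E = (ν.prod volume).real E`, `k5_sec E u = {l | (l,u) ∈ E}` of S5/Defs.lean).
Statements FROZEN (a defect: one line to helper9).  Helper lemmas: prefix `fitj_`, directly above the theorem.  Splice only your theorem on a fresh pull.
-/

set_option autoImplicit false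

namespace Claimed.Agent.R252

open MeasureTheory Set Classical

/-- LEAF L-252-FJ-M1 (~40 l.).  `measurable_measure_prodMk_right` + `ENNReal.measurable_toReal` (`Measure.real`). -/
theorem fitj_sec_meas {Λ : Type} [MeasurableSpace Λ] (ν : Measure Λ) [IsFiniteMeasure ν] (E : Set (Λ × ℝ))
    (hE : MeasurableSet E) : Measurable fun u => ν.real (k5_sec E u) := by
  have h := measurable_measure_prodMk_right (μ := ν) hE
  exact h.ennreal_toReal

/-- helper of FJ-M2: arithmetic-geometric inequality in `ℝ≥0∞` -/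
theorem fitj_pop_amgm (c h : ENNReal) : 2 * c * h ≤ h ^ 2 + c ^ 2 := by
  rcases eq_or_ne h ⊤ with rfl | hh
  · simp
  rcases eq_or_ne c ⊤ with rfl | hc
  · simp
  lift h to NNReal using hh
  lift c to NNReal using hc
  have : (2 * c * h : NNReal) ≤ h ^ 2 + c ^ 2 := by
    have : (2 * c * h : ℝ) ≤ (h : ℝ) ^ 2 + (c : ℝ) ^ 2 := by nlinarith [sq_nonneg ((h : ℝ) - c)]
    exact_mod_cast this
  exact_mod_cast this

/-- LEAF L-252-FJ-M2 (~200 l.).  POPULAR BASE TIME.  `h l = volume (fibre of l) ∈ [0,1]`.  `∫ h dν = mass ≥ 1/K`;  Cauchy-Schwarz: `(∫ h dν)² ≤ ν(univ) ∫ h² dν`, so `∫ h² dν ≥ 1/K³`.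
Tonelli: `∫ h² dν = ∫_{u' ∈ [0,1]} mass {x ∈ U : (x.1,u') ∈ U} du'`  (the set `{(l,u,u') : (l,u) ∈ U, (l,u') ∈ U}` is measurable).  An average over `[0,1]` is attained: some `u₀` has mass `≥ 1/K³`.
(The same lemma as `k5_popular` of S5/FitContract.lean, which is NOT imported here.) -/
theorem fitj_popular {Λ : Type} [MeasurableSpace Λ] (ν : Measure Λ) [IsFiniteMeasure ν] (U : Set (Λ × ℝ))
    (hU : MeasurableSet U) (hI : ∀ l u, (l, u) ∈ U → 0 ≤ u ∧ u ≤ 1) (K : ℝ) (hK : 1 ≤ K) (htot : ν.real univ ≤ K)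
    (hm : 1 / K ≤ k5_mass ν U) : ∃ u₀ : ℝ, 1 / K ^ 3 ≤ k5_mass ν {x | x ∈ U ∧ (x.1, u₀) ∈ U} := by
  have hK0 : 0 < K := by linarith
  obtain ⟨h, hh⟩ : ∃ h : Λ → ENNReal, h = fun l => volume (Prod.mk l ⁻¹' U) := ⟨_, rfl⟩
  have hhm : Measurable h := by rw [hh]; exact measurable_measure_prodMk_left hU
  have hh1 : ∀ l, h l ≤ 1 := by
    intro l
    rw [hh]
    calc volume (Prod.mk l ⁻¹' U) ≤ volume (Icc (0 : ℝ) 1) := measure_mono fun u hu => hI l u hu
      _ = 1 := by simp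
  have hA : (ν.prod volume) U = ∫⁻ l, h l ∂ν := by rw [hh]; exact Measure.prod_apply hU
  have hAfin : (ν.prod volume) U ≠ ⊤ := by
    rw [hA]
    refine ne_top_of_le_ne_top (measure_ne_top ν univ) ?_
    calc ∫⁻ l, h l ∂ν ≤ ∫⁻ _l, 1 ∂ν := lintegral_mono hh1
      _ = ν univ := by simp
  have hAlow : ENNReal.ofReal (1 / K) ≤ ∫⁻ l, h l ∂ν := by
    rw [← hA]
    exact (ENNReal.ofReal_le_iff_le_toReal hAfin).2 hm
  have hMup : ν univ ≤ ENNReal.ofReal K := by
    rw [← ENNReal.ofReal_toReal (measure_ne_top ν univ)]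
    exact ENNReal.ofReal_le_ofReal htot
  -- second moment
  have hI2 : ENNReal.ofReal (1 / K ^ 3) ≤ ∫⁻ l, h l ^ 2 ∂ν := by
    have h1 : ∫⁻ l, 2 * ENNReal.ofReal (1 / K ^ 2) * h l ∂ν ≤ ∫⁻ l, (h l ^ 2 + ENNReal.ofReal (1 / K ^ 2) ^ 2) ∂ν :=
      lintegral_mono fun l => fitj_pop_amgm _ _
    rw [lintegral_const_mul _ hhm, lintegral_add_right _ measurable_const, lintegral_const] at h1
    have h2 : ENNReal.ofReal (1 / K ^ 3) + ENNReal.ofReal (1 / K ^ 3) ≤ 2 * ENNReal.ofReal (1 / K ^ 2) * ∫⁻ l, h l ∂ν := by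
      calc ENNReal.ofReal (1 / K ^ 3) + ENNReal.ofReal (1 / K ^ 3) = 2 * ENNReal.ofReal (1 / K ^ 2) * ENNReal.ofReal (1 / K) := by
            rw [mul_assoc, ← ENNReal.ofReal_mul (by positivity), two_mul]
            congr 2 <;> · field_simp
        _ ≤ _ := by gcongr
    have h3 : ENNReal.ofReal (1 / K ^ 2) ^ 2 * ν univ ≤ ENNReal.ofReal (1 / K ^ 3) := by
      calc ENNReal.ofReal (1 / K ^ 2) ^ 2 * ν univ ≤ ENNReal.ofReal (1 / K ^ 2) ^ 2 * ENNReal.ofReal K := by gcongr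
        _ = ENNReal.ofReal (1 / K ^ 3) := by
            rw [← ENNReal.ofReal_pow (by positivity), ← ENNReal.ofReal_mul (by positivity)]
            congr 1
            field_simp
    have h4 : ENNReal.ofReal (1 / K ^ 3) + ENNReal.ofReal (1 / K ^ 3) ≤ ∫⁻ l, h l ^ 2 ∂ν + ENNReal.ofReal (1 / K ^ 3) :=
      h2.trans (h1.trans (by gcongr))
    exact (ENNReal.add_le_add_iff_right ENNReal.ofReal_ne_top).1 h4
  -- the mass of the slice
  obtain ⟨F, hF⟩ : ∃ F : ℝ → ENNReal, F = fun u₀ => (ν.prod volume) {x | x ∈ U ∧ (x.1, u₀) ∈ U} := ⟨_, rfl⟩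
  have hmeasS : ∀ u₀ : ℝ, MeasurableSet {x : Λ × ℝ | x ∈ U ∧ (x.1, u₀) ∈ U} := by
    intro u₀
    have : Measurable fun x : Λ × ℝ => (x.1, u₀) := measurable_fst.prodMk measurable_const
    exact hU.inter (this hU)
  have hFeq : ∀ u₀, F u₀ = ∫⁻ l, h l * U.indicator (fun _ => (1 : ENNReal)) (l, u₀) ∂ν := by
    intro u₀
    rw [hF]
    simp only
    rw [Measure.prod_apply (hmeasS u₀)]
    refine lintegral_congr fun l => ?_
    by_cases hl : (l, u₀) ∈ U
    · rw [indicator_of_mem hl, mul_one, hh]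
      congr 1
      ext u
      simp [hl]
    · rw [indicator_of_notMem hl, mul_zero]
      have : Prod.mk l ⁻¹' {x : Λ × ℝ | x ∈ U ∧ (x.1, u₀) ∈ U} = ∅ := by
        ext u
        simp [hl]
      rw [this, measure_empty]
  have hint : ∫⁻ u₀, F u₀ = ∫⁻ l, h l ^ 2 ∂ν := by
    simp only [hFeq]
    rw [lintegral_lintegral_swap]
    · refine lintegral_congr fun l => ?_
      rw [lintegral_const_mul' _ _ (ne_top_of_le_ne_top ENNReal.one_ne_top (hh1 l)), sq]
      congr 1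
      have : (fun u₀ : ℝ => U.indicator (fun _ => (1 : ENNReal)) (l, u₀)) = (Prod.mk l ⁻¹' U).indicator (fun _ => (1 : ENNReal)) := by
        funext u₀
        rfl
      rw [this, lintegral_indicator_const (measurable_prodMk_left hU), one_mul, hh]
    · refine Measurable.aemeasurable ?_
      have m1 : Measurable fun z : ℝ × Λ => h z.2 := hhm.comp measurable_snd
      have m2 : Measurable fun z : ℝ × Λ => U.indicator (fun _ => (1 : ENNReal)) (z.2, z.1) :=
        (measurable_const.indicator hU).comp (measurable_snd.prodMk measurable_fst)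
      exact m1.mul m2
  have hsupp : ∀ u₀, u₀ ∉ Icc (0 : ℝ) 1 → F u₀ = 0 := by
    intro u₀ hu
    rw [hF]
    have : {x : Λ × ℝ | x ∈ U ∧ (x.1, u₀) ∈ U} = ∅ := by
      ext x
      simp only [mem_ofPred_eq, mem_empty_iff_false, iff_false, not_and]
      intro _ hx
      exact hu (hI _ _ hx)
    simp only [this, measure_empty]
  have hrestr : ∫⁻ u₀ in Icc (0 : ℝ) 1, F u₀ = ∫⁻ u₀, F u₀ := by
    rw [← lintegral_indicator measurableSet_Icc]
    refine lintegral_congr fun u₀ => ?_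
    by_cases hu : u₀ ∈ Icc (0 : ℝ) 1
    · rw [indicator_of_mem hu]
    · rw [indicator_of_notMem hu, hsupp u₀ hu]
  have : IsProbabilityMeasure (volume.restrict (Icc (0 : ℝ) 1)) := ⟨by simp⟩
  have hfin : ∫⁻ u₀ in Icc (0 : ℝ) 1, F u₀ ≠ ⊤ := by
    rw [hrestr, hint]
    refine ne_top_of_le_ne_top (measure_ne_top ν univ) ?_
    calc ∫⁻ l, h l ^ 2 ∂ν ≤ ∫⁻ _l, 1 ∂ν := lintegral_mono fun l => pow_le_one₀ zero_le (hh1 l)
      _ = ν univ := by simp
  obtain ⟨u₀, hu₀⟩ := exists_lintegral_le hfin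
  rw [hrestr, hint] at hu₀
  refine ⟨u₀, ?_⟩
  have hle : ENNReal.ofReal (1 / K ^ 3) ≤ (ν.prod volume) {x | x ∈ U ∧ (x.1, u₀) ∈ U} := by
    have := hI2.trans hu₀
    rw [hF] at this
    exact this
  have hfin2 : (ν.prod volume) {x | x ∈ U ∧ (x.1, u₀) ∈ U} ≠ ⊤ :=
    ne_top_of_le_ne_top hAfin (measure_mono fun x hx => hx.1)
  exact (ENNReal.ofReal_le_iff_le_toReal hfin2).1 hle

/-- LEAF L-252-FJ-M3 (~120 l.).  MARKOV.  `M u = ν.real (k5_sec E u) ≤ K`, `M = 0` off `[0,1]`, `∫ M = mass ≥ m` (`Measure.prod_apply_symm` / `measure_prod_apply`-type Tonelli).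
`m ≤ ∫ M ≤ K vol{M ≥ m/2} + m/2`. -/
theorem fitj_markov {Λ : Type} [MeasurableSpace Λ] (ν : Measure Λ) [IsFiniteMeasure ν] (E : Set (Λ × ℝ))
    (hE : MeasurableSet E) (hI : ∀ l u, (l, u) ∈ E → 0 ≤ u ∧ u ≤ 1) (K m : ℝ) (hK : 0 < K) (htot : ν.real univ ≤ K)
    (hm0 : 0 < m) (hm : m ≤ k5_mass ν E) :
    MeasurableSet {u | m / 2 ≤ ν.real (k5_sec E u)} ∧ {u | m / 2 ≤ ν.real (k5_sec E u)} ⊆ Icc 0 1 ∧
      m / (2 * K) ≤ volume.real {u | m / 2 ≤ ν.real (k5_sec E u)} := by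
  have hMm := fitj_sec_meas ν E hE
  set M : ℝ → ℝ := fun u => ν.real (k5_sec E u) with hM
  set S : Set ℝ := {u | m / 2 ≤ M u} with hS
  have hSm : MeasurableSet S := measurableSet_le measurable_const hMm
  have hsupp : ∀ u, u ∉ Icc (0 : ℝ) 1 → M u = 0 := by
    intro u hu
    have : k5_sec E u = ∅ := by
      ext l
      simp only [k5_sec, mem_ofPred_eq, mem_empty_iff_false, iff_false]
      intro hl
      exact hu (hI l u hl)
    simp [hM, this]
  have hSsub : S ⊆ Icc 0 1 := by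
    intro u hu
    by_contra hcon
    have h0 := hsupp u hcon
    have : m / 2 ≤ M u := hu
    rw [h0] at this
    linarith
  refine ⟨hSm, hSsub, ?_⟩
  have hM0 : ∀ u, 0 ≤ M u := fun u => measureReal_nonneg
  have hMK : ∀ u, M u ≤ K := fun u => le_trans (measureReal_mono (subset_univ _)) htot
  have hmass : k5_mass ν E = ∫ u, M u := by
    unfold k5_mass
    rw [Measure.real, Measure.prod_apply_symm hE, ← integral_toReal]
    · rfl
    · exact (measurable_measure_prodMk_right (μ := ν) hE).aemeasurable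
    · exact Filter.Eventually.of_forall fun u => measure_lt_top _ _
  have hset : ∫ u, M u = ∫ u in Icc (0 : ℝ) 1, M u :=
    (setIntegral_eq_integral_of_forall_compl_eq_zero hsupp).symm
  have hfin : volume (Icc (0 : ℝ) 1) ≠ ⊤ := by simp
  have hi1 : IntegrableOn M (Icc (0 : ℝ) 1) volume := by
    refine Measure.integrableOn_of_bounded (M := K) hfin hMm.aestronglyMeasurable ?_
    refine Filter.Eventually.of_forall fun u => ?_
    rw [Real.norm_eq_abs, abs_of_nonneg (hM0 u)]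
    exact hMK u
  have hi2 : IntegrableOn (fun u => S.indicator (fun _ => K) u + m / 2) (Icc (0 : ℝ) 1) volume := by
    refine Integrable.add ?_ (integrableOn_const hfin)
    exact (integrableOn_const hfin).indicator hSm
  have hle : ∫ u in Icc (0 : ℝ) 1, M u ≤ ∫ u in Icc (0 : ℝ) 1, (S.indicator (fun _ => K) u + m / 2) := by
    refine setIntegral_mono_on hi1 hi2 measurableSet_Icc fun u _ => ?_
    by_cases hu : u ∈ S
    · rw [indicator_of_mem hu]
      have := hMK u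
      linarith
    · rw [indicator_of_notMem hu]
      have : M u < m / 2 := not_le.1 hu
      linarith
  have hcalc : ∫ u in Icc (0 : ℝ) 1, (S.indicator (fun _ => K) u + m / 2) = K * volume.real S + m / 2 := by
    have ia : IntegrableOn (S.indicator (fun _ => K)) (Icc (0 : ℝ) 1) volume :=
      (integrableOn_const hfin).indicator hSm
    have ib : IntegrableOn (fun _ : ℝ => m / 2) (Icc (0 : ℝ) 1) volume := integrableOn_const hfin
    rw [integral_add (μ := volume.restrict (Icc (0 : ℝ) 1)) ia ib,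
      setIntegral_indicator hSm, setIntegral_const, setIntegral_const,
      inter_eq_self_of_subset_right hSsub]
    simp [Measure.real, mul_comm]
  have h1 : m ≤ K * volume.real S + m / 2 := by
    rw [← hcalc]
    refine le_trans hm ?_
    rw [hmass, hset]
    exact hle
  rw [div_le_iff₀ (by positivity)]
  nlinarith

/-- LEAF L-252-FJ-M4 (~100 l.).  MULTIPLICITY.  Every point of `T` lies in at least `r` of the sets `G β ⊆ T`, `β ∈ Z`, `#Z ≤ N`: some `G β` has measure `≥ r vol(T)/N`.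
`r vol T ≤ ∫_T ∑_β 1_{G β} = ∑_β vol (G β) ≤ N max`. -/
theorem fitj_multi {ι : Type} (Z : Finset ι) (G : ι → Set ℝ) (hG : ∀ β ∈ Z, MeasurableSet (G β)) (T : Set ℝ)
    (hT : MeasurableSet T) (hTfin : volume T ≠ ⊤) (r N : ℝ) (hr : 0 < r) (hTpos : 0 < volume.real T) (hN : 0 < N)
    (hZ : (Z.card : ℝ) ≤ N) (hsub : ∀ β ∈ Z, G β ⊆ T)
    (hcov : ∀ u ∈ T, r ≤ ((Z.filter fun β => u ∈ G β).card : ℝ)) :
    ∃ β ∈ Z, r * volume.real T / N ≤ volume.real (G β) := by
  have hcard : ∀ u, ((Z.filter fun β => u ∈ G β).card : ℝ) = ∑ β ∈ Z, (G β).indicator (fun _ => (1 : ℝ)) u := by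
    intro u
    rw [Finset.card_filter]
    push_cast
    refine Finset.sum_congr rfl fun β _ => ?_
    by_cases h : u ∈ G β <;> simp [h]
  have hint : ∀ β ∈ Z, IntegrableOn ((G β).indicator (fun _ => (1 : ℝ))) T volume := fun β hβ =>
    (integrableOn_const hTfin).indicator (hG β hβ)
  have h1 : r * volume.real T ≤ ∑ β ∈ Z, volume.real (G β) := by
    have e1 : ∫ _u in T, r = r * volume.real T := by
      rw [setIntegral_const]
      simp [mul_comm]
    have e2 : ∫ u in T, ∑ β ∈ Z, (G β).indicator (fun _ => (1 : ℝ)) u = ∑ β ∈ Z, volume.real (G β) := by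
      rw [integral_finsetSum _ hint]
      refine Finset.sum_congr rfl fun β hβ => ?_
      rw [setIntegral_indicator (hG β hβ), setIntegral_const,
        inter_eq_self_of_subset_right (hsub β hβ)]
      simp
    rw [← e1, ← e2]
    refine setIntegral_mono_on (integrableOn_const hTfin) (integrable_finsetSum _ hint) hT ?_
    intro u hu
    rw [← hcard]
    exact hcov u hu
  by_contra hcon
  push Not at hcon
  have hne : Z.Nonempty := by
    rw [Finset.nonempty_iff_ne_empty]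
    rintro rfl
    simp at h1
    nlinarith
  have h2 : ∑ β ∈ Z, volume.real (G β) < ∑ _β ∈ Z, r * volume.real T / N :=
    Finset.sum_lt_sum_of_nonempty hne hcon
  rw [Finset.sum_const, nsmul_eq_mul] at h2
  have h3 : (Z.card : ℝ) * (r * volume.real T / N) ≤ N * (r * volume.real T / N) :=
    mul_le_mul_of_nonneg_right hZ (by positivity)
  have h4 : N * (r * volume.real T / N) = r * volume.real T := by field_simp
  linarith

/-- LEAF L-252-FJ-M5 (~150 l.).  GOOD TIME BINS.  Bins `k ∈ {0,…,⌊1/p⌋}` (`≤ 2/p` of them) cover `[0,1]`.  `𝒦` = the bins with `vol(T ∩ bin) ≥ τp/4`.  The others carry `≤ (2/p)(τp/4) = τ/2`;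
each bin carries `≤ p`;  so `#𝒦 p ≥ τ/2`. -/
theorem fitj_bins (T : Set ℝ) (hT : MeasurableSet T) (hI : T ⊆ Icc 0 1) (p τ : ℝ) (hp : 0 < p) (hp1 : p ≤ 1)
    (hτ0 : 0 < τ) (hτ : τ ≤ volume.real T) :
    ∃ 𝒦 : Finset ℤ, τ / (2 * p) ≤ (𝒦.card : ℝ) ∧ (𝒦.card : ℝ) ≤ 2 / p ∧
      ∀ k ∈ 𝒦, τ * p / 4 ≤ volume.real (T ∩ Ico ((k : ℝ) * p) (((k : ℝ) + 1) * p)) := by
  obtain ⟨B, hB⟩ : ∃ B : Finset ℤ, B = Finset.Icc (0 : ℤ) ⌊1 / p⌋ := ⟨_, rfl⟩
  have h1p : 1 ≤ 1 / p := by rw [le_div_iff₀ hp]; linarith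
  have hfl0 : 0 ≤ ⌊1 / p⌋ := Int.floor_nonneg.2 (by linarith)
  have hBcard : (B.card : ℝ) ≤ 2 / p := by
    rw [hB, Int.card_Icc]
    have e : ((⌊1 / p⌋ + 1 - 0).toNat : ℤ) = ⌊1 / p⌋ + 1 := by
      rw [Int.toNat_of_nonneg (by omega)]; ring
    have e' : (((⌊1 / p⌋ + 1 - 0).toNat : ℤ) : ℝ) = ((⌊1 / p⌋ + 1 : ℤ) : ℝ) := by rw [e]
    push_cast at e'
    rw [e']
    have := Int.floor_le (1 / p)
    have e2 : 2 / p = 1 / p + 1 / p := by ring
    linarith
  obtain ⟨w, hw⟩ : ∃ w : ℤ → ℝ, w = fun k : ℤ => volume.real (T ∩ Ico ((k : ℝ) * p) (((k : ℝ) + 1) * p)) := ⟨_, rfl⟩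
  have hwp : ∀ k, w k ≤ p := by
    intro k
    rw [hw]
    have h1 : volume.real (T ∩ Ico ((k : ℝ) * p) (((k : ℝ) + 1) * p)) ≤ volume.real (Ico ((k : ℝ) * p) (((k : ℝ) + 1) * p)) :=
      measureReal_mono inter_subset_right (by simp)
    rw [Real.volume_real_Ico_of_le (by nlinarith)] at h1
    linarith
  have hcov : T ⊆ ⋃ k ∈ B, T ∩ Ico ((k : ℝ) * p) (((k : ℝ) + 1) * p) := by
    intro u hu
    obtain ⟨hu0, hu1⟩ := hI hu
    refine mem_iUnion₂.2 ⟨⌊u / p⌋, ?_, hu, ?_, ?_⟩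
    · rw [hB, Finset.mem_Icc]
      exact ⟨Int.floor_nonneg.2 (by positivity), Int.floor_le_floor (by gcongr)⟩
    · have := Int.floor_le (u / p)
      rwa [le_div_iff₀ hp] at this
    · have := Int.lt_floor_add_one (u / p)
      rwa [div_lt_iff₀ hp] at this
  have hfinU : volume (⋃ k ∈ B, T ∩ Ico ((k : ℝ) * p) (((k : ℝ) + 1) * p)) ≠ ⊤ := by
    refine ne_top_of_le_ne_top (b := volume (Icc (0 : ℝ) 1)) (by simp) (measure_mono ?_)
    intro u hu
    obtain ⟨k, -, hk⟩ := mem_iUnion₂.1 hu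
    exact hI hk.1
  have hsum : volume.real T ≤ ∑ k ∈ B, w k := by
    rw [hw]
    exact (measureReal_mono hcov hfinU).trans (measureReal_biUnion_finset_le _ _)
  refine ⟨B.filter fun k => τ * p / 4 ≤ w k, ?_, ?_, ?_⟩
  · have hsplit := Finset.sum_filter_add_sum_filter_not B (fun k => τ * p / 4 ≤ w k) w
    have h1 : ∑ k ∈ B.filter (fun k => τ * p / 4 ≤ w k), w k ≤ ((B.filter fun k => τ * p / 4 ≤ w k).card : ℝ) * p := by
      rw [← nsmul_eq_mul]
      exact Finset.sum_le_card_nsmul _ _ _ fun k _ => hwp k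
    have h2 : ∑ k ∈ B.filter (fun k => ¬ τ * p / 4 ≤ w k), w k ≤ (B.card : ℝ) * (τ * p / 4) := by
      have a : ∑ k ∈ B.filter (fun k => ¬ τ * p / 4 ≤ w k), w k
          ≤ ((B.filter fun k => ¬ τ * p / 4 ≤ w k).card : ℝ) * (τ * p / 4) := by
        rw [← nsmul_eq_mul]
        exact Finset.sum_le_card_nsmul _ _ _ fun k hk => (not_le.1 (Finset.mem_filter.1 hk).2).le
      refine a.trans ?_
      have : ((B.filter fun k => ¬ τ * p / 4 ≤ w k).card : ℝ) ≤ B.card := by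
        exact_mod_cast Finset.card_filter_le _ _
      gcongr
    have h3 : (B.card : ℝ) * (τ * p / 4) ≤ τ / 2 := by
      calc (B.card : ℝ) * (τ * p / 4) ≤ 2 / p * (τ * p / 4) := by gcongr
        _ = τ / 2 := by field_simp; ring
    rw [div_le_iff₀ (by positivity)]
    linarith
  · refine le_trans ?_ hBcard
    exact_mod_cast Finset.card_filter_le _ _
  · intro k hk
    have := (Finset.mem_filter.1 hk).2
    rw [hw] at this
    exact this

/-- LEAF L-252-FJ-M6 (~60 l.).  The bins are pairwise disjoint: `measureReal_biUnion_finset` + monotonicity. -/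
theorem fitj_union (T S : Set ℝ) (hT : MeasurableSet T) (p : ℝ) (hp : 0 < p) (𝒦 : Finset ℤ)
    (hS : ∀ k ∈ 𝒦, T ∩ Ico ((k : ℝ) * p) (((k : ℝ) + 1) * p) ⊆ S) (hSfin : volume S ≠ ⊤) :
    ∑ k ∈ 𝒦, volume.real (T ∩ Ico ((k : ℝ) * p) (((k : ℝ) + 1) * p)) ≤ volume.real S := by
  have hle : ∀ k k' : ℤ, ∀ x : ℝ, x ∈ Ico ((k : ℝ) * p) (((k : ℝ) + 1) * p) →
      x ∈ Ico ((k' : ℝ) * p) (((k' : ℝ) + 1) * p) → k ≤ k' := by
    intro k k' x h1 h2
    have h3 : (k : ℝ) * p < ((k' : ℝ) + 1) * p := lt_of_le_of_lt h1.1 h2.2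
    have h4 : (k : ℝ) < (k' : ℝ) + 1 := lt_of_mul_lt_mul_right h3 hp.le
    have h5 : k < k' + 1 := by exact_mod_cast h4
    omega
  have hd : (𝒦 : Set ℤ).PairwiseDisjoint fun k : ℤ => T ∩ Ico ((k : ℝ) * p) (((k : ℝ) + 1) * p) := by
    intro k _ k' _ hkk'
    rw [Function.onFun, Set.disjoint_left]
    intro x hx hx'
    exact hkk' (le_antisymm (hle k k' x hx.2 hx'.2) (hle k' k x hx'.2 hx.2))
  rw [← measureReal_biUnion_finset hd (fun k _ => hT.inter measurableSet_Ico)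
    (fun k hk => ne_top_of_le_ne_top hSfin (measure_mono (hS k hk)))]
  exact measureReal_mono (iUnion₂_subset hS) hSfin

/-- LEAF L-252-FJ-M7 (~60 l.).  finite partition of a measurable set by an integer-valued measurable label -/
theorem fitj_part {Λ : Type} [MeasurableSpace Λ] (ν : Measure Λ) [IsFiniteMeasure ν] (A : Set Λ) (hA : MeasurableSet A)
    (b : Λ → ℤ) (hb : Measurable b) (𝔹 : Finset ℤ) (h𝔹 : ∀ l ∈ A, b l ∈ 𝔹) :
    ν.real A = ∑ c ∈ 𝔹, ν.real {l | l ∈ A ∧ b l = c} := by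
  have hd : (𝔹 : Set ℤ).PairwiseDisjoint fun c : ℤ => {l | l ∈ A ∧ b l = c} := by
    intro c _ c' _ hcc'
    rw [Function.onFun, Set.disjoint_left]
    intro x hx hx'
    exact hcc' (hx.2.symm.trans hx'.2)
  have hm : ∀ c ∈ 𝔹, MeasurableSet {l | l ∈ A ∧ b l = c} := fun c _ =>
    hA.inter (hb (measurableSet_singleton c))
  rw [← measureReal_biUnion_finset hd hm]
  congr 1
  ext l
  simp only [mem_iUnion, mem_ofPred_eq, exists_prop]
  constructor
  · intro hl
    exact ⟨b l, h𝔹 l hl, hl, rfl⟩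
  · rintro ⟨c, _, hl, _⟩
    exact hl

/-- LEAF L-252-FJ-M8 (~60 l.).  Cauchy-Schwarz over the occupied labels: `fitj_part` with `Z`, `Finset.sum_mul_sq_le_sq_mul_sq` / `sq_sum_le_card_mul_sum_sq`, then enlarge `Z` to `𝔹` (nonnegative terms). -/
theorem fitj_cs {Λ : Type} [MeasurableSpace Λ] (ν : Measure Λ) [IsFiniteMeasure ν] (A : Set Λ) (hA : MeasurableSet A)
    (b : Λ → ℤ) (hb : Measurable b) (Z 𝔹 : Finset ℤ) (hZ𝔹 : Z ⊆ 𝔹) (hZ : ∀ l ∈ A, b l ∈ Z) :
    ν.real A ^ 2 ≤ (Z.card : ℝ) * ∑ c ∈ 𝔹, ν.real {l | l ∈ A ∧ b l = c} ^ 2 := by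
  rw [fitj_part ν A hA b hb Z hZ]
  refine le_trans sq_sum_le_card_mul_sum_sq ?_
  refine mul_le_mul_of_nonneg_left ?_ (Nat.cast_nonneg _)
  exact Finset.sum_le_sum_of_subset_of_nonneg hZ𝔹 fun _ _ _ => sq_nonneg _

end Claimed.Agent.R252
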