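import Claimed.Agent.R252.Fit.FjComb

/-!
# Row 252, unit FIT, adaptor `k5_FJ`: glue `fitj_times` (base time, starting bin, dense set of times with many collisions)      (helper9)
-/

set_option autoImplicit false

namespace Claimed.Agent.R252

open MeasureTheory Set Classical

variable {Λ : Type} [MeasurableSpace Λ] {ν : Measure Λ} {z v g : Λ → ℝ} {U : Set (Λ × ℝ)} {φ : ℝ → ℝ} {L : Λ × ℝ → ℝ}
  {p K d : ℝ}

theorem fitj_times [IsFiniteMeasure ν] (h : FitjOk ν z v g U φ L p K d) (hp : 0 < p) (hp1 : p ≤ 1) (hK : 1 ≤ K) :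
    ∃ (u₀ : ℝ) (β₀ : ℤ) (T : Set ℝ), MeasurableSet T ∧ T ⊆ Icc 0 1 ∧ 1 / (25600 * K ^ 20) ≤ volume.real T ∧
      ∀ u ∈ T, p ^ (2 * d) / (800 * K ^ 12) ≤ fitjPair ν U L p K u₀ β₀ u := by
  have hK0 : 0 < K := by linarith
  obtain ⟨P, hP⟩ : ∃ P, P = p ^ d := ⟨_, rfl⟩
  have hP0 : 0 < P := hP ▸ Real.rpow_pos_of_pos hp _
  have hPn : p ^ (-d) = P⁻¹ := by rw [hP, Real.rpow_neg hp.le]
  have hP2 : p ^ (2 * d) = P ^ 2 := by
    rw [hP, ← Real.rpow_natCast, ← Real.rpow_mul hp.le]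
    congr 1; push_cast; ring
  obtain ⟨u₀, hu₀⟩ := fitj_popular ν U h.mU (fun l u hl => ⟨(h.bd l u hl).1, (h.bd l u hl).2.1⟩) K hK h.tot h.mass
  obtain ⟨U₀, hU₀def⟩ : ∃ U₀ : Set (Λ × ℝ), U₀ = {x | x ∈ U ∧ (x.1, u₀) ∈ U} := ⟨_, rfl⟩
  have hU₀m : MeasurableSet U₀ := by
    rw [hU₀def]
    exact h.mU.inter ((measurable_fst.prodMk measurable_const) h.mU)
  rw [← hU₀def] at hu₀
  have hm0 : 0 < 1 / K ^ 3 := by positivity
  obtain ⟨hT1m, hT1I, hT1v⟩ := fitj_markov ν U₀ hU₀m (fun l u hl => by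
    rw [hU₀def] at hl
    exact ⟨(h.bd l u hl.1).1, (h.bd l u hl.1).2.1⟩) K (1 / K ^ 3) hK0 h.tot hm0 hu₀
  obtain ⟨T₁, hT₁def⟩ : ∃ T₁ : Set ℝ, T₁ = {u | 1 / K ^ 3 / 2 ≤ ν.real (k5_sec U₀ u)} := ⟨_, rfl⟩
  rw [← hT₁def] at hT1m hT1I hT1v
  obtain ⟨Z₀, hZ₀c, -, hZ₀⟩ := fitj_bincount h hp hp1 hK u₀
  rw [hPn] at hZ₀c
  obtain ⟨Nb, hNb⟩ : ∃ Nb, Nb = 10 * K ^ 3 * P⁻¹ := ⟨_, rfl⟩
  have hNb0 : 0 < Nb := by rw [hNb]; positivity
  rw [← hNb] at hZ₀c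
  obtain ⟨s, hs⟩ : ∃ s, s = (1 / K ^ 3) ^ 2 / (4 * Nb) := ⟨_, rfl⟩
  have hs0 : 0 < s := by rw [hs]; positivity
  obtain ⟨cs, hcs⟩ : ∃ cs, cs = 16 * K ^ 4 * P ^ 2 := ⟨_, rfl⟩
  have hcs0 : 0 < cs := by rw [hcs]; positivity
  have hlow : ∀ u ∈ T₁, s ≤ ∑ β ∈ Z₀, fitjPair ν U L p K u₀ β u := by
    intro u hu
    have h1 := fitj_pair_lower h hp hp1 hK u₀ u Z₀ hZ₀
    rw [← hU₀def, hPn, ← hNb] at h1
    rw [hT₁def] at hu
    have h2 : (1 / K ^ 3 / 2) ^ 2 ≤ ν.real (k5_sec U₀ u) ^ 2 := pow_le_pow_left₀ (by positivity) hu 2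
    rw [hs, div_le_iff₀ (by positivity)]
    nlinarith
  have hup : ∀ β u, fitjPair ν U L p K u₀ β u ≤ cs := by
    intro β u
    have := fitj_pair_le h hp hp1 hK u₀ u β
    rwa [hP2, ← hcs] at this
  obtain ⟨G, hG⟩ : ∃ G : ℤ → Set ℝ, G = fun β => {u | u ∈ T₁ ∧ s / (2 * Nb) ≤ fitjPair ν U L p K u₀ β u} := ⟨_, rfl⟩
  have hGm : ∀ β ∈ Z₀, MeasurableSet (G β) := by
    intro β _
    rw [hG]
    exact hT1m.inter (measurableSet_le measurable_const (fitj_pair_meas h u₀ β))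
  have hT1fin : volume T₁ ≠ ⊤ :=
    ne_top_of_le_ne_top (by simp) (measure_mono hT1I)
  have hT1pos : 0 < volume.real T₁ := lt_of_lt_of_le (by positivity) hT1v
  have hcov : ∀ u ∈ T₁, s / (2 * cs) ≤ ((Z₀.filter fun β => u ∈ G β).card : ℝ) := by
    intro u hu
    have h1 := hlow u hu
    have h2 : ∑ β ∈ Z₀, fitjPair ν U L p K u₀ β u
        = ∑ β ∈ Z₀.filter (fun β => u ∈ G β), fitjPair ν U L p K u₀ β u
          + ∑ β ∈ Z₀.filter (fun β => ¬ u ∈ G β), fitjPair ν U L p K u₀ β u :=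
      (Finset.sum_filter_add_sum_filter_not Z₀ _ _).symm
    have h3 : ∑ β ∈ Z₀.filter (fun β => u ∈ G β), fitjPair ν U L p K u₀ β u
        ≤ ((Z₀.filter fun β => u ∈ G β).card : ℝ) * cs := by
      calc _ ≤ ∑ _β ∈ Z₀.filter (fun β => u ∈ G β), cs := Finset.sum_le_sum fun β _ => hup β u
        _ = _ := by rw [Finset.sum_const, nsmul_eq_mul]
    have h4 : ∑ β ∈ Z₀.filter (fun β => ¬ u ∈ G β), fitjPair ν U L p K u₀ β u ≤ s / 2 := by
      calc _ ≤ ∑ _β ∈ Z₀.filter (fun β => ¬ u ∈ G β), s / (2 * Nb) := by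
            refine Finset.sum_le_sum fun β hβ => ?_
            have h5 := (Finset.mem_filter.1 hβ).2
            rw [hG] at h5
            simp only [Set.mem_setOf_eq, not_and, not_le] at h5
            exact (h5 hu).le
        _ = ((Z₀.filter fun β => ¬ u ∈ G β).card : ℝ) * (s / (2 * Nb)) := by rw [Finset.sum_const, nsmul_eq_mul]
        _ ≤ Nb * (s / (2 * Nb)) := by
            refine mul_le_mul_of_nonneg_right (le_trans ?_ hZ₀c) (by positivity)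
            exact_mod_cast Finset.card_le_card (Finset.filter_subset _ _)
        _ = s / 2 := by field_simp
    rw [div_le_iff₀ (by positivity)]
    nlinarith
  obtain ⟨β₀, -, hβ₀⟩ := fitj_multi Z₀ G hGm T₁ hT1m hT1fin (s / (2 * cs)) Nb (by positivity) hT1pos hNb0 hZ₀c
    (fun β _ u hu => by rw [hG] at hu; exact hu.1) hcov
  refine ⟨u₀, β₀, G β₀, ?_, ?_, ?_, ?_⟩
  · rw [hG]
    exact hT1m.inter (measurableSet_le measurable_const (fitj_pair_meas h u₀ β₀))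
  · intro u hu
    rw [hG] at hu
    exact hT1I hu.1
  · refine le_trans ?_ hβ₀
    have h1 : s / (2 * cs) * (1 / K ^ 3 / (2 * K)) / Nb ≤ s / (2 * cs) * volume.real T₁ / Nb := by gcongr
    refine le_trans (le_of_eq ?_) h1
    rw [hs, hcs, hNb]
    field_simp
    ring
  · intro u hu
    rw [hG] at hu
    refine le_trans (le_of_eq ?_) hu.2
    rw [hP2, hs, hNb]
    field_simp
    ring

end Claimed.Agent.R252
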