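import Claimed.Agent.R252.Fit.Prune

/-!
# Row 252, unit FIT: glue of `fit_prep` from the leaves of `Fit/Prune.lean`      (helper9)
-/

set_option autoImplicit false

namespace Claimed.Agent.R252

open Finset Classical
open Claimed.Agent.R255 (rtCell RtTreeHer)

theorem fitr_her_mono {J : Type} [Fintype J] {w : J → ℝ} {pos : J → ℝ × ℝ} {C C' s ρ : ℝ} (hw : ∀ j, 0 ≤ w j)
    (hC : C ≤ C') (h : RtTreeHer w pos C s ρ) : RtTreeHer w pos C' s ρ := by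
  intro k k' hk hρ i₀
  refine (h k k' hk hρ i₀).trans ?_
  have h1 : 0 ≤ ∑ i with rtCell k (pos i) = rtCell k (pos i₀), w i := Finset.sum_nonneg fun i _ => hw i
  have h2 : 0 ≤ ((1 / 2 : ℝ) ^ (k' - k)) ^ s := Real.rpow_nonneg (by positivity) _
  gcongr

theorem fitr_prep (ηR : ℝ) (hηR : 0 < ηR) :
    ∃ η₃ p₃ : ℝ, 0 < η₃ ∧ 0 < p₃ ∧ ∀ p : ℝ, 0 < p → p < p₃ → ∀ K d : ℝ, 1 ≤ K → K ≤ p ^ (-η₃) →
      ∀ (I J : Type) [Fintype I] [Fintype J] (D : FitCore I J), D.Ok p K d → 1 / K ≤ D.mass →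
      ∃ W : Finset J, (∀ j ∈ W, D.mass / 4 ≤ D.m1 j ∨ D.mass / 4 ≤ D.m2 j) ∧
        RtTreeHer (fun j => if j ∈ W then D.lam j else 0) D.pos (p ^ (-ηR)) 1 p ∧
        p ^ ηR ≤ ∑ j, ∑ j', (if j ∈ W then D.lam j else 0) * (if j' ∈ W then D.lam j' else 0) * D.wt j j' := by
  obtain ⟨p₄, hp₄, HL⟩ := fitr_levels (ηR / 4) (by positivity)
  refine ⟨ηR / 4, min p₄ (min 1 ((1 / 160 : ℝ) ^ (4 / ηR))), by positivity, by positivity, ?_⟩
  intro p hp0 hp K d hK1 hK I J _ _ D hD hm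
  have hp4 : p < p₄ := lt_of_lt_of_le hp (min_le_left _ _)
  have hp1 : p < 1 := lt_of_lt_of_le hp ((min_le_right _ _).trans (min_le_left _ _))
  have hp5 : p < (1 / 160 : ℝ) ^ (4 / ηR) := lt_of_lt_of_le hp ((min_le_right _ _).trans (min_le_right _ _))
  -- the basic small quantity `x = p^(ηR/4) ≤ 1/160`
  obtain ⟨x, hx⟩ : ∃ x, x = p ^ (ηR / 4) := ⟨_, rfl⟩
  have hx0 : 0 < x := hx ▸ Real.rpow_pos_of_pos hp0 _
  have hx1 : x ≤ 1 / 160 := by
    rw [hx]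
    calc p ^ (ηR / 4) ≤ ((1 / 160 : ℝ) ^ (4 / ηR)) ^ (ηR / 4) :=
          Real.rpow_le_rpow hp0.le hp5.le (by positivity)
      _ = 1 / 160 := by
          rw [← Real.rpow_mul (by norm_num)]
          have : 4 / ηR * (ηR / 4) = 1 := by field_simp
          rw [this, Real.rpow_one]
  have hxinv : p ^ (-(ηR / 4)) = x⁻¹ := by rw [hx, Real.rpow_neg hp0.le]
  have hx4 : p ^ ηR = x ^ 4 := by
    rw [hx, ← Real.rpow_natCast, ← Real.rpow_mul hp0.le]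
    congr 1
    push_cast
    ring
  have hx4inv : p ^ (-ηR) = (x ^ 4)⁻¹ := by rw [Real.rpow_neg hp0.le, hx4]
  have hKx : K ≤ x⁻¹ := hxinv ▸ hK
  have hK0 : 0 < K := by linarith
  obtain ⟨m, hmdef⟩ : ∃ m, m = D.mass := ⟨_, rfl⟩
  rw [← hmdef] at hm ⊢
  have hmx : x ≤ m := by
    refine le_trans ?_ hm
    rw [one_div]
    calc x = (x⁻¹)⁻¹ := (inv_inv x).symm
      _ ≤ K⁻¹ := inv_anti₀ hK0 hKx
  have hm0 : 0 < m := lt_of_lt_of_le hx0 hmx
  obtain ⟨n, hn1, hn2, hn3⟩ := HL p hp0 hp4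
  rw [hxinv] at hn3
  obtain ⟨c, hc⟩ : ∃ c, c = m / (160 * ((n : ℝ) + 1)) := ⟨_, rfl⟩
  have hn0 : (0 : ℝ) < (n : ℝ) + 1 := by positivity
  have hc0 : 0 < c := by rw [hc]; positivity
  obtain ⟨W', hW'W, hmass, hfloor⟩ :=
    fitr_prune D.lam D.pos (univ.filter fun j => m / 4 ≤ D.m1 j ∨ m / 4 ≤ D.m2 j) n c hc0.le
  have hwt : ∀ j j', 0 ≤ D.wt j j' ∧ D.wt j j' ≤ 1 := by
    intro j j'
    refine ⟨Finset.sum_nonneg fun i _ => hD.μ0 i, le_trans ?_ hD.μ1⟩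
    exact Finset.sum_le_sum_of_subset_of_nonneg (Finset.filter_subset _ _) fun i _ _ => hD.μ0 i
  have hloss : c * ∑ k ∈ range (n + 1), (1 / 2 : ℝ) ^ k *
      (((univ.filter fun j => m / 4 ≤ D.m1 j ∨ m / 4 ≤ D.m2 j).image fun i => rtCell k (D.pos i)).card : ℝ) ≤ m / 16 := by
    have h1 : ∑ k ∈ range (n + 1), (1 / 2 : ℝ) ^ k *
        (((univ.filter fun j => m / 4 ≤ D.m1 j ∨ m / 4 ≤ D.m2 j).image fun i => rtCell k (D.pos i)).card : ℝ)
        ≤ ∑ k ∈ range (n + 1), (10 : ℝ) := by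
      refine Finset.sum_le_sum fun k hk => ?_
      have hkn : k ≤ n := Nat.lt_succ_iff.1 (Finset.mem_range.1 hk)
      have hpk : p ≤ (1 / 2 : ℝ) ^ k := hn2.trans (pow_le_pow_of_le_one (by norm_num) (by norm_num) hkn)
      have h2 := fitr_cells D.v D.g (univ.filter fun j => m / 4 ≤ D.m1 j ∨ m / 4 ≤ D.m2 j) p k hpk hD.vb hD.lip
      calc (1 / 2 : ℝ) ^ k * _ ≤ (1 / 2 : ℝ) ^ k * (10 * 2 ^ k) := mul_le_mul_of_nonneg_left h2 (by positivity)
        _ = 10 * ((1 / 2 : ℝ) * 2) ^ k := by rw [mul_pow]; ring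
        _ = 10 := by norm_num
    rw [Finset.sum_const, Finset.card_range, nsmul_eq_mul] at h1
    calc c * _ ≤ c * (((n + 1 : ℕ) : ℝ) * 10) := mul_le_mul_of_nonneg_left h1 hc0.le
      _ = m / 16 := by
          rw [hc]; push_cast; field_simp; ring
  refine ⟨W', fun j hj => ?_, ?_, ?_⟩
  · have := hW'W hj
    simpa using this
  · have h1 := fitr_her D.lam D.pos W' p K c n hD.lam0 hc0 hK0.le hn1 hD.frl hfloor
    refine fitr_her_mono (fun j => ?_) ?_ h1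
    · by_cases hj : j ∈ W'
      · simp only [if_pos hj]; exact hD.lam0 j
      · simp only [if_neg hj]; exact le_rfl
    · rw [hx4inv, hc]
      have e : K / (m / (160 * ((n : ℝ) + 1))) = 160 * ((n : ℝ) + 1) * K / m := by field_simp
      rw [e, div_le_iff₀ hm0]
      have hxi : 0 < x⁻¹ := inv_pos.2 hx0
      calc 160 * ((n : ℝ) + 1) * K ≤ x⁻¹ * x⁻¹ * x⁻¹ := by
            have h160 : (160 : ℝ) ≤ x⁻¹ := by
              rw [le_inv_comm₀ (by norm_num) hx0]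
              simpa using hx1
            gcongr
        _ = (x ^ 4)⁻¹ * x := by field_simp
        _ ≤ (x ^ 4)⁻¹ * m := mul_le_mul_of_nonneg_left hmx (by positivity)
  · have h1 := fitr_pop D.lam D.wt hD.lam0 hD.lam1 hwt m hmdef
      (univ.filter fun j => m / 4 ≤ D.m1 j ∨ m / 4 ≤ D.m2 j) W' (fun j hj => ?_) hW'W (by linarith)
    · refine le_trans ?_ h1
      rw [hx4]
      have : x ^ 4 ≤ x * (1 / 160) ^ 3 := by
        have : x ^ 3 ≤ (1 / 160 : ℝ) ^ 3 := pow_le_pow_left₀ hx0.le hx1 3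
        calc x ^ 4 = x * x ^ 3 := by ring
          _ ≤ x * (1 / 160) ^ 3 := mul_le_mul_of_nonneg_left this hx0.le
      nlinarith
    · simp only [Finset.mem_filter, Finset.mem_univ, true_and, not_or, not_le] at hj
      exact ⟨hj.1.le, hj.2.le⟩

end Claimed.Agent.R252
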