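import Claimed.Agent.R252.Fit.Defs

/-!
# Row 252, unit FIT, file PRUNE: CONTRACT leaves of `fit_prep` (steps 1, 2 of `origin/helper9:notes/R252/fit.md`)      (architect: helper9)
All leaves are PAPER-FREE, elementary finite combinatorics.  Statements FROZEN (a defect: one line to helper9).  Helper lemmas: prefix `fitr_`, directly above the theorem.
-/

set_option autoImplicit false

namespace Claimed.Agent.R252

open Finset Classical
open Claimed.Agent.R255 (rtCell RtTreeHer)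

/-- pruning by a potential, abstract cells -/
theorem fitr_prune_aux {ι γ : Type} [DecidableEq ι] [DecidableEq γ] (lam : ι → ℝ) (cell : ℕ → ι → γ) (W : Finset ι) (n : ℕ)
    (c : ℝ) (hc : 0 ≤ c) :
    ∃ W' : Finset ι, W' ⊆ W ∧
      ∑ i ∈ W, lam i - c * ∑ k ∈ range (n + 1), (1 / 2 : ℝ) ^ k * ((W.image (cell k)).card : ℝ) ≤ ∑ i ∈ W', lam i ∧
      ∀ k ≤ n, ∀ i₀ ∈ W', c * (1 / 2 : ℝ) ^ k ≤ ∑ i ∈ W'.filter (fun i => cell k i = cell k i₀), lam i := by
  obtain ⟨W', hW', hmax⟩ := Finset.exists_max_image W.powerset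
    (fun V => ∑ i ∈ V, lam i - c * ∑ k ∈ range (n + 1), (1 / 2 : ℝ) ^ k * ((V.image (cell k)).card : ℝ))
    ⟨W, Finset.mem_powerset_self W⟩
  have hsub : W' ⊆ W := Finset.mem_powerset.1 hW'
  refine ⟨W', hsub, ?_, fun k hk i₀ hi₀ => ?_⟩
  · have h1 := hmax W (Finset.mem_powerset_self W)
    have h2 : 0 ≤ c * ∑ k ∈ range (n + 1), (1 / 2 : ℝ) ^ k * ((W'.image (cell k)).card : ℝ) :=
      mul_nonneg hc (Finset.sum_nonneg fun k _ => by positivity)
    linarith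
  · have hV : W'.filter (fun i => ¬ cell k i = cell k i₀) ∈ W.powerset :=
      Finset.mem_powerset.2 ((Finset.filter_subset _ _).trans hsub)
    have h1 := hmax _ hV
    have h2 := Finset.sum_filter_add_sum_filter_not W' (fun i => cell k i = cell k i₀) lam
    have h3 : ∑ l ∈ range (n + 1), (1 / 2 : ℝ) ^ l * (((W'.filter (fun i => ¬ cell k i = cell k i₀)).image (cell l)).card : ℝ)
        + (1 / 2 : ℝ) ^ k ≤ ∑ l ∈ range (n + 1), (1 / 2 : ℝ) ^ l * ((W'.image (cell l)).card : ℝ) := by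
      have e : (1 / 2 : ℝ) ^ k = ∑ l ∈ range (n + 1), if l = k then (1 / 2 : ℝ) ^ l else 0 := by
        rw [Finset.sum_ite_eq' (range (n + 1)) k, if_pos (Finset.mem_range.2 (Nat.lt_succ_of_le hk))]
      rw [e, ← Finset.sum_add_distrib]
      refine Finset.sum_le_sum fun l _ => ?_
      have hp : (0 : ℝ) ≤ (1 / 2 : ℝ) ^ l := by positivity
      have hmono : ((W'.filter (fun i => ¬ cell k i = cell k i₀)).image (cell l)) ⊆ W'.image (cell l) :=
        Finset.image_subset_image (Finset.filter_subset _ _)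
      by_cases hl : l = k
      · subst hl
        rw [if_pos rfl]
        have hlt : ((W'.filter (fun i => ¬ cell l i = cell l i₀)).image (cell l)).card + 1 ≤ (W'.image (cell l)).card := by
          refine Finset.card_lt_card ((Finset.ssubset_iff_of_subset hmono).2 ⟨cell l i₀, Finset.mem_image_of_mem _ hi₀, ?_⟩)
          intro hmem
          obtain ⟨i, hi, hie⟩ := Finset.mem_image.1 hmem
          exact (Finset.mem_filter.1 hi).2 hie
        have hlt' : (((W'.filter (fun i => ¬ cell l i = cell l i₀)).image (cell l)).card : ℝ) + 1 ≤ ((W'.image (cell l)).card : ℝ) := by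
          exact_mod_cast hlt
        nlinarith
      · rw [if_neg hl, add_zero]
        exact mul_le_mul_of_nonneg_left (by exact_mod_cast Finset.card_le_card hmono) hp
    have h4 := mul_le_mul_of_nonneg_left h3 hc
    rw [mul_add] at h4
    linarith

/-- LEAF L-252-FIT-P1 (~100 l.).  PRUNING BY A POTENTIAL.
`Φ(V) = ∑_{i∈V} lam i - c ∑_{k≤n} 2^-k N_k(V)`, `N_k(V) = card (V.image (rtCell k ∘ pos))`.  Take `W' ∈ W.powerset` maximising `Φ` (`Finset.exists_max_image`).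
Mass: `∑_{W'} lam ≥ Φ(W') ≥ Φ(W)` (the subtracted term is `≥ 0`).
Floor: for `i₀ ∈ W'`, `k ≤ n` let `V = W'.filter (rtCell k (pos i) ≠ rtCell k (pos i₀))`.  `N_l(V) ≤ N_l(W')` for all `l` (image of a subset), `N_k(V) + 1 ≤ N_k(W')`
(the cell of `i₀` is in the image of `W'`, not of `V`), `∑_V lam = ∑_{W'} lam - ∑_{W' ∩ cell} lam` (`Finset.sum_filter_add_sum_filter_not`).  `Φ(V) ≤ Φ(W')` gives the floor. -/
theorem fitr_prune {ι : Type} [Fintype ι] (lam : ι → ℝ) (pos : ι → ℝ × ℝ) (W : Finset ι) (n : ℕ) (c : ℝ) (hc : 0 ≤ c) :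
    ∃ W' : Finset ι, W' ⊆ W ∧
      ∑ i ∈ W, lam i - c * ∑ k ∈ range (n + 1), (1 / 2 : ℝ) ^ k * ((W.image fun i => rtCell k (pos i)).card : ℝ)
        ≤ ∑ i ∈ W', lam i ∧
      ∀ k ≤ n, ∀ i₀ ∈ W', c * (1 / 2 : ℝ) ^ k ≤ ∑ i ∈ W' with rtCell k (pos i) = rtCell k (pos i₀), lam i := by
  obtain ⟨W', h1, h2, h3⟩ := fitr_prune_aux lam (fun k i => rtCell k (pos i)) W n c hc
  refine ⟨W', h1, h2, fun k hk i₀ hi₀ => ?_⟩
  convert h3 k hk i₀ hi₀

theorem fitr_floor_near {x y : ℝ} (h : |x - y| < 2) : ⌊x⌋ ∈ Finset.Icc (⌊y⌋ - 2) (⌊y⌋ + 2) := by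
  rw [abs_lt] at h
  rw [Finset.mem_Icc]
  have hx1 := Int.floor_le x
  have hx2 := Int.lt_floor_add_one x
  have hy1 := Int.floor_le y
  have hy2 := Int.lt_floor_add_one y
  constructor
  · have : ((⌊y⌋ : ℤ) : ℝ) - 3 < ((⌊x⌋ : ℤ) : ℝ) := by linarith [h.1]
    have h2 : (⌊y⌋ - 3 : ℤ) < ⌊x⌋ := by exact_mod_cast this
    omega
  · have : ((⌊x⌋ : ℤ) : ℝ) < ((⌊y⌋ : ℤ) : ℝ) + 3 := by linarith [h.2]
    have h2 : ⌊x⌋ < (⌊y⌋ + 3 : ℤ) := by exact_mod_cast this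
    omega

theorem fitr_floor_eq_abs {x y : ℝ} (h : ⌊x⌋ = ⌊y⌋) : |x - y| < 1 := by
  have hx1 := Int.floor_le x
  have hx2 := Int.lt_floor_add_one x
  have hy1 := Int.floor_le y
  have hy2 := Int.lt_floor_add_one y
  rw [h] at hx1 hx2
  rw [abs_lt]
  constructor <;> linarith

/-- LEAF L-252-FIT-P2 (~120 l.).  A Lipschitz graph over `[0,1]` meets at most `10·2^k` dyadic squares of level `k`.
`rtCell k (x,y) = (⌊x 2^k⌋, ⌊y 2^k⌋)`.  First coordinates lie in `Finset.Icc 0 2^k` (`2^k + 1 ≤ 2·2^k` values).  In the fibre over one first coordinate, with a reference index `i₁`: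
`|v i - v i₁| ≤ 2^-k`, so `|g i 2^k - g i₁ 2^k| ≤ 2`, so `⌊g i 2^k⌋ ∈ Icc (b₁-2) (b₁+2)` (5 values).  `Finset.card_le_mul_card_image` (or card of a biUnion). -/
theorem fitr_cells {ι : Type} (v g : ι → ℝ) (W : Finset ι) (p : ℝ) (k : ℕ) (hk : p ≤ (1 / 2 : ℝ) ^ k)
    (hv : ∀ i, 0 ≤ v i ∧ v i ≤ 1) (hlip : ∀ i i', |g i - g i'| ≤ |v i - v i'| + p) :
    ((W.image fun i => rtCell k (v i, g i)).card : ℝ) ≤ 10 * 2 ^ k := by
  have hD0 : (0 : ℝ) < 2 ^ k := by positivity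
  have hpD : p * 2 ^ k ≤ 1 := by
    have e : (1 / 2 : ℝ) ^ k * 2 ^ k = 1 := by
      rw [← mul_pow]
      norm_num
    calc p * 2 ^ k ≤ (1 / 2 : ℝ) ^ k * 2 ^ k := mul_le_mul_of_nonneg_right hk hD0.le
      _ = 1 := e
  set T := W.image fun i => rtCell k (v i, g i) with hT
  have h1 : (T.image Prod.fst).card ≤ 2 ^ k + 1 := by
    have hsub : T.image Prod.fst ⊆ Finset.Icc (0 : ℤ) (2 ^ k) := by
      intro a ha
      obtain ⟨c, hc, rfl⟩ := Finset.mem_image.1 ha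
      obtain ⟨i, -, rfl⟩ := Finset.mem_image.1 hc
      rw [Finset.mem_Icc]
      constructor
      · exact Int.floor_nonneg.2 (mul_nonneg (hv i).1 hD0.le)
      · refine Int.floor_le_iff.2 ?_
        push_cast
        show v i * 2 ^ k < 2 ^ k + 1
        nlinarith [(hv i).2]
    refine (Finset.card_le_card hsub).trans (le_of_eq ?_)
    rw [Int.card_Icc]
    have : ((2 : ℤ) ^ k + 1 - 0) = ((2 ^ k + 1 : ℕ) : ℤ) := by push_cast; ring
    rw [this, Int.toNat_natCast]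
  have h2 : T.card ≤ 5 * (T.image Prod.fst).card := by
    refine Finset.card_le_mul_card_image T 5 fun a ha => ?_
    obtain ⟨c, hc, rfl⟩ := Finset.mem_image.1 ha
    obtain ⟨i₁, -, rfl⟩ := Finset.mem_image.1 hc
    have hsub : (T.filter fun x => x.1 = (rtCell k (v i₁, g i₁)).1)
        ⊆ ({(rtCell k (v i₁, g i₁)).1} : Finset ℤ) ×ˢ Finset.Icc (⌊g i₁ * 2 ^ k⌋ - 2) (⌊g i₁ * 2 ^ k⌋ + 2) := by
      intro x hx
      obtain ⟨hxT, hx1⟩ := Finset.mem_filter.1 hx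
      obtain ⟨i, -, rfl⟩ := Finset.mem_image.1 hxT
      rw [Finset.mem_product, Finset.mem_singleton]
      refine ⟨hx1, ?_⟩
      have hfl : ⌊v i * 2 ^ k⌋ = ⌊v i₁ * 2 ^ k⌋ := hx1
      have ha := fitr_floor_eq_abs hfl
      show ⌊g i * 2 ^ k⌋ ∈ _
      refine fitr_floor_near ?_
      rw [← sub_mul, abs_mul, abs_of_pos hD0] at ha ⊢
      have := mul_le_mul_of_nonneg_right (hlip i i₁) hD0.le
      rw [add_mul] at this
      linarith
    refine (Finset.card_le_card hsub).trans (le_of_eq ?_)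
    rw [Finset.card_product, Finset.card_singleton, Int.card_Icc]
    have : (⌊g i₁ * 2 ^ k⌋ + 2 + 1 - (⌊g i₁ * 2 ^ k⌋ - 2)) = 5 := by ring
    rw [this]
    rfl
  have h3 : T.card ≤ 10 * 2 ^ k := by
    have : 1 ≤ 2 ^ k := Nat.one_le_two_pow
    omega
  exact_mod_cast h3

theorem fitr_her_sum {J : Type} [Fintype J] (lam : J → ℝ) (W' : Finset J) (P : J → Prop) [DecidablePred P] :
    ∑ i with P i, (if i ∈ W' then lam i else 0) = ∑ i ∈ W' with P i, lam i := by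
  rw [Finset.sum_ite_mem]
  refine Finset.sum_congr ?_ fun _ _ => rfl
  ext i
  simp only [mem_inter, mem_filter, mem_univ, true_and]
  tauto

/-- LEAF L-252-FIT-P3 (~120 l.).  floors + Frostman ceiling ⟹ hereditary tree condition.
Fix `k ≤ k'`, `p ≤ 2^-k'`, `i₀`.  If no `i ∈ W'` has `rtCell k' (pos i) = rtCell k' (pos i₀)` the left side is `0` and the right side is `≥ 0`.
Otherwise fix such an `i₁ ∈ W'`.  LEFT `≤ ∑_{|(pos i).1 - (pos i₁).1| ≤ 2^-k'} lam i ≤ K 2^-k'` (`R255.rp_child_diam` or directly from the floors; `hfr` with `r = 2^-k'`).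
RIGHT: `rtCell k (pos i₁) = rtCell k (pos i₀)` (`R255.rp_child_nest`), so the sum is `≥ c 2^-k` by `hfloor k _ i₁`; `(K/c) (2^-(k'-k))^1 c 2^-k = K 2^-k'`. -/
theorem fitr_her {J : Type} [Fintype J] (lam : J → ℝ) (pos : J → ℝ × ℝ) (W' : Finset J) (p K c : ℝ) (n : ℕ)
    (hl : ∀ j, 0 ≤ lam j) (hc : 0 < c) (hK : 0 ≤ K) (hn : ∀ k : ℕ, p ≤ (1 / 2 : ℝ) ^ k → k ≤ n)
    (hfr : FitFr lam (fun j => (pos j).1) K p)
    (hfloor : ∀ k ≤ n, ∀ i₀ ∈ W', c * (1 / 2 : ℝ) ^ k ≤ ∑ i ∈ W' with rtCell k (pos i) = rtCell k (pos i₀), lam i) :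
    RtTreeHer (fun j => if j ∈ W' then lam j else 0) pos (K / c) 1 p := by
  intro k k' hkk hp i₀
  show ∑ i with rtCell k' (pos i) = rtCell k' (pos i₀), (if i ∈ W' then lam i else 0) ≤
    K / c * ((1 / 2 : ℝ) ^ (k' - k)) ^ (1 : ℝ) * ∑ i with rtCell k (pos i) = rtCell k (pos i₀), (if i ∈ W' then lam i else 0)
  rw [Real.rpow_one, fitr_her_sum, fitr_her_sum]
  by_cases hex : ∃ i₁ ∈ W', rtCell k' (pos i₁) = rtCell k' (pos i₀)
  · obtain ⟨i₁, h1, h2⟩ := hex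
    have hL : ∑ i ∈ W' with rtCell k' (pos i) = rtCell k' (pos i₀), lam i ≤ K * (1 / 2 : ℝ) ^ k' := by
      refine le_trans ?_ (hfr (pos i₁).1 ((1 / 2 : ℝ) ^ k') hp)
      refine Finset.sum_le_sum_of_subset_of_nonneg (fun i hi => ?_) fun i _ _ => hl i
      rw [mem_filter] at hi ⊢
      refine ⟨mem_univ _, ?_⟩
      have hd := Claimed.Agent.R255.rp_child_diam k' (pos i) (pos i₁) (hi.2.trans h2.symm)
      rw [Prod.dist_eq, Real.dist_eq] at hd
      exact (le_max_left _ _).trans hd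
    have hpk : p ≤ (1 / 2 : ℝ) ^ k := hp.trans (pow_le_pow_of_le_one (by norm_num) (by norm_num) hkk)
    have hR := hfloor k (hn k hpk) i₁ h1
    rw [Claimed.Agent.R255.rp_child_nest k k' hkk _ _ h2] at hR
    have e : K * (1 / 2 : ℝ) ^ k' = K / c * (1 / 2 : ℝ) ^ (k' - k) * (c * (1 / 2 : ℝ) ^ k) := by
      obtain ⟨d, rfl⟩ := Nat.exists_eq_add_of_le hkk
      rw [Nat.add_sub_cancel_left, pow_add]
      field_simp
    refine hL.trans ?_
    rw [e]
    exact mul_le_mul_of_nonneg_left hR (by positivity)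
  · have h0 : ∑ i ∈ W' with rtCell k' (pos i) = rtCell k' (pos i₀), lam i = 0 := by
      refine Finset.sum_eq_zero fun i hi => ?_
      rw [mem_filter] at hi
      exact absurd ⟨i, hi.1, hi.2⟩ hex
    rw [h0]
    have : 0 ≤ ∑ i ∈ W' with rtCell k (pos i) = rtCell k (pos i₀), lam i := Finset.sum_nonneg fun i _ => hl i
    positivity

/-- LEAF L-252-FIT-P4 (~60 l.).  The number of dyadic levels above `p` is sub-polynomial.
(v2, 18:58Z: the clause `p ≤ 2^-n` was added.)  `n = ⌊Real.logb 2 (1/p)⌋₊` (`p₃ ≤ 1`); `p ≤ 2^-k ⟺ k ≤ logb 2 (1/p)`; `log x ≤ x^ε'/ε'` (`Real.log_le_rpow_div`) with `ε' = ε/2`, then `p` small. -/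
theorem fitr_levels (ε : ℝ) (hε : 0 < ε) :
    ∃ p₃ : ℝ, 0 < p₃ ∧ ∀ p : ℝ, 0 < p → p < p₃ →
      ∃ n : ℕ, (∀ k : ℕ, p ≤ (1 / 2 : ℝ) ^ k → k ≤ n) ∧ p ≤ (1 / 2 : ℝ) ^ n ∧ ((n : ℝ) + 1) ≤ p ^ (-ε) := by
  have hlog2 : 0 < Real.log 2 := Real.log_pos (by norm_num)
  obtain ⟨A, hA⟩ : ∃ A : ℝ, A = 2 / (ε * Real.log 2) + 1 := ⟨_, rfl⟩
  have hA1 : 1 ≤ A := by
    rw [hA]
    have : 0 ≤ 2 / (ε * Real.log 2) := by positivity
    linarith
  have hA0 : 0 < A := by linarith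
  refine ⟨min 1 (A ^ (-(2 / ε))), lt_min one_pos (Real.rpow_pos_of_pos hA0 _), fun p hp0 hp => ?_⟩
  have hp1 : p < 1 := hp.trans_le (min_le_left _ _)
  have hpA : p ≤ A ^ (-(2 / ε)) := (hp.trans_le (min_le_right _ _)).le
  -- y = p^(-ε/2) ≥ A
  obtain ⟨y, hy⟩ : ∃ y : ℝ, y = p ^ (-(ε / 2)) := ⟨_, rfl⟩
  have hyA : A ≤ y := by
    have h1 : (A ^ (-(2 / ε))) ^ (-(ε / 2)) ≤ p ^ (-(ε / 2)) :=
      Real.rpow_le_rpow_of_nonpos hp0 hpA (by linarith)
    rw [← Real.rpow_mul hA0.le] at h1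
    have h2 : -(2 / ε) * -(ε / 2) = 1 := by field_simp
    rw [h2, Real.rpow_one] at h1
    rw [hy]
    exact h1
  have hyy : p ^ (-ε) = y * y := by
    rw [hy, ← Real.rpow_add hp0]
    congr 1
    ring
  have hlog : Real.log p⁻¹ ≤ y / (ε / 2) := by
    have := Real.log_le_rpow_div (inv_nonneg.2 hp0.le) (half_pos hε)
    rwa [Real.inv_rpow hp0.le, ← Real.rpow_neg hp0.le, ← hy] at this
  have hlogn : 0 ≤ Real.log p⁻¹ := Real.log_nonneg (by rw [one_le_inv₀ hp0]; exact hp1.le)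
  refine ⟨⌊Real.log p⁻¹ / Real.log 2⌋₊, fun k hk => ?_, ?_, ?_⟩
  · apply Nat.le_floor
    rw [le_div_iff₀ hlog2]
    have h1 : (2 : ℝ) ^ k ≤ p⁻¹ := by
      rw [one_div, inv_pow] at hk
      rw [le_inv_comm₀ (by positivity) hp0]
      exact hk
    have h2 := Real.log_le_log (by positivity) h1
    rwa [Real.log_pow] at h2
  · have h1 : ((⌊Real.log p⁻¹ / Real.log 2⌋₊ : ℕ) : ℝ) ≤ Real.log p⁻¹ / Real.log 2 := Nat.floor_le (by positivity)
    rw [le_div_iff₀ hlog2, ← Real.log_pow] at h1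
    have h2 := (Real.log_le_log_iff (by positivity) (inv_pos.2 hp0)).1 h1
    rw [one_div, inv_pow]
    rw [le_inv_comm₀ (by positivity) hp0] at h2
    exact h2
  · have h1 : ((⌊Real.log p⁻¹ / Real.log 2⌋₊ : ℕ) : ℝ) ≤ Real.log p⁻¹ / Real.log 2 := Nat.floor_le (by positivity)
    have h2 : Real.log p⁻¹ / Real.log 2 ≤ y / (ε / 2) / Real.log 2 := div_le_div_of_nonneg_right hlog hlog2.le
    have h3 : y / (ε / 2) / Real.log 2 = 2 / (ε * Real.log 2) * y := by field_simp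
    have hy1 : 1 ≤ y := hA1.trans hyA
    rw [hyy]
    have h4 : 2 / (ε * Real.log 2) * y + 1 ≤ A * y := by
      rw [hA]
      nlinarith
    have h5 : A * y ≤ y * y := mul_le_mul_of_nonneg_right hyA (by linarith)
    linarith

theorem fitr_pop_aux {J : Type} [Fintype J] (lam : J → ℝ) (hl0 : ∀ j, 0 ≤ lam j) (hl1 : ∑ j, lam j ≤ 1) (m : ℝ) (hm0 : 0 ≤ m)
    (W W' : Finset J) (hWW : W' ⊆ W) (hloss : ∑ j ∈ W, lam j - m / 16 ≤ ∑ j ∈ W', lam j) (M : J → ℝ) (hM1 : ∀ j, M j ≤ 1)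
    (hM : ∀ j, j ∉ W → M j ≤ m / 4) :
    ∑ j, (if j ∈ W' then 0 else lam j) * M j ≤ m / 4 + m / 16 := by
  have h1 : ∀ j, (if j ∈ W' then 0 else lam j) * M j ≤ lam j * (m / 4) + (if j ∈ W \ W' then lam j else 0) := by
    intro j
    have hq : 0 ≤ lam j * (m / 4) := mul_nonneg (hl0 j) (by linarith)
    by_cases h : j ∈ W'
    · have : j ∉ W \ W' := fun h' => (mem_sdiff.1 h').2 h
      rw [if_pos h, if_neg this]
      linarith
    · rw [if_neg h]
      by_cases h' : j ∈ W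
      · rw [if_pos (mem_sdiff.2 ⟨h', h⟩)]
        have := mul_le_mul_of_nonneg_left (hM1 j) (hl0 j)
        linarith
      · have h3 : j ∉ W \ W' := fun h'' => h' (mem_sdiff.1 h'').1
        rw [if_neg h3]
        have := mul_le_mul_of_nonneg_left (hM j h') (hl0 j)
        linarith
  refine (Finset.sum_le_sum fun j _ => h1 j).trans ?_
  rw [Finset.sum_add_distrib, ← Finset.sum_mul, Finset.sum_ite_mem, univ_inter]
  have h2 : ∑ j ∈ W \ W', lam j = ∑ j ∈ W, lam j - ∑ j ∈ W', lam j := by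
    rw [← Finset.sum_sdiff hWW]
    ring
  have h3 : (∑ j, lam j) * (m / 4) ≤ 1 * (m / 4) := mul_le_mul_of_nonneg_right hl1 (by linarith)
  rw [h2]
  linarith

/-- LEAF L-252-FIT-P5 (~150 l.).  Mass bookkeeping.  `m1 j = ∑_j' lam j' wt j j'`, `m2 j' = ∑_j lam j wt j j'`.
total `= m`.  Pairs with `j ∉ W'`: `∑_{j∉W} lam j m1 j ≤ m/4` and `∑_{j∈W\W'} lam j m1 j ≤ lam(W\W') ≤ m/16` (`m1 ≤ 1`).  The same for `j' ∉ W'` with `m2`.
So the pairs in `W' × W'` carry `≥ m - 2(m/4 + m/16) = 3m/8`. -/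
theorem fitr_pop {J : Type} [Fintype J] (lam : J → ℝ) (wt : J → J → ℝ) (hl0 : ∀ j, 0 ≤ lam j) (hl1 : ∑ j, lam j ≤ 1)
    (hwt : ∀ j j', 0 ≤ wt j j' ∧ wt j j' ≤ 1) (m : ℝ) (hm : m = ∑ j, ∑ j', lam j * lam j' * wt j j') (W W' : Finset J)
    (hW : ∀ j, j ∉ W → ∑ j', lam j' * wt j j' ≤ m / 4 ∧ ∑ j', lam j' * wt j' j ≤ m / 4) (hWW : W' ⊆ W)
    (hloss : ∑ j ∈ W, lam j - m / 16 ≤ ∑ j ∈ W', lam j) :
    3 * m / 8 ≤ ∑ j, ∑ j', (if j ∈ W' then lam j else 0) * (if j' ∈ W' then lam j' else 0) * wt j j' := by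
  have hm0 : 0 ≤ m := by
    rw [hm]
    exact Finset.sum_nonneg fun j _ => Finset.sum_nonneg fun j' _ => mul_nonneg (mul_nonneg (hl0 j) (hl0 j')) (hwt j j').1
  have hone : ∀ (w : J → ℝ), (∀ j', 0 ≤ w j' ∧ w j' ≤ 1) → ∑ j', lam j' * w j' ≤ 1 := by
    intro w hw
    refine le_trans (Finset.sum_le_sum fun j' _ => ?_) hl1
    have := mul_le_mul_of_nonneg_left (hw j').2 (hl0 j')
    linarith
  have a1 := fitr_pop_aux lam hl0 hl1 m hm0 W W' hWW hloss (fun j => ∑ j', lam j' * wt j j') (fun j => hone _ fun j' => hwt j j')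
    (fun j hj => (hW j hj).1)
  have a2 := fitr_pop_aux lam hl0 hl1 m hm0 W W' hWW hloss (fun j => ∑ j', lam j' * wt j' j) (fun j => hone _ fun j' => hwt j' j)
    (fun j hj => (hW j hj).2)
  have hpt : ∀ j j', lam j * lam j' * wt j j' ≤ (if j ∈ W' then lam j else 0) * (if j' ∈ W' then lam j' else 0) * wt j j'
      + (if j ∈ W' then 0 else lam j) * (lam j' * wt j j') + (if j' ∈ W' then 0 else lam j') * (lam j * wt j j') := by
    intro j j'
    have q := mul_nonneg (mul_nonneg (hl0 j) (hl0 j')) (hwt j j').1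
    by_cases h : j ∈ W' <;> by_cases h' : j' ∈ W' <;> simp only [h, h', if_true, if_false] <;> nlinarith
  have hsum : m ≤ ∑ j, ∑ j', (if j ∈ W' then lam j else 0) * (if j' ∈ W' then lam j' else 0) * wt j j'
      + ∑ j, (if j ∈ W' then 0 else lam j) * ∑ j', lam j' * wt j j' + ∑ j, (if j ∈ W' then 0 else lam j) * ∑ j', lam j' * wt j' j := by
    rw [hm]
    refine (Finset.sum_le_sum fun j _ => Finset.sum_le_sum fun j' _ => hpt j j').trans (le_of_eq ?_)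
    simp only [Finset.sum_add_distrib, Finset.mul_sum]
    congr 1
    exact Finset.sum_comm
  linarith

end Claimed.Agent.R252
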